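import Vale.Agent.P168.Limit.CavityBase

/-! From the laws of the disorder to Poisson families of clauses. -/

open MeasureTheory ProbabilityTheory Filter
open scoped BigOperators NNReal ENNReal Topology

noncomputable section

namespace Vale.Agent.P168.Limit.Cavity

open Toolkit

variable {K N : ℕ}

/-- The law of a clause with uniform sites. -/
def markLaw (P : Measure (Factor K)) (N : ℕ) : Measure (Mark K N) :=
  P.prod (unifFin (Fin K → Fin N))

/-- The bound on the clause energies. -/
def clauseBd (c : ℝ) : ℝ := -Real.log (1 - c)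

theorem prob_unifFin {α : Type*} [Fintype α] [Nonempty α] [MeasurableSpace α] :
    IsProbabilityMeasure (unifFin α) := by
  refine ⟨?_⟩
  simp [unifFin, Measure.count_univ, ENat.card_eq_coe_fintype_card,
    ENNReal.inv_mul_cancel]

theorem integral_unifFin {α : Type*} [Fintype α] [Nonempty α] [MeasurableSpace α]
    [MeasurableSingletonClass α] (f : α → ℝ) :
    ∫ a, f a ∂unifFin α = (Fintype.card α : ℝ)⁻¹ * ∑ a, f a := by
  have := prob_unifFin (α := α)
  rw [integral_fintype .of_finite, Finset.mul_sum]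
  refine Finset.sum_congr rfl fun a _ => ?_
  simp [unifFin, measureReal_def, Measure.count_singleton]

theorem prob_markLaw (P : Measure (Factor K)) [IsProbabilityMeasure P] [NeZero N] :
    IsProbabilityMeasure (markLaw P N) := by
  have := prob_unifFin (α := Fin K → Fin N)
  unfold markLaw
  infer_instance

/-- Finitely many coordinates of an iid sequence are iid. -/
theorem measurePreserving_marginal {ι κ X : Type*} [Fintype κ] [MeasurableSpace X]
    (μ : Measure X) [IsProbabilityMeasure μ] (f : κ → ι) (hf : Function.Injective f) :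
    MeasurePreserving (fun s : ι → X => fun i => s (f i))
      (Measure.infinitePi fun _ => μ) (Measure.pi fun _ => μ) := by
  have hm : Measurable fun s : ι → X => fun i => s (f i) :=
    measurable_pi_lambda _ fun i => measurable_pi_apply _
  refine ⟨hm, (Measure.pi_eq fun S hS => ?_).symm⟩
  classical
  rw [Measure.map_apply hm (MeasurableSet.univ_pi hS)]
  have e : (fun s : ι → X => fun i => s (f i)) ⁻¹' Set.univ.pi S =
      Set.pi (Finset.univ.map ⟨f, hf⟩ : Finset ι) (Function.extend f S fun _ => Set.univ) := by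
    ext s
    simp [hf.extend_apply]
  rw [e, Measure.infinitePi_pi _ (fun i hi => ?_), Finset.prod_map]
  · simp [hf.extend_apply]
  · obtain ⟨j, -, rfl⟩ := Finset.mem_map.1 hi
    simpa [hf.extend_apply] using hS j

variable {P : Measure (Factor K)} {Q : Measure ℝ} {c H : ℝ}

theorem IsBoundedModel.c_nonneg (hM : IsBoundedModel P Q c H) : 0 ≤ c := by
  have := hM.prob_factor
  obtain ⟨θ, h⟩ := hM.b_le.exists
  exact (abs_nonneg _).trans h

theorem IsBoundedModel.H_nonneg (hM : IsBoundedModel P Q c H) : 0 ≤ H := by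
  have := hM.prob_field
  obtain ⟨h, hh⟩ := hM.h_le.exists
  exact (abs_nonneg _).trans hh

theorem IsBoundedModel.clauseBd_nonneg (hM : IsBoundedModel P Q c H) : 0 ≤ clauseBd c := by
  have := IsBoundedModel.c_nonneg hM
  have := hM.c_lt
  simp only [clauseBd, neg_nonneg]
  exact Real.log_nonpos (by linarith) (by linarith)

theorem IsBoundedModel.weight_ae (hM : IsBoundedModel P Q c H) :
    ∀ᵐ θ ∂P, ∀ σ : Fin K → Bool, 1 - c ≤ factorWeight θ σ ∧ factorWeight θ σ ≤ 1 + c := by
  filter_upwards [hM.bounds, hM.scale_one, hM.b_le] with θ h1 h2 h3 σ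
  have hp : |∏ j, θ.2.2 j (σ j)| ≤ 1 := by
    rw [Finset.abs_prod]
    exact Finset.prod_le_one (fun j _ => abs_nonneg _) fun j _ => h1.2.2 j (σ j)
  have h4 : |θ.2.1 * ∏ j, θ.2.2 j (σ j)| ≤ c := by
    rw [abs_mul]
    exact (mul_le_of_le_one_right (abs_nonneg _) hp).trans h3
  rw [abs_le] at h4
  simp only [factorWeight, h2, one_mul]
  constructor <;> linarith

theorem IsBoundedModel.theta_ae (hM : IsBoundedModel P Q c H) :
    ∀ᵐ θ ∂P, ∀ σ : Fin K → Bool, |theta θ σ| ≤ clauseBd c := by
  filter_upwards [IsBoundedModel.weight_ae hM] with θ h σ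
  obtain ⟨h1, h2⟩ := h σ
  have hc := hM.c_lt
  have hc0 := IsBoundedModel.c_nonneg hM
  have hpos : 0 < factorWeight θ σ := by linarith
  rw [theta, clauseBd, abs_le, neg_neg]
  refine ⟨Real.log_le_log (by linarith) h1, ?_⟩
  rw [← Real.log_inv]
  refine Real.log_le_log hpos (h2.trans ?_)
  rw [inv_eq_one_div, le_div_iff₀ (by linarith)]
  nlinarith

theorem hamiltonian_eq_ham {B : ℝ} {n : ℕ} {cl : Fin n → Mark K N} {h : Fin N → ℝ}
    (hc : ∀ k σ, |theta (cl k).1 σ| ≤ B) (hh : ∀ i, |h i| ≤ H) :
    hamiltonian cl h = ham B H cl h := by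
  funext σ
  simp only [hamiltonian, ham, fieldE, clauseE, clipR_eq (hh _), clipR_eq (hc _ _)]

variable (p : Params)

/-- Integrals over the disorder as iterated integrals. -/
theorem integral_disLaw [NeZero N] [IsProbabilityMeasure P] [IsProbabilityMeasure Q] (μ : ℝ≥0)
    (g : (k : ℕ) → (Fin k → Mark K N) → (Fin N → ℝ) → Env p N → (Feat p.L p.S → ℝ) → ℝ)
    (hg : ∀ k e, Measurable fun q : ((Fin k → Mark K N) × (Fin N → ℝ)) × (Feat p.L p.S → ℝ) =>
      g k q.1.1 q.1.2 e q.2)
    {A₀ B₀ : ℝ} {C : Feat p.L p.S → ℝ}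
    (hb : ∀ k cl h e J, |g k cl h e J| ≤ A₀ + B₀ * k + ∑ f, C f * |J f|) :
    ∫ d, g d.1.1.1 (fun i => d.1.1.2 i) d.1.2 d.2.1 d.2.2 ∂disLaw p N P Q μ =
      ∫ k, ∫ cl, ∫ h, envAvg p (fun e => ∫ J, g k cl h e J ∂gaussPi (Feat p.L p.S))
        ∂(Measure.pi fun _ => Q) ∂(Measure.pi fun _ => markLaw P N) ∂poissonMeasure μ := by
  have := nonempty_env p (N := N)
  have := prob_markLaw P (N := N)
  have := prob_unifFin (α := Env p N)
  have hsJ : Integrable (fun J : Feat p.L p.S → ℝ => ∑ f, C f * |J f|) (gaussPi _) :=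
    integrable_finsetSum _ fun f _ => (integrable_eval_gaussPi f).abs.const_mul _
  set R : ℝ := ∫ J, ∑ f, C f * |J f| ∂gaussPi (Feat p.L p.S) with hR
  -- the integrand on the sample space
  set G : Dis K p N → ℝ := fun d => g d.1.1.1 (fun i => d.1.1.2 i) d.1.2 d.2.1 d.2.2
  have hGm : Measurable G := by
    have h1 : Measurable fun z : (ℕ × Env p N) ×
        (((ℕ → Mark K N) × (Fin N → ℝ)) × (Feat p.L p.S → ℝ)) =>
          g z.1.1 (fun i => z.2.1.1 i) z.2.1.2 z.1.2 z.2.2 := by
      refine measurable_from_prod_countable_right fun ke => ?_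
      exact (hg ke.1 ke.2).comp (f := fun z : ((ℕ → Mark K N) × (Fin N → ℝ)) ×
        (Feat p.L p.S → ℝ) => (((fun i : Fin ke.1 => z.1.1 i), z.1.2), z.2)) (by fun_prop)
    exact h1.comp (f := fun d : Dis K p N => ((d.1.1.1, d.2.1), ((d.1.1.2, d.1.2), d.2.2)))
      (by fun_prop)
  have : IsProbabilityMeasure (P.prod (unifFin (Fin K → Fin N))) := prob_markLaw P (N := N)
  have hbase : IsProbabilityMeasure (baseLaw N P Q μ) := by
    have : IsProbabilityMeasure (P.prod (unifFin (Fin K → Fin N))) := prob_markLaw P (N := N)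
    unfold baseLaw
    infer_instance
  have hk : Integrable (fun b : Base K N => A₀ + B₀ * (b.1.1 : ℝ)) (baseLaw N P Q μ) :=
    (integrable_const A₀).add ((((Toolkit.integrable_count μ).comp_fst _).comp_fst _).const_mul B₀)
  have hGi : Integrable G (disLaw p N P Q μ) := by
    refine ((hk.comp_fst _).add ((hsJ.comp_snd _).comp_snd _)).mono' hGm.aestronglyMeasurable
      (ae_of_all _ fun d => ?_)
    exact hb _ _ _ _ _
  have hfin : IsFiniteMeasure (baseLaw N P Q μ) := ⟨by rw [hbase.measure_univ]; exact ENNReal.one_lt_top⟩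
  have hsf : SFinite (baseLaw N P Q μ) := @instSFiniteOfSigmaFinite _ _ _ hfin.toSigmaFinite
  change ∫ d, G d ∂disLaw p N P Q μ = _
  unfold disLaw at hGi ⊢
  rw [integral_prod (μ := baseLaw N P Q μ)
    (ν := (unifFin (Env p N)).prod (gaussPi (Feat p.L p.S))) G hGi]
  -- the inner integral
  set Gm : (k : ℕ) → (Fin k → Mark K N) × (Fin N → ℝ) → ℝ :=
    fun k q => envAvg p (fun e => ∫ J, g k q.1 q.2 e J ∂gaussPi (Feat p.L p.S)) with hGmdef
  have hinner : ∀ b : Base K N,
      ∫ r, G (b, r) ∂((unifFin (Env p N)).prod (gaussPi (Feat p.L p.S))) =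
        Gm b.1.1 (fun i => b.1.2 i, b.2) := by
    intro b
    have hi : Integrable (fun r => G (b, r))
        ((unifFin (Env p N)).prod (gaussPi (Feat p.L p.S))) := by
      refine ((integrable_const (A₀ + B₀ * (b.1.1 : ℝ))).add (hsJ.comp_snd _)).mono'
        (hGm.comp (measurable_const.prodMk measurable_id)).aestronglyMeasurable
        (ae_of_all _ fun r => ?_)
      exact hb _ _ _ _ _
    rw [integral_prod _ hi, integral_unifFin]
    rfl
  have hGmm : ∀ k, Measurable (Gm k) := fun k => by
    refine Measurable.const_mul (Finset.measurable_sum _ fun e _ => ?_) _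
    exact ((hg k e).stronglyMeasurable.integral_prod_right').measurable
  have hGmb : ∀ k q, |Gm k q| ≤ A₀ + B₀ * k + R := by
    intro k q
    have hpos := card_env_pos p (N := N)
    simp only [Gm, envAvg]
    rw [abs_mul, abs_of_pos (inv_pos.2 hpos), inv_mul_le_iff₀ hpos]
    refine (Finset.abs_sum_le_sum_abs _ _).trans ((Finset.sum_le_sum fun e _ =>
      (?_ : _ ≤ A₀ + B₀ * k + R)).trans_eq
        (by rw [Finset.sum_const, Finset.card_univ, nsmul_eq_mul]))
    have hbd : Integrable (fun J : Feat p.L p.S → ℝ => A₀ + B₀ * k + ∑ f, C f * |J f|)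
        (gaussPi (Feat p.L p.S)) := (integrable_const _).add hsJ
    have hi : Integrable (fun J => g k q.1 q.2 e J) (gaussPi (Feat p.L p.S)) :=
      hbd.mono' ((hg k e).comp (f := fun J => ((q.1, q.2), J))
        (measurable_const.prodMk measurable_id)).aestronglyMeasurable
        (ae_of_all _ fun J => hb k q.1 q.2 e J)
    refine abs_integral_le_integral_abs.trans ((integral_mono hi.abs hbd
      fun J => hb k q.1 q.2 e J).trans_eq ?_)
    rw [integral_add (integrable_const _) hsJ]
    simp [hR]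
  simp only [hinner]
  unfold baseLaw
  have hm2 : Measurable fun b : Base K N => Gm b.1.1 (fun i => b.1.2 i, b.2) := by
    have h1 : Measurable fun z : ℕ × ((ℕ → Mark K N) × (Fin N → ℝ)) =>
        Gm z.1 (fun i => z.2.1 i, z.2.2) :=
      measurable_from_prod_countable_right fun k => (hGmm k).comp
        (f := fun z : (ℕ → Mark K N) × (Fin N → ℝ) => ((fun i : Fin k => z.1 i), z.2)) (by fun_prop)
    exact h1.comp (f := fun b : Base K N => (b.1.1, (b.1.2, b.2))) (by fun_prop)
  have hi2 : Integrable (fun b : Base K N => Gm b.1.1 (fun i => b.1.2 i, b.2))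
      (baseLaw N P Q μ) :=
    (hk.add (integrable_const R)).mono' hm2.aestronglyMeasurable
      (ae_of_all _ fun b => hGmb _ _)
  have : IsProbabilityMeasure (P.prod (unifFin (Fin K → Fin N))) := prob_markLaw P (N := N)
  rw [integral_prod _ hi2]
  set W : (k : ℕ) → (Fin k → Mark K N) → ℝ :=
    fun k cl => ∫ h, Gm k (cl, h) ∂(Measure.pi fun _ => Q) with hW
  have hWm : ∀ k, Measurable (W k) := fun k =>
    ((hGmm k).stronglyMeasurable.integral_prod_right').measurable
  change ∫ z : ℕ × (ℕ → Mark K N), W z.1 (fun i => z.2 i)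
    ∂((poissonMeasure μ).prod (Measure.infinitePi fun _ => markLaw P N)) = _
  have hi3 : Integrable (fun z : ℕ × (ℕ → Mark K N) => W z.1 (fun i => z.2 i))
      ((poissonMeasure μ).prod (Measure.infinitePi fun _ => markLaw P N)) := hi2.integral_prod_left
  rw [integral_prod _ hi3]
  refine integral_congr_ae (ae_of_all _ fun k => ?_)
  have hmp := measurePreserving_marginal (markLaw P N) (fun i : Fin k => (i : ℕ)) Fin.val_injective
  simp only
  rw [← integral_map hmp.measurable.aemeasurable (hWm k).aestronglyMeasurable, hmp.map_eq]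

theorem envAvg_integral_pertE [NeZero N] [IsProbabilityMeasure Q] {B : ℝ} (hB : 0 ≤ B)
    (hH : 0 ≤ H) {x : Obs p.L → ℝ} (hx : ∀ o, |x o| ≤ 2) {n : ℕ} (cl : Fin n → Mark K N) :
    ∫ h, envAvg p (fun e => pertE p (ham B H cl h) x e) ∂(Measure.pi fun _ => Q) =
      famP p B H Q x n cl := by
  simp only [famP, envAvg, phiE]
  rw [integral_const_mul, integral_finsetSum _ fun e _ => integrable_pertE hB hH hx e cl]

theorem clauses_ae [NeZero N] [IsProbabilityMeasure P] {p' : Factor K → Prop}
    (h : ∀ᵐ θ ∂P, p' θ) : ∀ᵐ m ∂markLaw P N, p' m.1 := by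
  have := prob_unifFin (α := Fin K → Fin N)
  exact (measurePreserving_fst (μ := P) (ν := unifFin (Fin K → Fin N))).quasiMeasurePreserving.ae h

theorem disLaw_good [NeZero N] (hM : IsBoundedModel P Q c H) (μ : ℝ≥0) :
    ∀ᵐ d ∂disLaw p N P Q μ,
      (∀ k σ, |theta (d.1.1.2 k).1 σ| ≤ clauseBd c) ∧ ∀ i, |d.1.2 i| ≤ H := by
  have := hM.prob_factor
  have := hM.prob_field
  have := nonempty_env p (N := N)
  have := prob_unifFin (α := Env p N)
  have := prob_markLaw P (N := N)
  have : IsProbabilityMeasure (P.prod (unifFin (Fin K → Fin N))) := prob_markLaw P (N := N)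
  have h1 : ∀ᵐ s : ℕ → Mark K N ∂Measure.infinitePi fun _ => P.prod (unifFin (Fin K → Fin N)),
      ∀ k σ, |theta (s k).1 σ| ≤ clauseBd c :=
    ae_all_iff.2 fun k => (measurePreserving_eval_infinitePi
      (fun _ : ℕ => P.prod (unifFin (Fin K → Fin N))) k).quasiMeasurePreserving.ae
      (clauses_ae (IsBoundedModel.theta_ae hM))
  have h2 : ∀ᵐ h : Fin N → ℝ ∂Measure.pi fun _ => Q, ∀ i, |h i| ≤ H :=
    ae_all_iff.2 fun i => (measurePreserving_eval (fun _ : Fin N => Q) i).quasiMeasurePreserving.ae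
      hM.h_le
  have h3 : ∀ᵐ b ∂baseLaw N P Q μ, (∀ k σ, |theta (b.1.2 k).1 σ| ≤ clauseBd c) ∧
      ∀ i, |b.2 i| ≤ H := by
    unfold baseLaw
    refine Eventually.and ?_ (measurePreserving_snd.quasiMeasurePreserving.ae h2)
    exact measurePreserving_fst.quasiMeasurePreserving.ae
      (measurePreserving_snd.quasiMeasurePreserving.ae h1)
  unfold disLaw
  exact measurePreserving_fst.quasiMeasurePreserving.ae h3

/-- The perturbed mean log partition function as a Poisson family. -/
theorem pertLogZ_eq [NeZero N] (hM : IsBoundedModel P Q c H) (μ : ℝ≥0) {x : Obs p.L → ℝ}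
    (hx : ∀ o, |x o| ≤ 2) :
    pertLogZ p N P Q μ x = epoi (markLaw P N) μ (famP p (clauseBd c) H Q x) := by
  have := hM.prob_factor
  have := hM.prob_field
  have hB := IsBoundedModel.clauseBd_nonneg hM
  have hH := IsBoundedModel.H_nonneg hM
  set B := clauseBd c
  set g : (k : ℕ) → (Fin k → Mark K N) → (Fin N → ℝ) → Env p N → (Feat p.L p.S → ℝ) → ℝ :=
    fun k cl h e J => logZ (fun σ => ham B H cl h σ + pertH p x e J σ) with hgdef
  have hmeas : ∀ k e, Measurable fun q : ((Fin k → Mark K N) × (Fin N → ℝ)) ×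
      (Feat p.L p.S → ℝ) => g k q.1.1 q.1.2 e q.2 := by
    intro k e
    simp only [g, logZ, pertH_eq]
    refine Measurable.log (Finset.measurable_sum _ fun σ _ => Measurable.exp
      (((measurable_ham B H k σ).comp measurable_fst).add ?_))
    fun_prop
  set D : ℝ := ∑ e : Env p N, ∑ σ, |detPart p x e σ|
  set C : Feat p.L p.S → ℝ := fun f => ∑ e : Env p N, ∑ σ, |coefF p x e f σ|
  have hb : ∀ k cl h e J, |g k cl h e J| ≤
      (N * Real.log 2 + H * N + D) + B * k + ∑ f, C f * |J f| := by
    intro k cl h e J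
    have e1 : g k cl h e J = logZ (fun σ => (ham B H cl h σ + detPart p x e σ) +
        ∑ f, coefF p x e f σ * J f) := by
      simp only [g, pertH_eq, add_assoc]
    have h1 := abs_logZ_lin (fun σ => ham B H cl h σ + detPart p x e σ) (coefF p x e) J
    have h2 := abs_logZ_sub_le (ham B H cl h) (fun σ => detPart p x e σ) (c := D) fun σ =>
      (Finset.single_le_sum (f := fun τ => |detPart p x e τ|) (fun τ _ => abs_nonneg _)
        (Finset.mem_univ σ)).trans (Finset.single_le_sum
        (f := fun e' : Env p N => ∑ τ, |detPart p x e' τ|)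
        (fun e' _ => Finset.sum_nonneg fun τ _ => abs_nonneg _) (Finset.mem_univ e))
    have h3 := abs_logZ_ham hB hH cl h
    have h4 : ∑ f, (∑ σ, |coefF p x e f σ|) * |J f| ≤ ∑ f, C f * |J f| :=
      Finset.sum_le_sum fun f _ => mul_le_mul_of_nonneg_right (Finset.single_le_sum
        (f := fun e' : Env p N => ∑ σ, |coefF p x e' f σ|)
        (fun e' _ => Finset.sum_nonneg fun τ _ => abs_nonneg _) (Finset.mem_univ e)) (abs_nonneg _)
    have h5 := abs_sub_abs_le_abs_sub
      (logZ fun σ => ham B H cl h σ + detPart p x e σ) (logZ (ham B H cl h))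
    rw [e1]
    linarith
  have hae : (fun d : Dis K p N => logZ (totalH p x d)) =ᵐ[disLaw p N P Q μ]
      fun d => g d.1.1.1 (fun i => d.1.1.2 i) d.1.2 d.2.1 d.2.2 := by
    filter_upwards [disLaw_good p hM μ] with d hd
    simp only [g]
    congr 1
    funext σ
    simp only [totalH]
    rw [hamiltonian_eq_ham (B := B) (fun k σ => hd.1 _ σ) hd.2]
  rw [pertLogZ, integral_congr_ae hae, integral_disLaw p μ g hmeas hb]
  refine integral_congr_ae (ae_of_all _ fun k => integral_congr_ae (ae_of_all _ fun cl => ?_))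
  simp only
  rw [← envAvg_integral_pertE p hB hH hx cl]
  simp only [g, pertE_eq]

/-- The pressure as a Poisson family. -/
theorem pressure_eq [NeZero N] (hM : IsBoundedModel P Q c H) (lam : ℝ) :
    (N : ℝ) * pressure lam P Q N =
      epoi (markLaw P N) (lam * N).toNNReal (fam0 (clauseBd c) H Q) := by
  have := hM.prob_factor
  have := hM.prob_field
  have := prob_markLaw P (N := N)
  rw [pressure, ← mul_assoc, mul_one_div, div_self (Nat.cast_ne_zero.2 (NeZero.ne N)), one_mul]
  refine integral_congr_ae (ae_of_all _ fun k => integral_congr_ae ?_)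
  have h1 : ∀ᵐ cl : Fin k → Mark K N ∂Measure.pi fun _ => markLaw P N,
      ∀ i σ, |theta (cl i).1 σ| ≤ clauseBd c :=
    ae_all_iff.2 fun i =>
      (measurePreserving_eval (fun _ : Fin k => markLaw P N) i).quasiMeasurePreserving.ae
        (clauses_ae (IsBoundedModel.theta_ae hM))
  filter_upwards [h1] with cl hcl
  refine integral_congr_ae ?_
  have h2 : ∀ᵐ h : Fin N → ℝ ∂Measure.pi fun _ => Q, ∀ i, |h i| ≤ H :=
    ae_all_iff.2 fun i => (measurePreserving_eval (fun _ : Fin N => Q) i).quasiMeasurePreserving.ae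
      hM.h_le
  filter_upwards [h2] with h hh
  simp only [logPartition, hamiltonian_eq_ham hcl hh]
  rfl

end Vale.Agent.P168.Limit.Cavity
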