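import Mathlib

/-! Toolkit for module 5 of P168: Poisson counts and iid marks. -/

open MeasureTheory ProbabilityTheory
open scoped BigOperators NNReal ENNReal Nat

noncomputable section

namespace Vale.Agent.P168.Toolkit

/-- The Poisson weight. -/
def pw (r : ℝ≥0) (n : ℕ) : ℝ := Real.exp (-r) * (r : ℝ) ^ n / (n ! : ℝ)

lemma pw_nonneg (r : ℝ≥0) (n : ℕ) : 0 ≤ pw r n := by unfold pw; positivity

lemma pw_succ (r : ℝ≥0) (n : ℕ) : ((n : ℝ) + 1) * pw r (n + 1) = (r : ℝ) * pw r n := by
  unfold pw
  rw [pow_succ, Nat.factorial_succ, Nat.cast_mul, Nat.cast_add_one]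
  field_simp

lemma hasSum_pw (r : ℝ≥0) : HasSum (pw r) 1 := hasSum_one_poissonMeasure r

lemma integral_poisson_eq (r : ℝ≥0) (f : ℕ → ℝ) :
    ∫ n, f n ∂poissonMeasure r = ∑' n, pw r n * f n := by
  rw [integral_poissonMeasure]; rfl

lemma integrable_poisson_iff (r : ℝ≥0) (f : ℕ → ℝ) :
    Integrable f (poissonMeasure r) ↔ Summable (fun n => pw r n * |f n|) :=
  integrable_poissonMeasure_iff

lemma integrable_poisson_of_bdd (r : ℝ≥0) {f : ℕ → ℝ} {C : ℝ} (h : ∀ n, |f n| ≤ C) :
    Integrable f (poissonMeasure r) :=
  Integrable.of_bound Measurable.of_discrete.aestronglyMeasurable C (ae_of_all _ h)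

/-- Multiplying by the count preserves integrability after a shift. -/
lemma integrable_count_mul {r : ℝ≥0} {f : ℕ → ℝ}
    (h : Integrable (fun n => f (n + 1)) (poissonMeasure r)) :
    Integrable (fun n : ℕ => (n : ℝ) * f n) (poissonMeasure r) := by
  rw [integrable_poisson_iff] at h ⊢
  refine (summable_nat_add_iff 1).1 ((h.mul_left (r : ℝ)).congr fun n => ?_)
  rw [← mul_assoc, ← pw_succ, abs_mul, abs_of_nonneg (Nat.cast_nonneg (α := ℝ) (n + 1))]
  push_cast
  ring

/-- The Mecke equation for a Poisson count. -/
theorem integral_count_mul {r : ℝ≥0} {f : ℕ → ℝ}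
    (h : Integrable (fun n => f (n + 1)) (poissonMeasure r)) :
    ∫ n, (n : ℝ) * f n ∂poissonMeasure r = r * ∫ n, f (n + 1) ∂poissonMeasure r := by
  have hi := integrable_count_mul h
  rw [integrable_poisson_iff] at hi
  have hs : Summable (fun n : ℕ => pw r n * ((n : ℝ) * f n)) :=
    hi.of_norm_bounded fun n => by
      rw [Real.norm_eq_abs, abs_mul, abs_of_nonneg (pw_nonneg r n)]
  rw [integral_poisson_eq, integral_poisson_eq, hs.tsum_eq_zero_add, ← tsum_mul_left]
  simp only [Nat.cast_zero, zero_mul, mul_zero, zero_add]
  refine tsum_congr fun n => ?_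
  rw [← mul_assoc (r : ℝ), ← pw_succ]
  push_cast
  ring

theorem integrable_count (r : ℝ≥0) : Integrable (fun n : ℕ => (n : ℝ)) (poissonMeasure r) := by
  simpa using integrable_count_mul (f := fun _ => (1 : ℝ)) (integrable_const (1 : ℝ))

theorem integral_count (r : ℝ≥0) : ∫ n, (n : ℝ) ∂poissonMeasure r = r := by
  simpa using integral_count_mul (r := r) (f := fun _ => (1 : ℝ)) (integrable_const (1 : ℝ))

theorem integrable_count_sq (r : ℝ≥0) :
    Integrable (fun n : ℕ => (n : ℝ) ^ 2) (poissonMeasure r) := by
  have h : Integrable (fun n : ℕ => ((n + 1 : ℕ) : ℝ)) (poissonMeasure r) := by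
    push_cast
    exact (integrable_count r).add (integrable_const 1)
  simpa [pow_two] using integrable_count_mul (f := fun n => (n : ℝ)) h

theorem integral_count_sq (r : ℝ≥0) :
    ∫ n, (n : ℝ) ^ 2 ∂poissonMeasure r = r ^ 2 + r := by
  have h : Integrable (fun n : ℕ => ((n + 1 : ℕ) : ℝ)) (poissonMeasure r) := by
    push_cast
    exact (integrable_count r).add (integrable_const 1)
  simp only [pow_two]
  rw [integral_count_mul (f := fun n => (n : ℝ)) h]
  push_cast
  rw [integral_add (integrable_count r) (integrable_const _), integral_count]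
  simp
  ring

theorem memLp_count (r : ℝ≥0) : MemLp (fun n : ℕ => (n : ℝ)) 2 (poissonMeasure r) :=
  (memLp_two_iff_integrable_sq Measurable.of_discrete.aestronglyMeasurable).2 (integrable_count_sq r)

theorem variance_count (r : ℝ≥0) : variance (fun n : ℕ => (n : ℝ)) (poissonMeasure r) = r := by
  rw [variance_eq_sub (memLp_count r)]
  simp [integral_count, integral_count_sq]

/-- A function of linear growth is integrable. -/
lemma integrable_poisson_of_linear (r : ℝ≥0) {f : ℕ → ℝ} {A B : ℝ}
    (h : ∀ n, |f n| ≤ A + B * n) : Integrable f (poissonMeasure r) :=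
  ((integrable_const A).add ((integrable_count r).const_mul B)).mono'
    Measurable.of_discrete.aestronglyMeasurable (ae_of_all _ h)

/-- Superposition of two Poisson counts. -/
theorem integral_superposition {a b : ℝ≥0} {f : ℕ → ℝ}
    (h : Integrable f (poissonMeasure (a + b))) :
    ∫ n, f n ∂poissonMeasure (a + b) =
      ∫ k, ∫ l, f (k + l) ∂poissonMeasure b ∂poissonMeasure a := by
  rw [← poissonMeasure_conv_poissonMeasure a b] at h ⊢
  have hp : Measurable fun p : ℕ × ℕ => p.1 + p.2 := Measurable.of_discrete
  rw [Measure.conv] at h ⊢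
  rw [integral_map hp.aemeasurable Measurable.of_discrete.aestronglyMeasurable]
  exact integral_prod (fun p : ℕ × ℕ => f (p.1 + p.2))
    ((integrable_map_measure Measurable.of_discrete.aestronglyMeasurable hp.aemeasurable).1 h)

lemma abs_le_linear {f : ℕ → ℝ} {B : ℝ} (h : ∀ n, |f (n + 1) - f n| ≤ B) (k l : ℕ) :
    |f (k + l) - f k| ≤ B * l := by
  induction l with
  | zero => simp
  | succ l ih =>
    have := abs_sub_le (f (k + l + 1)) (f (k + l)) (f k)
    have := h (k + l)
    rw [← add_assoc]
    push_cast
    linarith

private lemma poisson_shift_le {a b : ℝ≥0} {f : ℕ → ℝ} {B : ℝ}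
    (h : ∀ n, |f (n + 1) - f n| ≤ B) :
    |∫ n, f n ∂poissonMeasure (a + b) - ∫ n, f n ∂poissonMeasure a| ≤ B * b := by
  have hlin : ∀ n, |f n| ≤ |f 0| + B * n := fun n => by
    have := abs_le_linear h 0 n
    rw [zero_add] at this
    have := abs_sub_abs_le_abs_sub (f n) (f 0)
    linarith
  have hk : ∀ k, Integrable (fun l => f (k + l)) (poissonMeasure b) := fun k =>
    integrable_poisson_of_linear b (A := |f k|) (B := B) fun l => by
      have := abs_le_linear h k l
      have := abs_sub_abs_le_abs_sub (f (k + l)) (f k)
      linarith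
  have hinner : ∀ k, |(∫ l, f (k + l) ∂poissonMeasure b) - f k| ≤ B * b := by
    intro k
    have h1 : (∫ l, f (k + l) ∂poissonMeasure b) - f k =
        ∫ l, (f (k + l) - f k) ∂poissonMeasure b := by
      rw [integral_sub (hk k) (integrable_const _)]; simp
    rw [h1]
    refine abs_integral_le_integral_abs.trans ((integral_mono ((hk k).sub (integrable_const _)).abs
      ((integrable_count b).const_mul B) fun l => abs_le_linear h k l).trans ?_)
    rw [integral_const_mul, integral_count]
  have hfa := integrable_poisson_of_linear a hlin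
  have hg : Integrable (fun k => ∫ l, f (k + l) ∂poissonMeasure b) (poissonMeasure a) :=
    integrable_poisson_of_linear a (A := |f 0| + B * b) (B := B) fun k => by
      have := hinner k
      have := hlin k
      have := abs_sub_abs_le_abs_sub (∫ l, f (k + l) ∂poissonMeasure b) (f k)
      linarith
  rw [integral_superposition (integrable_poisson_of_linear _ hlin), ← integral_sub hg hfa]
  simpa using norm_integral_le_of_norm_le_const (μ := poissonMeasure a)
    (ae_of_all _ fun k => show ‖(∫ l, f (k + l) ∂poissonMeasure b) - f k‖ ≤ B * b from hinner k)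

/-- Poisson means of Lipschitz functions are Lipschitz in the parameter. -/
theorem poisson_lipschitz (a b : ℝ≥0) {f : ℕ → ℝ} {B : ℝ} (h : ∀ n, |f (n + 1) - f n| ≤ B) :
    |∫ n, f n ∂poissonMeasure a - ∫ n, f n ∂poissonMeasure b| ≤ B * |(a : ℝ) - b| := by
  rcases le_total a b with hab | hab
  · obtain ⟨c, rfl⟩ := exists_add_of_le hab
    rw [abs_sub_comm]
    refine (poisson_shift_le h).trans_eq ?_
    simp
  · obtain ⟨c, rfl⟩ := exists_add_of_le hab
    refine (poisson_shift_le h).trans_eq ?_
    simp

section Marks

variable {X : Type*} [MeasurableSpace X]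

/-- The mean of a function of `k` marks with law `α` and `l` marks with law `β`. -/
def markMean (α β : Measure X) (F : (n : ℕ) → (Fin n → X) → ℝ) (k l : ℕ) : ℝ :=
  ∫ c : Fin k → X, ∫ d : Fin l → X, F (k + l) (Fin.append c d)
    ∂(Measure.pi fun _ => β) ∂(Measure.pi fun _ => α)

/-- Invariance of a family under relabelling. -/
def RelabelInv (F : (n : ℕ) → (Fin n → X) → ℝ) : Prop :=
  ∀ (n m : ℕ) (e : Fin n ≃ Fin m) (c : Fin m → X), F n (c ∘ e) = F m c

lemma integral_pi_succ {n : ℕ} (μ : Measure X) [IsProbabilityMeasure μ] {g : (Fin (n + 1) → X) → ℝ}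
    (hg : Measurable g) {C : ℝ} (hb : ∀ c, |g c| ≤ C) :
    ∫ c, g c ∂(Measure.pi fun _ => μ) =
      ∫ a, ∫ c, g (Fin.cons a c) ∂(Measure.pi fun _ : Fin n => μ) ∂μ := by
  have h := (measurePreserving_piFinSuccAbove (fun _ : Fin (n + 1) => μ) 0).symm
  rw [← h.integral_comp (MeasurableEquiv.measurableEmbedding _) g,
    integral_prod (fun p : X × (Fin n → X) =>
      g ((MeasurableEquiv.piFinSuccAbove (fun _ : Fin (n + 1) => X) 0).symm p))
      (Integrable.of_bound (hg.comp (MeasurableEquiv.measurable _)).aestronglyMeasurable C
        (ae_of_all _ fun p => hb _))]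
  simp [MeasurableEquiv.piFinSuccAbove_symm_apply, Fin.insertNthEquiv, Fin.insertNth_zero']

lemma abs_markMean_le (α β : Measure X) [IsProbabilityMeasure α] [IsProbabilityMeasure β]
    {F : (n : ℕ) → (Fin n → X) → ℝ} {C : ℝ} (hb : ∀ n c, |F n c| ≤ C) (k l : ℕ) :
    |markMean α β F k l| ≤ C := by
  unfold markMean
  rw [← Real.norm_eq_abs]
  refine (norm_integral_le_of_norm_le_const (C := C) (μ := Measure.pi fun _ : Fin k => α)
    (ae_of_all _ fun c => ?_)).trans (le_of_eq (by simp))
  exact (norm_integral_le_of_norm_le_const (C := C) (μ := Measure.pi fun _ : Fin l => β)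
    (ae_of_all _ fun d => hb _ _)).trans (le_of_eq (by simp))

omit [MeasurableSpace X] in
private lemma cons_append_left {k l : ℕ} {F : (n : ℕ) → (Fin n → X) → ℝ} (hF : RelabelInv F)
    (a : X) (c : Fin k → X) (d : Fin l → X) :
    F (k + l + 1) (Fin.cons a (Fin.append c d)) =
      F (k + 1 + l) (Fin.append (Fin.cons a c) d) := by
  rw [Fin.append_cons]
  exact (hF _ _ (finCongr (Nat.succ_add k l)) _).symm

omit [MeasurableSpace X] in
private lemma cons_append_right {k l : ℕ} {F : (n : ℕ) → (Fin n → X) → ℝ} (hF : RelabelInv F)
    (a : X) (c : Fin k → X) (d : Fin l → X) :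
    F (k + l + 1) (Fin.cons a (Fin.append c d)) =
      F (k + (l + 1)) (Fin.append c (Fin.cons a d)) := by
  let g : Fin (k + l + 1) → Fin (k + (l + 1)) :=
    Fin.cases (Fin.natAdd k 0)
      (Fin.addCases (fun i => Fin.castAdd (l + 1) i) fun j => Fin.natAdd k j.succ)
  have hinj : Function.Injective g := by
    intro i j hij
    induction i using Fin.cases with
    | zero =>
      induction j using Fin.cases with
      | zero => rfl
      | succ j =>
        induction j using Fin.addCases with
        | left j => have := congrArg Fin.val hij; simp [g] at this; omega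
        | right j => have := congrArg Fin.val hij; simp [g] at this
    | succ i =>
      induction j using Fin.cases with
      | zero =>
        induction i using Fin.addCases with
        | left i => have := congrArg Fin.val hij; simp [g] at this; omega
        | right i => have := congrArg Fin.val hij; simp [g] at this
      | succ j =>
        induction i using Fin.addCases with
        | left i =>
          induction j using Fin.addCases with
          | left j => simpa [g, Fin.ext_iff] using hij
          | right j => have := congrArg Fin.val hij; simp [g] at this; omega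
        | right i =>
          induction j using Fin.addCases with
          | left j => have := congrArg Fin.val hij; simp [g] at this; omega
          | right j => simpa [g, Fin.ext_iff] using hij
  let e := Equiv.ofBijective g ((Fintype.bijective_iff_injective_and_card g).2
    ⟨hinj, by simp [add_assoc]⟩)
  rw [← hF _ _ e (Fin.append c (Fin.cons a d))]
  congr 1
  funext i
  simp only [Function.comp_apply, e, Equiv.ofBijective_apply]
  induction i using Fin.cases with
  | zero => simp [g]
  | succ i =>
    induction i using Fin.addCases with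
    | left i => simp [g]
    | right i => simp [g]

/-- The binomial expansion of iid marks with a mixed law. -/
theorem integral_mix_marks (α β : Measure X) [IsProbabilityMeasure α] [IsProbabilityMeasure β]
    (p q : ℝ≥0) (hpq : p + q = 1) (n : ℕ) : ∀ {F : (n : ℕ) → (Fin n → X) → ℝ} {C : ℝ},
    (∀ n, Measurable (F n)) → (∀ n c, |F n c| ≤ C) → RelabelInv F →
    ∫ c, F n c ∂(Measure.pi fun _ => (p : ℝ≥0∞) • α + (q : ℝ≥0∞) • β) =
      ∑ ij ∈ Finset.HasAntidiagonal.antidiagonal n,
        (n.choose ij.1 : ℝ) * ((p : ℝ) ^ ij.1 * (q : ℝ) ^ ij.2 * markMean α β F ij.1 ij.2) := by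
  set μ : Measure X := (p : ℝ≥0∞) • α + (q : ℝ≥0∞) • β with hμ
  have : IsProbabilityMeasure μ := ⟨by
    simp [hμ, ← ENNReal.coe_add, hpq]⟩
  induction n with
  | zero =>
    intro F C _ _ _
    rw [Finset.Nat.antidiagonal_zero, Finset.sum_singleton]
    have e0 : ∀ c : Fin 0 → X, F 0 c = F 0 finZeroElim := fun c =>
      congrArg (F 0) (funext fun i => i.elim0)
    simp only [markMean, Nat.choose_self, pow_zero, one_mul, Nat.cast_one, Nat.add_zero]
    simp [e0]
  | succ n ih =>
    intro F C hm hb hF
    have hcons : ∀ a : X, ∀ n, Measurable fun c : Fin n → X => F (n + 1) (Fin.cons a c) :=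
      fun a n => (hm (n + 1)).comp (measurable_pi_lambda _ fun i => by
        induction i using Fin.cases with
        | zero => simp
        | succ i => simpa using measurable_pi_apply i)
    have hinv : ∀ a : X, RelabelInv fun n (c : Fin n → X) => F (n + 1) (Fin.cons a c) := by
      intro a n' m e c
      have h := hF (n' + 1) (m + 1)
        ((finSuccEquiv n').trans ((Equiv.optionCongr e).trans (finSuccEquiv m).symm)) (Fin.cons a c)
      refine Eq.trans (congrArg _ (funext fun i => ?_)) h
      induction i using Fin.cases with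
      | zero => simp
      | succ i => simp
    set g : ℕ → ℕ → X → ℝ := fun i j a => markMean α β (fun n c => F (n + 1) (Fin.cons a c)) i j
      with hg
    have hgb : ∀ i j a, |g i j a| ≤ C := fun i j a => abs_markMean_le _ _ (fun n c => hb _ _) i j
    have hgm : ∀ i j, Measurable (g i j) := by
      intro i j
      have hG : Measurable fun z : (X × (Fin i → X)) × (Fin j → X) =>
          F (i + j + 1) (Fin.cons z.1.1 (Fin.append z.1.2 z.2)) := by
        refine (hm _).comp (measurable_pi_lambda _ fun k => ?_)
        induction k using Fin.cases with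
        | zero => simp only [Fin.cons_zero]; fun_prop
        | succ k =>
          induction k using Fin.addCases with
          | left k => simp only [Fin.cons_succ, Fin.append_left]; fun_prop
          | right k => simp only [Fin.cons_succ, Fin.append_right]; fun_prop
      exact ((hG.stronglyMeasurable.integral_prod_right'
        (ν := Measure.pi fun _ : Fin j => β)).integral_prod_right'
        (ν := Measure.pi fun _ : Fin i => α)).measurable
    have hgi : ∀ (ν : Measure X) [IsFiniteMeasure ν] (i j : ℕ), Integrable (g i j) ν :=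
      fun ν _ i j => Integrable.of_bound (hgm i j).aestronglyMeasurable C (ae_of_all _ (hgb i j))
    have hA : ∀ i j, ∫ a, g i j a ∂α = markMean α β F (i + 1) j := by
      intro i j
      unfold markMean
      rw [integral_pi_succ α (g := fun c : Fin (i + 1) → X => ∫ d : Fin j → X,
        F (i + 1 + j) (Fin.append c d) ∂(Measure.pi fun _ => β)) ?_ (C := C) fun c => ?_]
      · exact integral_congr_ae (ae_of_all _ fun a => integral_congr_ae (ae_of_all _ fun c =>
          integral_congr_ae (ae_of_all _ fun d => cons_append_left hF a c d)))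
      · have hG : Measurable fun z : (Fin (i + 1) → X) × (Fin j → X) =>
            F (i + 1 + j) (Fin.append z.1 z.2) := by
          refine (hm _).comp (measurable_pi_lambda _ fun k => ?_)
          induction k using Fin.addCases with
          | left k => simp only [Fin.append_left]; fun_prop
          | right k => simp only [Fin.append_right]; fun_prop
        exact hG.stronglyMeasurable.integral_prod_right'.measurable
      · rw [← Real.norm_eq_abs]
        exact (norm_integral_le_of_norm_le_const (C := C) (ae_of_all _ fun d => hb _ _)).trans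
          (le_of_eq (by simp))
    have hB : ∀ i j, ∫ a, g i j a ∂β = markMean α β F i (j + 1) := by
      intro i j
      have hG : Measurable fun z : X × (Fin i → X) => ∫ d : Fin j → X,
          F (i + j + 1) (Fin.cons z.1 (Fin.append z.2 d)) ∂(Measure.pi fun _ => β) := by
        refine (StronglyMeasurable.integral_prod_right'
          (f := fun z : (X × (Fin i → X)) × (Fin j → X) =>
            F (i + j + 1) (Fin.cons z.1.1 (Fin.append z.1.2 z.2))) ?_).measurable
        refine ((hm _).comp (measurable_pi_lambda _ fun k => ?_)).stronglyMeasurable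
        induction k using Fin.cases with
        | zero => simp only [Fin.cons_zero]; fun_prop
        | succ k =>
          induction k using Fin.addCases with
          | left k => simp only [Fin.cons_succ, Fin.append_left]; fun_prop
          | right k => simp only [Fin.cons_succ, Fin.append_right]; fun_prop
      simp only [hg, markMean]
      rw [integral_integral_swap (Integrable.of_bound hG.aestronglyMeasurable C
        (ae_of_all _ fun z => (norm_integral_le_of_norm_le_const (C := C)
          (ae_of_all _ fun d => hb _ _)).trans (le_of_eq (by simp))))]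
      refine integral_congr_ae (ae_of_all _ fun c => ?_)
      simp only
      rw [integral_pi_succ β (g := fun e : Fin (j + 1) → X => F (i + (j + 1)) (Fin.append c e))
        ((hm _).comp (measurable_pi_lambda _ fun k => ?_)) (C := C) fun e => hb _ _]
      · exact integral_congr_ae (ae_of_all _ fun a => integral_congr_ae (ae_of_all _ fun d =>
          cons_append_right hF a c d))
      · induction k using Fin.addCases with
        | left k => simp only [Fin.append_left]; fun_prop
        | right k => simp only [Fin.append_right]; fun_prop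
    rw [integral_pi_succ μ (hm _) (hb _),
      Finset.sum_antidiagonal_choose_succ_mul
        (fun i j => (p : ℝ) ^ i * (q : ℝ) ^ j * markMean α β F i j) n]
    rw [integral_congr_ae (ae_of_all μ fun a => ih (hcons a) (fun n c => hb (n + 1) _) (hinv a)),
      integral_finsetSum _ fun ij _ => ((hgi μ _ _).const_mul _).const_mul _,
      ← Finset.sum_add_distrib]
    refine Finset.sum_congr rfl fun ij hij => ?_
    have hsym : n.choose ij.2 = n.choose ij.1 :=
      (Nat.choose_symm_of_eq_add (by rw [Finset.HasAntidiagonal.mem_antidiagonal.1 hij])).symm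
    rw [integral_const_mul, integral_const_mul, hμ,
      integral_add_measure ((hgi α _ _).smul_measure ENNReal.coe_ne_top)
        ((hgi β _ _).smul_measure ENNReal.coe_ne_top),
      integral_smul_measure, integral_smul_measure, hsym]
    simp only [ENNReal.coe_toReal, smul_eq_mul, hg] at hA hB ⊢
    rw [hA, hB]
    ring

/-- Thinning: Poisson many marks with a mixed law are two independent Poisson families. -/
theorem poisson_split (α β : Measure X) [IsProbabilityMeasure α] [IsProbabilityMeasure β]
    (r p q : ℝ≥0) (hpq : p + q = 1) {F : (n : ℕ) → (Fin n → X) → ℝ} {C : ℝ}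
    (hm : ∀ n, Measurable (F n)) (hb : ∀ n c, |F n c| ≤ C) (hF : RelabelInv F) :
    ∫ n, ∫ c, F n c ∂(Measure.pi fun _ => (p : ℝ≥0∞) • α + (q : ℝ≥0∞) • β) ∂poissonMeasure r =
      ∫ k, ∫ l, markMean α β F k l ∂poissonMeasure (r * q) ∂poissonMeasure (r * p) := by
  rw [integral_congr_ae (ae_of_all _ fun n => integral_mix_marks α β p q hpq n hm hb hF),
    integral_poisson_eq]
  simp only [integral_poisson_eq]
  have hS : Summable (fun z : ℕ × ℕ =>
      pw (r * p) z.1 * (pw (r * q) z.2 * markMean α β F z.1 z.2)) := by
    refine Summable.of_norm_bounded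
      (g := fun z : ℕ × ℕ => C * (pw (r * p) z.1 * pw (r * q) z.2))
      (((hasSum_pw _).summable.mul_of_nonneg (hasSum_pw _).summable
        (fun i => pw_nonneg _ i) fun i => pw_nonneg _ i).mul_left C) fun z => ?_
    rw [Real.norm_eq_abs, abs_mul, abs_mul, abs_of_nonneg (pw_nonneg _ _),
      abs_of_nonneg (pw_nonneg _ _)]
    have := abs_markMean_le α β hb z.1 z.2
    have := pw_nonneg (r * p) z.1
    have := pw_nonneg (r * q) z.2
    calc pw (r * p) z.1 * (pw (r * q) z.2 * |markMean α β F z.1 z.2|)
        ≤ pw (r * p) z.1 * (pw (r * q) z.2 * C) := by gcongr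
      _ = C * (pw (r * p) z.1 * pw (r * q) z.2) := by ring
  simp_rw [← tsum_mul_left]
  have h2 := ((Finset.HasAntidiagonal.sigmaAntidiagonalEquivProd (A := ℕ)).summable_iff.2 hS).tsum_sigma
  simp only [Function.comp_def] at h2
  rw [← hS.tsum_prod, ← (Finset.HasAntidiagonal.sigmaAntidiagonalEquivProd).tsum_eq, h2]
  refine tsum_congr fun n => ?_
  simp only [Finset.HasAntidiagonal.sigmaAntidiagonalEquivProd_apply]
  rw [Finset.tsum_subtype (Finset.HasAntidiagonal.antidiagonal n)
    (fun z : ℕ × ℕ => pw (r * p) z.1 * (pw (r * q) z.2 * markMean α β F z.1 z.2)), Finset.mul_sum]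
  refine Finset.sum_congr rfl fun ij hij => ?_
  obtain ⟨i, j⟩ := ij
  rw [Finset.HasAntidiagonal.mem_antidiagonal] at hij
  simp only at hij ⊢
  subst hij
  have he : Real.exp (-(r : ℝ)) = Real.exp (-((r : ℝ) * p)) * Real.exp (-((r : ℝ) * q)) := by
    have hpq' : (p : ℝ) + q = 1 := by exact_mod_cast congrArg ((↑) : ℝ≥0 → ℝ) hpq
    rw [← Real.exp_add]
    congr 1
    linear_combination (r : ℝ) * hpq'
  have hi : (i ! : ℝ) ≠ 0 := by positivity
  have hj : (j ! : ℝ) ≠ 0 := by positivity
  have hc : ((i + j).choose i : ℝ) = ((i + j) ! : ℝ) / ((i ! : ℝ) * (j ! : ℝ)) := by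
    rw [eq_div_iff (mul_ne_zero hi hj)]
    have := Nat.choose_mul_factorial_mul_factorial (Nat.le_add_right i j)
    rw [Nat.add_sub_cancel_left, mul_assoc] at this
    exact_mod_cast this
  simp only [pw, NNReal.coe_mul, hc, he, pow_add, mul_pow]
  field_simp

end Marks

end Vale.Agent.P168.Toolkit
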