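import Vale.Agent.P168.Limit.ToolkitES
import Vale.Agent.P168.Limit.ToolkitPoisson

/-! Toolkit for module 5 of P168: Gaussian integrals. Also imports the other toolkit files. -/

open MeasureTheory ProbabilityTheory
open scoped BigOperators NNReal ENNReal

noncomputable section

namespace Vale.Agent.P168.Toolkit

/-- The standard Gaussian law. -/
abbrev gauss : Measure ℝ := gaussianReal 0 1

lemma integrable_gauss_iff {f : ℝ → ℝ} :
    Integrable f gauss ↔ Integrable (fun x => gaussianPDFReal 0 1 x * f x) := by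
  rw [gauss, gaussianReal_of_var_ne_zero _ one_ne_zero,
    integrable_withDensity_iff_integrable_smul' (measurable_gaussianPDF _ _)
      (ae_of_all _ fun _ => gaussianPDF_lt_top)]
  simp only [toReal_gaussianPDF, smul_eq_mul]

lemma integrable_gauss_id : Integrable (fun x : ℝ => x) gauss := by
  exact (memLp_id_gaussianReal (μ := 0) (v := 1) 1).integrable le_rfl

lemma integrable_gauss_sq : Integrable (fun x : ℝ => x ^ 2) gauss :=
  (memLp_id_gaussianReal (μ := 0) (v := 1) 2).integrable_sq

lemma integral_gauss_id : ∫ x, x ∂gauss = 0 := integral_id_gaussianReal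

lemma integral_gauss_sq : ∫ x, x ^ 2 ∂gauss = 1 := by
  have h := variance_id_gaussianReal (μ := (0 : ℝ)) (v := (1 : ℝ≥0))
  rw [variance_eq_sub (memLp_id_gaussianReal 2)] at h
  simp only [id_eq, integral_id_gaussianReal, Pi.pow_apply, NNReal.coe_one] at h
  linarith

lemma integral_gauss_abs_le : ∫ x, |x| ∂gauss ≤ 1 := by
  have h : ∀ x : ℝ, |x| ≤ (1 + x ^ 2) / 2 := fun x => by nlinarith [sq_abs x, sq_nonneg (|x| - 1)]
  have hi : Integrable (fun x : ℝ => 1 + x ^ 2) gauss := (integrable_const 1).add integrable_gauss_sq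
  refine (integral_mono integrable_gauss_id.abs (hi.div_const 2) h).trans_eq ?_
  rw [integral_div, integral_add (integrable_const _) integrable_gauss_sq, integral_gauss_sq]
  simp

lemma integrable_gauss_exp (c : ℝ) : Integrable (fun x => Real.exp (c * x)) gauss :=
  integrable_exp_mul_gaussianReal c

lemma integral_gauss_exp (c : ℝ) : ∫ x, Real.exp (c * x) ∂gauss = Real.exp (c ^ 2 / 2) := by
  have h := congrFun (mgf_id_gaussianReal (μ := (0 : ℝ)) (v := (1 : ℝ≥0))) c
  simpa [mgf] using h

/-- A function of linear growth is integrable. -/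
lemma integrable_gauss_of_linear {G : ℝ → ℝ} (hm : AEStronglyMeasurable G gauss) {A B : ℝ}
    (h : ∀ x, |G x| ≤ A + B * |x|) : Integrable G gauss :=
  ((integrable_const A).add (integrable_gauss_id.abs.const_mul B)).mono' hm (ae_of_all _ h)

lemma integrable_gauss_mul_of_linear {G : ℝ → ℝ} (hm : AEStronglyMeasurable G gauss) {A B : ℝ}
    (h : ∀ x, |G x| ≤ A + B * |x|) : Integrable (fun x => x * G x) gauss := by
  refine ((integrable_gauss_id.abs.const_mul A).add (integrable_gauss_sq.const_mul B)).mono'
    (measurable_id.aestronglyMeasurable.mul hm) (ae_of_all _ fun x => ?_)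
  rw [Real.norm_eq_abs, abs_mul]
  show |x| * |G x| ≤ A * |x| + B * x ^ 2
  refine (mul_le_mul_of_nonneg_left (h x) (abs_nonneg x)).trans_eq ?_
  rw [← sq_abs x]; ring

/-- Gaussian integration by parts, for linear growth and bounded derivative. -/
theorem gauss_ibp {G G' : ℝ → ℝ} (hG : ∀ x, HasDerivAt G (G' x) x) {B : ℝ}
    (hB : ∀ x, |G' x| ≤ B) : ∫ x, x * G x ∂gauss = ∫ x, G' x ∂gauss := by
  have hdG : deriv G = G' := funext fun x => (hG x).deriv
  have hm' : Measurable G' := hdG ▸ measurable_deriv G
  have hm : Measurable G := (Differentiable.continuous fun x => (hG x).differentiableAt).measurable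
  have hlin : ∀ x, |G x| ≤ |G 0| + B * |x| := by
    intro x
    have := convex_univ.norm_image_sub_le_of_norm_hasDerivWithin_le
      (fun y _ => (hG y).hasDerivWithinAt) (fun y _ => hB y) (Set.mem_univ 0) (Set.mem_univ x)
    rw [Real.norm_eq_abs, Real.norm_eq_abs, sub_zero] at this
    linarith [abs_sub_abs_le_abs_sub (G x) (G 0)]
  have hp : ∀ x, HasDerivAt (gaussianPDFReal 0 1) (-x * gaussianPDFReal 0 1 x) x := by
    intro x
    have h1 : HasDerivAt (fun y : ℝ => -(y - 0) ^ 2 / (2 * ((1 : ℝ≥0) : ℝ))) (-x) x := by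
      have := (((hasDerivAt_id x).sub_const 0).pow 2).neg.div_const (2 * ((1 : ℝ≥0) : ℝ))
      refine this.congr_deriv ?_
      simp
      ring
    rw [gaussianPDFReal_def]
    refine (h1.exp.const_mul _).congr_deriv ?_
    ring
  have i1 := integrable_gauss_iff.1 (integrable_gauss_of_linear hm.aestronglyMeasurable hlin)
  have i2 := integrable_gauss_iff.1 (integrable_gauss_mul_of_linear hm.aestronglyMeasurable hlin)
  have i3 := integrable_gauss_iff.1 (Integrable.of_bound hm'.aestronglyMeasurable B
    (ae_of_all gauss hB))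
  have h := integral_mul_deriv_eq_deriv_mul_of_integrable (u := gaussianPDFReal 0 1) (v := G)
    (u' := fun x => -x * gaussianPDFReal 0 1 x) (v' := G') (fun x _ => hp x) (fun x _ => hG x)
    i3 (i2.neg.congr (ae_of_all _ fun x => by simp only [Pi.neg_apply, Pi.mul_apply]; ring)) i1
  rw [integral_gaussianReal_eq_integral_smul one_ne_zero,
    integral_gaussianReal_eq_integral_smul one_ne_zero]
  simp only [smul_eq_mul]
  rw [h, ← integral_neg]
  exact integral_congr_ae (ae_of_all _ fun x => by ring)

section Vector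

variable {ι : Type*} [Fintype ι]

/-- A standard Gaussian vector. -/
abbrev gaussPi (ι : Type*) [Fintype ι] : Measure (ι → ℝ) := Measure.pi fun _ => gauss

lemma integrable_eval_gaussPi (i : ι) : Integrable (fun z : ι → ℝ => z i) (gaussPi ι) :=
  (measurePreserving_eval (fun _ : ι => gauss) i).integrable_comp_of_integrable integrable_gauss_id

lemma integrable_exp_linear (c : ι → ℝ) :
    Integrable (fun z : ι → ℝ => Real.exp (∑ i, c i * z i)) (gaussPi ι) := by
  simp_rw [Real.exp_sum]
  exact Integrable.fintype_prod (f := fun i x => Real.exp (c i * x)) fun i => integrable_gauss_exp _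

lemma integral_exp_linear (c : ι → ℝ) :
    ∫ z : ι → ℝ, Real.exp (∑ i, c i * z i) ∂gaussPi ι = Real.exp ((∑ i, c i ^ 2) / 2) := by
  simp_rw [Real.exp_sum]
  rw [integral_fintype_prod_eq_prod fun i x => Real.exp (c i * x)]
  simp_rw [integral_gauss_exp, ← Real.exp_sum, Finset.sum_div]

lemma gaussPi_map_neg : MeasurePreserving (fun z : ι → ℝ => -z) (gaussPi ι) (gaussPi ι) := by
  have h : MeasurePreserving (fun x : ℝ => -x) gauss gauss :=
    ⟨measurable_neg, by rw [gauss, gaussianReal_map_neg, neg_zero]⟩
  exact measurePreserving_pi (fun _ => gauss) (fun _ => gauss) fun _ => h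

/-- A Lipschitz function of a Gaussian vector is square integrable. -/
lemma memLp_two_of_lipschitz {f : (ι → ℝ) → ℝ} (hm : Measurable f) {A : ℝ} {L : ι → ℝ}
    (h : ∀ z, |f z| ≤ A + ∑ i, L i * |z i|) : MemLp f 2 (gaussPi ι) := by
  have h1 : ∀ i, MemLp (fun z : ι → ℝ => L i * |z i|) 2 (gaussPi ι) := fun i =>
    ((memLp_id_gaussianReal 2).abs.comp_measurePreserving
      (measurePreserving_eval (fun _ : ι => gauss) i)).const_mul (L i)
  refine MemLp.of_le_mul (c := 1) ((memLp_const A).add (memLp_finsetSum Finset.univ fun i _ => h1 i))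
    hm.aestronglyMeasurable (ae_of_all _ fun z => ?_)
  rw [one_mul, Real.norm_eq_abs]
  refine (h z).trans ((le_abs_self _).trans_eq ?_)
  simp [Real.norm_eq_abs]

end Vector

end Vale.Agent.P168.Toolkit
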