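import Vale.Agent.P168.Limit.Parts
import Vale.Agent.P168.Limit.SelfAvg.Variance
import Vale.Agent.P168.Limit.SelfAvg.Convex

/-! Self-averaging of the observables of the perturbed system. -/

open MeasureTheory ProbabilityTheory Filter
open scoped BigOperators NNReal ENNReal Topology

noncomputable section

namespace Vale.Agent.P168.Limit

namespace SelfAvg

open Toolkit

set_option linter.unusedSectionVars false

variable {K N : ℕ} {p : Params}

/-- An observable, scaled as it enters the Hamiltonian. -/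
def obsC (p : Params) (o : Obs p.L) (d : Dis K p N) (σ : Fin N → Bool) : ℝ :=
  match o with
  | Sum.inl a => p.s * gaussObs p d.2.1 d.2.2 a σ
  | Sum.inr o => p.s ^ 2 * linObs p d.2.1 o σ

lemma totalH_eq_sum (x : Obs p.L → ℝ) (d : Dis K p N) (σ : Fin N → Bool) :
    totalH p x d σ = (hamiltonian (fun k : Fin d.1.1.1 => d.1.1.2 k) d.1.2 σ + tiltPart p d.2.1 σ) +
      ∑ o, x o * obsC p o d σ := by
  rw [Fintype.sum_sum_type]
  simp only [totalH, pertH, obsC, Finset.mul_sum]
  rw [← add_assoc, ← add_assoc, ← add_assoc]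
  refine congrArg₂ (· + ·) (congrArg₂ (· + ·) rfl ?_) ?_ <;>
    exact Finset.sum_congr rfl fun i _ => by ring

lemma totalH_update (x : Obs p.L → ℝ) (o : Obs p.L) (t : ℝ) (d : Dis K p N) (σ : Fin N → Bool) :
    totalH p (Function.update x o t) d σ =
      totalH p (Function.update x o 0) d σ + t * obsC p o d σ := by
  classical
  rw [totalH_eq_sum, totalH_eq_sum, ← Finset.add_sum_erase _ _ (Finset.mem_univ o),
    ← Finset.add_sum_erase _ (fun o' => Function.update x o 0 o' * obsC p o' d σ) (Finset.mem_univ o),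
    Function.update_self, Function.update_self]
  rw [Finset.sum_congr rfl fun o' ho' =>
    show Function.update x o t o' * obsC p o' d σ = x o' * obsC p o' d σ by
      rw [Function.update_of_ne (Finset.ne_of_mem_erase ho')],
    Finset.sum_congr rfl fun o' ho' =>
    show Function.update x o 0 o' * obsC p o' d σ = x o' * obsC p o' d σ by
      rw [Function.update_of_ne (Finset.ne_of_mem_erase ho')]]
  ring

lemma measurable_hamiltonian (σ : Fin N → Bool) :
    Measurable fun b : Base K N => hamiltonian (fun k : Fin b.1.1 => b.1.2 k) b.2 σ := by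
  refine Measurable.add ?_ (by fun_prop)
  have h : Measurable fun z : ℕ × (ℕ → Factor K × (Fin K → Fin N)) =>
      ∑ k : Fin z.1, theta (z.2 k).1 fun j => σ ((z.2 k).2 j) := by
    refine measurable_from_prod_countable_right fun n => ?_
    show Measurable fun c : ℕ → Factor K × (Fin K → Fin N) =>
      ∑ k : Fin n, theta (c k).1 fun j => σ ((c k).2 j)
    refine Finset.measurable_sum _ fun k _ => ?_
    have h1 : Measurable fun z : Factor K × (Fin K → Fin N) => theta z.1 fun j => σ (z.2 j) :=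
      measurable_from_prod_countable_left fun ix => measurable_theta fun j => σ (ix j)
    exact h1.comp (measurable_pi_apply (k : ℕ))
  exact h.comp measurable_fst

lemma measurable_obsC (o : Obs p.L) (σ : Fin N → Bool) :
    Measurable fun d : Dis K p N => obsC p o d σ := by
  have h : Measurable fun z : Env p N × (Feat p.L p.S → ℝ) => match o with
      | Sum.inl a => p.s * gaussObs p z.1 z.2 a σ
      | Sum.inr o => p.s ^ 2 * linObs p z.1 o σ := by
    refine measurable_from_prod_countable_right fun e => ?_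
    cases o with
    | inl a => simp only [gaussObs]; fun_prop
    | inr o => simp only []; exact measurable_const
  exact h.comp measurable_snd

lemma measurable_tilt (σ : Fin N → Bool) :
    Measurable fun d : Dis K p N => tiltPart p d.2.1 σ :=
  (measurable_of_finite fun e : Env p N => tiltPart p e σ).comp (measurable_fst.comp measurable_snd)

lemma measurable_totalH (σ : Fin N → Bool) :
    Measurable fun z : (Obs p.L → ℝ) × Dis K p N => totalH p z.1 z.2 σ := by
  simp only [totalH_eq_sum]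
  refine Measurable.add (Measurable.add
    ((measurable_hamiltonian σ).comp (measurable_fst.comp measurable_snd))
    ((measurable_tilt σ).comp measurable_snd)) (Finset.measurable_sum _ fun o _ => ?_)
  exact ((measurable_pi_apply o).comp measurable_fst).mul ((measurable_obsC o σ).comp measurable_snd)

lemma measurable_gw_totalH (σ : Fin N → Bool) :
    Measurable fun z : (Obs p.L → ℝ) × Dis K p N => gw (totalH p z.1 z.2) σ :=
  (measurable_totalH σ).exp.div (Finset.measurable_sum _ fun τ _ => (measurable_totalH τ).exp)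

lemma abs_obsC_le (o : Obs p.L) (d : Dis K p N) (σ : Fin N → Bool) :
    |obsC p o d σ| ≤ p.s ^ 2 + |p.s| * ∑ f, |d.2.2 f| := by
  have hsum : (0 : ℝ) ≤ ∑ f, |d.2.2 f| := Finset.sum_nonneg fun f _ => abs_nonneg _
  cases o with
  | inl a =>
    simp only [obsC, gaussObs]
    rw [abs_mul]
    refine le_trans (mul_le_mul_of_nonneg_left ?_ (abs_nonneg _))
      (le_add_of_nonneg_left (sq_nonneg _))
    refine (Finset.abs_sum_le_sum_abs _ _).trans ((Finset.sum_le_sum (g := fun v => |d.2.2 ⟨a, v⟩|)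
      fun v _ => ?_).trans ?_)
    · rw [abs_mul]
      refine mul_le_of_le_one_right (abs_nonneg _) ?_
      rw [← sq_le_one_iff₀ (abs_nonneg _), sq_abs]
      refine (sq_featVal_le p d.2.1 ⟨a, v⟩ σ).trans (inv_le_one_of_one_le₀ (one_le_pow₀ ?_))
      exact_mod_cast p.S_pos
    · rw [sum_mono_feat p fun f => |d.2.2 f|]
      exact Finset.single_le_sum (f := fun a : Mono p.L => ∑ v, |d.2.2 ⟨a, v⟩|)
        (fun b _ => Finset.sum_nonneg fun v _ => abs_nonneg _) (Finset.mem_univ a)
  | inr o =>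
    simp only [obsC]
    rw [abs_mul, abs_of_nonneg (sq_nonneg p.s)]
    exact (mul_le_of_le_one_right (sq_nonneg _) (abs_linObs_le _ _ _)).trans
      (le_add_of_nonneg_right (mul_nonneg (abs_nonneg _) hsum))

section Fixed

variable {P : Measure (Factor K)} {Q : Measure ℝ} [IsProbabilityMeasure P] [IsProbabilityMeasure Q]
  [NeZero N] {μ : ℝ≥0}

lemma isProbabilityMeasure_disLaw : IsProbabilityMeasure (disLaw p N P Q μ) := by
  have iI := isProbabilityMeasure_unifFin (Fin K → Fin N)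
  have := isProbabilityMeasure_envJ p N
  unfold disLaw baseLaw
  infer_instance

lemma memLp_obsBound : MemLp (fun d : Dis K p N => p.s ^ 2 + |p.s| * ∑ f, |d.2.2 f|) 2
    (disLaw p N P Q μ) := by
  have iI := isProbabilityMeasure_unifFin (Fin K → Fin N)
  have : NeZero p.Q := ⟨p.Q_pos.ne'⟩
  have iE := isProbabilityMeasure_unifFin (Env p N)
  have iB : IsProbabilityMeasure (baseLaw N P Q μ) := by unfold baseLaw; infer_instance
  have := isProbabilityMeasure_envJ p N
  have h1 : ∀ f, MemLp (fun J : Feat p.L p.S → ℝ => |J f|) 2 (gaussPi (Feat p.L p.S)) := fun f =>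
    (memLp_id_gaussianReal 2).abs.comp_measurePreserving
      (measurePreserving_eval (fun _ : Feat p.L p.S => gauss) f)
  have h2 : MemLp (fun J : Feat p.L p.S → ℝ => ∑ f, |J f|) 2 (gaussPi (Feat p.L p.S)) :=
    memLp_finsetSum _ fun f _ => h1 f
  have h3 : MemLp (fun w : Env p N × (Feat p.L p.S → ℝ) => ∑ f, |w.2 f|) 2 (envJ p N) :=
    h2.comp_snd _
  have h4 : MemLp (fun d : Dis K p N => ∑ f, |d.2.2 f|) 2 (disLaw p N P Q μ) :=
    h3.comp_snd _
  have h5 : MemLp (fun d : Dis K p N => |p.s| * ∑ f, |d.2.2 f|) 2 (disLaw p N P Q μ) :=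
    h4.const_mul _
  have : IsProbabilityMeasure (disLaw p N P Q μ) := isProbabilityMeasure_disLaw
  have h6 : MemLp (fun _ : Dis K p N => p.s ^ 2) 2 (disLaw p N P Q μ) := memLp_const _
  exact h6.add h5

lemma memLp_obsC (o : Obs p.L) (σ : Fin N → Bool) :
    MemLp (fun d : Dis K p N => obsC p o d σ) 2 (disLaw p N P Q μ) :=
  memLp_obsBound.mono (measurable_obsC o σ).aestronglyMeasurable (ae_of_all _ fun d => by
    rw [Real.norm_eq_abs, Real.norm_eq_abs]
    exact (abs_obsC_le o d σ).trans (le_abs_self _))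

/-- The mean absolute fluctuation of an observable. -/
def devC (p : Params) (P : Measure (Factor K)) (Q : Measure ℝ) (μ : ℝ≥0) (N : ℕ) (o : Obs p.L)
    (x : Obs p.L → ℝ) : ℝ :=
  ∫ d, gav (totalH p x d) (fun σ => |obsC p o d σ -
    ∫ d', gav (totalH p x d') (obsC p o d') ∂disLaw p N P Q μ|) ∂disLaw p N P Q μ

lemma devC_eq_scaled (o : Obs p.L) (x : Obs p.L → ℝ) (hs : 0 < p.s) :
    devC p P Q μ N o x = match o with
      | Sum.inl a => p.s * ∫ d, gav (totalH p x d) (fun σ => |gaussObs p d.2.1 d.2.2 a σ -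
          ∫ d', gav (totalH p x d') (gaussObs p d'.2.1 d'.2.2 a) ∂disLaw p N P Q μ|)
            ∂disLaw p N P Q μ
      | Sum.inr o => p.s ^ 2 * ∫ d, gav (totalH p x d) (fun σ => |linObs p d.2.1 o σ -
          ∫ d', gav (totalH p x d') (linObs p d'.2.1 o) ∂disLaw p N P Q μ|)
            ∂disLaw p N P Q μ := by
  have key : ∀ (c : ℝ), 0 ≤ c → ∀ G : Dis K p N → (Fin N → Bool) → ℝ,
      ∫ d, gav (totalH p x d) (fun σ => |c * G d σ -
        ∫ d', gav (totalH p x d') (fun τ => c * G d' τ) ∂disLaw p N P Q μ|) ∂disLaw p N P Q μ =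
      c * ∫ d, gav (totalH p x d) (fun σ => |G d σ -
        ∫ d', gav (totalH p x d') (G d') ∂disLaw p N P Q μ|) ∂disLaw p N P Q μ := by
    intro c hc G
    simp only [gav_const_mul', integral_const_mul, ← mul_sub, abs_mul, abs_of_nonneg hc]
  cases o with
  | inl a => exact key p.s hs.le fun d σ => gaussObs p d.2.1 d.2.2 a σ
  | inr o => exact key (p.s ^ 2) (sq_nonneg _) fun d σ => linObs p d.2.1 o σ

lemma fluct_eq (x : Obs p.L → ℝ) (hs : 0 < p.s) :
    fluct p N P Q μ x = (∑ o, devC p P Q μ N o x) / p.s ^ 2 := by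
  rw [Fintype.sum_sum_type, add_div, Finset.sum_div, Finset.sum_div]
  unfold fluct
  rw [Finset.sum_div]
  congr 1
  · refine Finset.sum_congr rfl fun a _ => ?_
    rw [devC_eq_scaled _ x hs]
    simp only
    field_simp
  · refine Finset.sum_congr rfl fun o _ => ?_
    rw [devC_eq_scaled _ x hs]
    simp only
    field_simp

lemma phiC_ae_eq {B H : ℝ} (hP : ∀ σ, ∀ᵐ θ ∂P, |theta θ σ| ≤ B) (hQ : ∀ᵐ h ∂Q, |h| ≤ H)
    (x : Obs p.L → ℝ) :
    phiC B H x =ᵐ[disLaw p N P Q μ] fun d => logZ (totalH p x d) := by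
  have iI := isProbabilityMeasure_unifFin (Fin K → Fin N)
  have := isProbabilityMeasure_envJ p N
  have iB : IsProbabilityMeasure (baseLaw N P Q μ) := by unfold baseLaw; infer_instance
  set ν := Measure.infinitePi fun _ : ℕ => P.prod (unifFin (Fin K → Fin N))
  have h1 : ∀ᵐ z ∂P.prod (unifFin (Fin K → Fin N)), ∀ σ, |theta z.1 σ| ≤ B :=
    (measurePreserving_fst (μ := P) (ν := unifFin (Fin K → Fin N))).quasiMeasurePreserving.ae
      (ae_all_iff.2 hP)
  have h2 : ∀ᵐ c ∂ν, ∀ k : ℕ, ∀ σ, |theta (c k).1 σ| ≤ B :=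
    ae_all_iff.2 fun k =>
      (measurePreserving_eval_infinitePi (fun _ : ℕ => P.prod (unifFin (Fin K → Fin N))) k).quasiMeasurePreserving.ae
        h1
  have h3 : ∀ᵐ h ∂(Measure.pi fun _ : Fin N => Q), ∀ i, |h i| ≤ H :=
    ae_all_iff.2 fun i =>
      (measurePreserving_eval (fun _ : Fin N => Q) i).quasiMeasurePreserving.ae hQ
  have h4 : ∀ᵐ b ∂baseLaw N P Q μ, (∀ k : ℕ, ∀ σ, |theta (b.1.2 k).1 σ| ≤ B) ∧
      ∀ i, |b.2 i| ≤ H := by
    unfold baseLaw
    have a2 := (measurePreserving_snd (μ := poissonMeasure μ) (ν := ν)).quasiMeasurePreserving.ae h2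
    have a3 := (measurePreserving_fst (μ := (poissonMeasure μ).prod ν)
      (ν := Measure.pi fun _ : Fin N => Q)).quasiMeasurePreserving.ae a2
    have a4 := (measurePreserving_snd (μ := (poissonMeasure μ).prod ν)
      (ν := Measure.pi fun _ : Fin N => Q)).quasiMeasurePreserving.ae h3
    exact a3.and a4
  have h5 := (measurePreserving_fst (μ := baseLaw N P Q μ) (ν := envJ p N)).quasiMeasurePreserving.ae h4
  refine h5.mono fun d hd => ?_
  have : ∀ σ, baseC B H d.1 σ = hamiltonian (fun k : Fin d.1.1.1 => d.1.1.2 k) d.1.2 σ := by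
    intro σ
    simp only [baseC, hamiltonian]
    refine congrArg₂ (· + ·) (Finset.sum_congr rfl fun k _ => clip_eq (hd.1 _ _))
      (Finset.sum_congr rfl fun i _ => by rw [clip_eq (hd.2 i)])
  simp only [phiC, this]
  rfl

lemma memLp_logZ_totalH {B H : ℝ} (hB : 0 ≤ B) (hH : 0 ≤ H)
    (hP : ∀ σ, ∀ᵐ θ ∂P, |theta θ σ| ≤ B) (hQ : ∀ᵐ h ∂Q, |h| ≤ H) (x : Obs p.L → ℝ) :
    MemLp (fun d => logZ (totalH p x d)) 2 (disLaw p N P Q μ) :=
  (memLp_phiC hB hH (X₀ := ∑ o, |x o|)
    (fun o => Finset.single_le_sum (f := fun o => |x o|) (fun _ _ => abs_nonneg _) (Finset.mem_univ o))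
    μ P Q).ae_eq (phiC_ae_eq hP hQ x)

lemma mean_abs_le {B H : ℝ} (hB : 0 ≤ B) (hH : 0 ≤ H)
    (hP : ∀ σ, ∀ᵐ θ ∂P, |theta θ σ| ≤ B) (hQ : ∀ᵐ h ∂Q, |h| ≤ H) (x : Obs p.L → ℝ) {W b : ℝ}
    (hb : 0 < b) (hW : variance (phiC B H x) ((baseLaw N P Q μ).prod (envJ p N)) ≤ W) :
    ∫ d, |logZ (totalH p x d) - ∫ d', logZ (totalH p x d') ∂disLaw p N P Q μ| ∂disLaw p N P Q μ ≤
      W / (2 * b) + b / 2 := by
  have := isProbabilityMeasure_disLaw (p := p) (N := N) (P := P) (Q := Q) (μ := μ)
  set ν := disLaw p N P Q μ with hν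
  set f : Dis K p N → ℝ := fun d => logZ (totalH p x d) with hf
  have hfL : MemLp f 2 ν := memLp_logZ_totalH hB hH hP hQ x
  have hv : variance f ν ≤ W := by
    rw [variance_congr (phiC_ae_eq (μ := μ) hP hQ x).symm]
    exact hW
  rw [variance_eq_integral hfL.aestronglyMeasurable.aemeasurable] at hv
  set m := ∫ d, f d ∂ν
  have i2 : Integrable (fun d => (f d - m) ^ 2) ν := (hfL.sub (memLp_const m)).integrable_sq
  have hle : ∀ d, |f d - m| ≤ (f d - m) ^ 2 / (2 * b) + b / 2 := fun d => by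
    rw [← sub_nonneg]
    have e : (f d - m) ^ 2 / (2 * b) + b / 2 - |f d - m| = (|f d - m| - b) ^ 2 / (2 * b) := by
      rw [← sq_abs (f d - m)]; field_simp; ring
    rw [e]; positivity
  have i3 : Integrable (fun d => |f d - m|) ν :=
    (((hfL.sub (memLp_const m)).integrable one_le_two)).abs
  refine (integral_mono i3 ((i2.div_const _).add (integrable_const _)) hle).trans ?_
  simp only [Pi.add_apply]
  rw [integral_add (i2.div_const _) (integrable_const _), integral_div (2 * b)]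
  simp only [integral_const, probReal_univ, one_smul]
  gcongr

/-- A monomial field raises the mean of `log Z` by at most half its variance. -/
lemma mono_gap {B H : ℝ} (hB : 0 ≤ B) (hH : 0 ≤ H)
    (hP : ∀ σ, ∀ᵐ θ ∂P, |theta θ σ| ≤ B) (hQ : ∀ᵐ h ∂Q, |h| ≤ H) (x : Obs p.L → ℝ)
    (a : Mono p.L) (t : ℝ) :
    ∫ d, logZ (totalH p (Function.update x (Sum.inl a) 0) d) ∂disLaw p N P Q μ ≤
        ∫ d, logZ (totalH p (Function.update x (Sum.inl a) t) d) ∂disLaw p N P Q μ ∧
      ∫ d, logZ (totalH p (Function.update x (Sum.inl a) t) d) ∂disLaw p N P Q μ ≤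
        ∫ d, logZ (totalH p (Function.update x (Sum.inl a) 0) d) ∂disLaw p N P Q μ
          + p.s ^ 2 * t ^ 2 / 2 := by
  classical
  have iI := isProbabilityMeasure_unifFin (Fin K → Fin N)
  have : NeZero p.Q := ⟨p.Q_pos.ne'⟩
  have iE := isProbabilityMeasure_unifFin (Env p N)
  have := isProbabilityMeasure_envJ p N
  have iB : IsProbabilityMeasure (baseLaw N P Q μ) := by unfold baseLaw; infer_instance
  set xt := Function.update x (Sum.inl a) t with hxt
  set x0 := Function.update x (Sum.inl a) 0 with hx0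
  set A : Base K N → Env p N → (Fin N → Bool) → ℝ := fun b e σ =>
    hamiltonian (fun k : Fin b.1.1 => b.1.2 k) b.2 σ + detPart p x0 e σ with hA
  have hdet : ∀ (e : Env p N) (σ : Fin N → Bool), detPart p xt e σ = detPart p x0 e σ := fun e σ => by
    simp [detPart, hxt, hx0]
  have et : ∀ b e J, logZ (totalH p xt (b, e, J)) =
      logZ fun σ => A b e σ + field (coef p xt e) J σ := fun b e J => by
    refine congrArg logZ (funext fun σ => ?_)
    simp only [totalH, pertH_eq, hdet, hA, add_assoc]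
  have e0 : ∀ b e J, logZ (totalH p x0 (b, e, J)) =
      logZ fun σ => A b e σ + field (coef p x0 e) J σ := fun b e J => by
    refine congrArg logZ (funext fun σ => ?_)
    simp only [totalH, pertH_eq, hA, add_assoc]
  have hzero : ∀ e : Env p N, coef p x0 e =
      fun σ (f : Feat p.L p.S) => if f.1 = a then 0 else coef p xt e σ f := by
    intro e
    funext σ f
    by_cases h : f.1 = a
    · simp [coef, hx0, h]
    · simp [coef, hx0, hxt, h]
  have hv : ∀ (e : Env p N) (σ : Fin N → Bool), ∑ f : Feat p.L p.S, (if f.1 = a then coef p xt e σ f ^ 2 else 0) ≤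
      p.s ^ 2 * t ^ 2 := by
    intro e σ
    rw [sum_mono_feat, Fintype.sum_eq_single a fun b hb => by simp [hb]]
    refine (Finset.sum_le_sum fun v _ => ?_).trans_eq
      (show ∑ _v : Fin a.1.val → Fin p.S, p.s ^ 2 * t ^ 2 * ((p.S : ℝ) ^ a.1.val)⁻¹ = _ by
        rw [← Finset.mul_sum, sum_inv_pow, mul_one])
    simp only [if_true, coef, hxt, Function.update_self, mul_pow]
    exact mul_le_mul_of_nonneg_left (sq_featVal_le p e ⟨a, v⟩ σ) (by positivity)
  have hin := fun b e => field_gap_on (A b e) (coef p xt e) (fun f => f.1 = a) (hv e)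
  simp only [← hzero, ← et, ← e0] at hin
  have iD := isProbabilityMeasure_disLaw (p := p) (N := N) (P := P) (Q := Q) (μ := μ)
  have It : Integrable (fun d => logZ (totalH p xt d)) (disLaw p N P Q μ) :=
    (memLp_logZ_totalH hB hH hP hQ xt).integrable one_le_two
  have I0 : Integrable (fun d => logZ (totalH p x0 d)) (disLaw p N P Q μ) :=
    (memLp_logZ_totalH hB hH hP hQ x0).integrable one_le_two
  have iS : SFinite (baseLaw N P Q μ) := by unfold baseLaw; infer_instance
  unfold disLaw at It I0 ⊢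
  rw [integral_prod _ It, integral_prod _ I0]
  have hb : ∀ᵐ b ∂baseLaw N P Q μ,
      ∫ w, logZ (totalH p x0 (b, w)) ∂envJ p N ≤ ∫ w, logZ (totalH p xt (b, w)) ∂envJ p N ∧
      ∫ w, logZ (totalH p xt (b, w)) ∂envJ p N ≤
        ∫ w, logZ (totalH p x0 (b, w)) ∂envJ p N + p.s ^ 2 * t ^ 2 / 2 := by
    filter_upwards [It.prod_right_ae, I0.prod_right_ae] with b bt b0
    rw [integral_prod _ bt, integral_prod _ b0]
    refine ⟨integral_mono b0.integral_prod_left bt.integral_prod_left fun e => (hin b e).1, ?_⟩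
    refine (integral_mono bt.integral_prod_left
      (b0.integral_prod_left.add (integrable_const (p.s ^ 2 * t ^ 2 / 2)))
      fun e => (hin b e).2).trans_eq ?_
    simp only [Pi.add_apply]
    rw [integral_add b0.integral_prod_left (integrable_const _)]
    simp
  refine ⟨integral_mono_ae I0.integral_prod_left It.integral_prod_left (hb.mono fun b h => h.1), ?_⟩
  refine (integral_mono_ae It.integral_prod_left
    (I0.integral_prod_left.add (integrable_const (p.s ^ 2 * t ^ 2 / 2)))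
    (hb.mono fun b h => h.2)).trans_eq ?_
  simp only [Pi.add_apply]
  rw [integral_add I0.integral_prod_left (integrable_const _)]
  simp

lemma abs_mean_obs_le {B H : ℝ} (hB : 0 ≤ B) (hH : 0 ≤ H)
    (hP : ∀ σ, ∀ᵐ θ ∂P, |theta θ σ| ≤ B) (hQ : ∀ᵐ h ∂Q, |h| ≤ H) (x : Obs p.L → ℝ)
    (o : Obs p.L) {t : ℝ} (ht : t ∈ Set.Icc (0 : ℝ) 3) :
    |∫ d, gav (totalH p (Function.update x o t) d) (obsC p o d) ∂disLaw p N P Q μ| ≤
      8 * p.s ^ 2 := by
  have := isProbabilityMeasure_disLaw (p := p) (N := N) (P := P) (Q := Q) (μ := μ)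
  set ν := disLaw p N P Q μ with hν
  cases o with
  | inr o =>
    rw [← Real.norm_eq_abs]
    refine le_trans (norm_integral_le_of_norm_le_const (C := 8 * p.s ^ 2) (ae_of_all _ fun d => ?_))
      (le_of_eq (by simp))
    refine abs_gav_le_of_le _ fun σ => ?_
    simp only [obsC]
    rw [abs_mul, abs_of_nonneg (sq_nonneg p.s)]
    nlinarith [abs_linObs_le d.2.1 o σ, sq_nonneg p.s, abs_nonneg (linObs p d.2.1 o σ)]
  | inl a =>
    set O : Dis K p N → (Fin N → Bool) → ℝ := obsC p (Sum.inl a) with hO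
    set g : ℝ → ℝ := fun u => ∫ d, logZ (totalH p (Function.update x (Sum.inl a) u) d) ∂ν with hg
    set p1 := ∫ d, gav (totalH p (Function.update x (Sum.inl a) t) d) (O d) ∂ν with hp1
    have hi : Integrable
        (fun d => gav (totalH p (Function.update x (Sum.inl a) t) d) (O d)) ν := by
      refine ((memLp_obsBound).integrable one_le_two).mono'
        (Finset.measurable_sum _ fun σ _ => ((measurable_gw_totalH σ).comp
          measurable_prodMk_left).mul (measurable_obsC _ σ)).aestronglyMeasurable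
        (ae_of_all _ fun d => abs_gav_le_of_le _ fun σ => abs_obsC_le _ d σ)
    have htan : ∀ u, (u - t) * p1 ≤ g u - g t := by
      intro u
      simp only [hg, hp1]
      rw [← integral_const_mul, ← integral_sub
        ((memLp_logZ_totalH hB hH hP hQ _).integrable one_le_two)
        ((memLp_logZ_totalH hB hH hP hQ _).integrable one_le_two)]
      refine integral_mono (hi.const_mul _)
        (((memLp_logZ_totalH hB hH hP hQ _).integrable one_le_two).sub
          ((memLp_logZ_totalH hB hH hP hQ _).integrable one_le_two)) fun d => ?_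
      refine (tangent_le _ _ (u - t)).trans_eq (congrArg (fun h => logZ h - _) (funext fun σ => ?_))
      simp only [hO]
      rw [totalH_update x (Sum.inl a) t, totalH_update x (Sum.inl a) u]
      ring
    have g4 := (mono_gap (N := N) (μ := μ) hB hH hP hQ x a 4).2
    have gm := (mono_gap (N := N) (μ := μ) hB hH hP hQ x a (-1)).2
    have gt := (mono_gap (N := N) (μ := μ) hB hH hP hQ x a t).1
    have t4 := htan 4
    have tm := htan (-1)
    simp only [hg] at t4 tm
    rw [abs_le]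
    obtain ⟨ht0, ht3⟩ := ht
    constructor
    · nlinarith [sq_nonneg p.s]
    · nlinarith [sq_nonneg p.s]

lemma updateOne_preserving {ι : Type*} [Fintype ι] [DecidableEq ι] (μ : ι → Measure ℝ)
    [∀ i, IsProbabilityMeasure (μ i)] (o : ι) :
    MeasurePreserving (fun z : (ι → ℝ) × ℝ => Function.update z.1 o z.2)
      ((Measure.pi μ).prod (μ o)) (Measure.pi μ) := by
  have hm : Measurable fun z : (ι → ℝ) × ℝ => Function.update z.1 o z.2 := measurable_update'
  refine ⟨hm, (Measure.pi_eq fun s hs => ?_).symm⟩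
  rw [Measure.map_apply hm (MeasurableSet.univ_pi hs)]
  have e : (fun z : (ι → ℝ) × ℝ => Function.update z.1 o z.2) ⁻¹' Set.univ.pi s =
      (Set.univ.pi (Function.update s o Set.univ)) ×ˢ (s o) := by
    ext z
    simp only [Set.mem_preimage, Set.mem_univ_pi, Set.mem_prod]
    constructor
    · intro h
      refine ⟨fun i => ?_, by simpa using h o⟩
      by_cases hi : i = o
      · subst hi; simp
      · simpa [hi] using h i
    · rintro ⟨h1, h2⟩ i
      by_cases hi : i = o
      · subst hi; simpa using h2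
      · simpa [hi] using h1 i
  rw [e, Measure.prod_prod, Measure.pi_pi, ← Finset.prod_erase_mul _ _ (Finset.mem_univ o),
    ← Finset.prod_erase_mul _ (fun i => μ i (s i)) (Finset.mem_univ o)]
  simp only [Function.update_self, measure_univ, mul_one]
  congr 1
  exact Finset.prod_congr rfl fun i hi => by rw [Function.update_of_ne (Finset.ne_of_mem_erase hi)]

/-- The fluctuation bound at given parameters. -/
theorem integral_devC_le {B H W b y : ℝ} (hB : 0 ≤ B) (hH : 0 ≤ H)
    (hP : ∀ σ, ∀ᵐ θ ∂P, |theta θ σ| ≤ B) (hQ : ∀ᵐ h ∂Q, |h| ≤ H) (hs : 0 < p.s) (hb : 0 < b)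
    (hy : 0 < y) (hy1 : y ≤ 1)
    (hW : ∀ x : Obs p.L → ℝ, (∀ o, |x o| ≤ 3) →
      variance (phiC B H x) ((baseLaw N P Q μ).prod (envJ p N)) ≤ W) (o : Obs p.L) :
    Integrable (devC p P Q μ N o) (xLaw p.L) ∧
    ∫ x, devC p P Q μ N o x ∂xLaw p.L ≤
      8 * p.s ^ 2 / p.s + p.s / 2 + 3 * (W / (2 * b) + b / 2) / y + 4 * y * (8 * p.s ^ 2) := by
  classical
  have := isProbabilityMeasure_disLaw (p := p) (N := N) (P := P) (Q := Q) (μ := μ)
  set ν := disLaw p N P Q μ with hν
  have hI : IsProbabilityMeasure (volume.restrict (Set.Icc (1 : ℝ) 2)) := ⟨by simp; norm_num⟩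
  have hx : IsProbabilityMeasure (xLaw p.L) := by unfold xLaw; infer_instance
  have hcm : Measurable fun x : Obs p.L → ℝ => ∫ d', gav (totalH p x d') (obsC p o d') ∂ν :=
    (Finset.measurable_sum _ fun σ _ => (measurable_gw_totalH σ).mul
      ((measurable_obsC o σ).comp measurable_snd)).stronglyMeasurable.integral_prod_right'.measurable
  have hdm : Measurable (devC p P Q μ N o) :=
    (Finset.measurable_sum _ fun σ _ => (measurable_gw_totalH σ).mul
      (((measurable_obsC o σ).comp measurable_snd).sub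
        (hcm.comp measurable_fst)).abs).stronglyMeasurable.integral_prod_right'.measurable
  set M0 := ∫ d : Dis K p N, (p.s ^ 2 + |p.s| * ∑ f, |d.2.2 f|) ∂ν with hM0
  have hbi : Integrable (fun d : Dis K p N => p.s ^ 2 + |p.s| * ∑ f, |d.2.2 f|) ν :=
    memLp_obsBound.integrable one_le_two
  have hbd : ∀ x, |devC p P Q μ N o x| ≤ M0 + M0 := by
    intro x
    have hc : |∫ d', gav (totalH p x d') (obsC p o d') ∂ν| ≤ M0 := by
      rw [← Real.norm_eq_abs]
      exact norm_integral_le_of_norm_le hbi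
        (ae_of_all _ fun d => abs_gav_le_of_le _ fun σ => abs_obsC_le o d σ)
    rw [← Real.norm_eq_abs]
    refine (norm_integral_le_of_norm_le (hbi.add (integrable_const M0)) (ae_of_all _ fun d =>
      abs_gav_le_of_le _ fun σ => ?_)).trans_eq ?_
    · rw [abs_abs]
      exact (abs_sub _ _).trans (add_le_add (abs_obsC_le o d σ) hc)
    · simp only [Pi.add_apply]
      rw [integral_add hbi (integrable_const _)]
      simp [hM0]
  have hint : Integrable (devC p P Q μ N o) (xLaw p.L) :=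
    Integrable.of_bound hdm.aestronglyMeasurable _ (ae_of_all _ hbd)
  refine ⟨hint, ?_⟩
  have hmp := updateOne_preserving (fun _ : Obs p.L => volume.restrict (Set.Icc (1 : ℝ) 2)) o
  have e : ∫ x, devC p P Q μ N o x ∂xLaw p.L = ∫ x, ∫ t in Set.Icc (1 : ℝ) 2,
      devC p P Q μ N o (Function.update x o t) ∂volume ∂xLaw p.L := by
    unfold xLaw
    conv_lhs => rw [← hmp.map_eq]
    rw [integral_map hmp.measurable.aemeasurable hdm.aestronglyMeasurable]
    exact integral_prod (fun z : (Obs p.L → ℝ) × ℝ => devC p P Q μ N o (Function.update z.1 o z.2))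
      (Integrable.of_bound (hdm.comp hmp.measurable).aestronglyMeasurable _
        (ae_of_all _ fun z => hbd _))
  rw [e]
  have hone : ∀ x : Obs p.L → ℝ, (∀ o', |x o'| ≤ 3) →
      ∫ t in Set.Icc (1 : ℝ) 2, devC p P Q μ N o (Function.update x o t) ≤
        8 * p.s ^ 2 / p.s + p.s / 2 + 3 * (W / (2 * b) + b / 2) / y + 4 * y * (8 * p.s ^ 2) := by
    intro x hx3
    have hfun : ∀ t (d : Dis K p N), (fun σ => totalH p (Function.update x o 0) d σ +
        t * obsC p o d σ) = totalH p (Function.update x o t) d := fun t d =>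
      funext fun σ => (totalH_update x o t d σ).symm
    have h := self_average_one (ν := ν)
      (H := fun (d : Dis K p N) σ => totalH p (Function.update x o 0) d σ)
      (O := fun d σ => obsC p o d σ)
      (fun σ => (measurable_totalH σ).comp measurable_prodMk_left) (measurable_obsC o)
      (fun σ => (memLp_obsC o σ).integrable one_le_two) (fun σ => (memLp_obsC o σ).integrable_sq)
      (fun t => by
        simp only [hfun]
        exact (memLp_logZ_totalH hB hH hP hQ _).integrable one_le_two)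
      (V := W / (2 * b) + b / 2) (B := 8 * p.s ^ 2) (a := p.s) hs hy hy1
      (fun t ht => by
        simp only [hfun]
        refine mean_abs_le hB hH hP hQ _ hb (hW _ fun o' => ?_)
        by_cases ho : o' = o
        · subst ho
          rw [Function.update_self, abs_of_nonneg ht.1]
          exact ht.2
        · rw [Function.update_of_ne ho]; exact hx3 o')
      (fun t ht => by
        simp only [hfun]
        exact abs_mean_obs_le hB hH hP hQ x o ht)
    simp only [hfun] at h
    exact h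
  have hae : ∀ᵐ x ∂xLaw p.L, ∀ o', |x o'| ≤ 3 := by
    refine ae_all_iff.2 fun o' => ?_
    unfold xLaw
    refine (measurePreserving_eval (fun _ : Obs p.L => volume.restrict (Set.Icc (1 : ℝ) 2)) o'
      ).quasiMeasurePreserving.ae (p := fun t => |t| ≤ 3) ?_
    rw [ae_restrict_iff' measurableSet_Icc]
    exact ae_of_all _ fun t ht => by rw [abs_of_nonneg (by linarith [ht.1])]; linarith [ht.2]
  refine (integral_mono_of_nonneg (ae_of_all _ fun x => integral_nonneg fun t => integral_nonneg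
    fun d => Finset.sum_nonneg fun σ _ => mul_nonneg (gw_nonneg' _ _) (abs_nonneg _))
    (integrable_const _) (hae.mono hone)).trans_eq (by simp)

end Fixed

lemma theta_bound {P : Measure (Factor K)} {Q : Measure ℝ} {c H : ℝ}
    (hM : IsBoundedModel P Q c H) :
    0 ≤ -Real.log (1 - c) ∧ ∀ σ, ∀ᵐ θ ∂P, |theta θ σ| ≤ -Real.log (1 - c) := by
  have := hM.prob_factor
  obtain ⟨θ₀, h₀⟩ := hM.b_le.exists
  have hc : 0 ≤ c := (abs_nonneg _).trans h₀
  refine ⟨neg_nonneg.2 (Real.log_nonpos (by linarith [hM.c_lt]) (by linarith)), fun σ => ?_⟩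
  filter_upwards [hM.b_le, hM.scale_one, hM.bounds] with θ h1 h2 h3
  set y := θ.2.1 * ∏ j, θ.2.2 j (σ j) with hy
  have hyb : |y| ≤ c := by
    rw [hy, abs_mul, Finset.abs_prod]
    exact (mul_le_of_le_one_right (abs_nonneg _)
      (Finset.prod_le_one (fun j _ => abs_nonneg _) fun j _ => h3.2.2 j _)).trans h1
  obtain ⟨y1, y2⟩ := abs_le.1 hyb
  have hw : factorWeight θ σ = 1 + y := by simp [factorWeight, h2, hy]
  have hclt := hM.c_lt
  rw [theta, hw, abs_le, neg_neg]
  constructor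
  · exact Real.log_le_log (by linarith) (by linarith)
  · rw [← Real.log_inv]
    refine Real.log_le_log (by linarith) ?_
    rw [inv_eq_one_div, le_div_iff₀ (by linarith)]
    nlinarith

/-- Every summand of the variance bound is of order `M`. -/
lemma variance_arith {L₁ cM C₁ C s S q n M μ H B lam : ℝ} (hL : 0 ≤ L₁) (hcM : 0 ≤ cM)
    (hC₁ : C₁ = 1 / 4 + 6 * (L₁ + 1) + 9 * cM * L₁ / 2)
    (hC : C = 9 * cM + L₁ / 32 + L₁ / 8 + 3 * L₁ * C₁ ^ 2 / 2 + 2 * H ^ 2 + 3 * B ^ 2 * lam)
    (hS : 0 < S) (hsS : s ^ 2 / S ≤ 1) (hsM : s ^ 2 ≤ M) (hSM : S ≤ 3 * M)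
    (hq2 : q ^ 2 ≤ 4 * M) (hq1 : q ≤ 4 * M) (hn : n ≤ M) (hμ : μ ≤ lam * M) :
    cM * (s ^ 2 * 3 ^ 2) + ((L₁ * (q / 8) ^ 2 / 2 + L₁ * q * ((1 / 4 : ℝ) ^ 2 / 2)) +
        L₁ * S * ((1 / 4 + s ^ 2 * 3 * (2 * (L₁ + 1) / S) +
          s ^ 2 * 3 ^ 2 * (cM * (L₁ / S)) / 2) ^ 2 / 2)) +
      (n * ((2 * H) ^ 2 / 2) + (μ * ((2 * B) ^ 2 / 2) + B ^ 2 * μ)) ≤ C * M := by
  set t := s ^ 2 / S with ht
  have e : 1 / 4 + s ^ 2 * 3 * (2 * (L₁ + 1) / S) + s ^ 2 * 3 ^ 2 * (cM * (L₁ / S)) / 2 =
      1 / 4 + 6 * (L₁ + 1) * t + 9 * cM * L₁ / 2 * t := by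
    rw [ht]; ring
  have ht0 : 0 ≤ t := by positivity
  have hin : 1 / 4 + 6 * (L₁ + 1) * t + 9 * cM * L₁ / 2 * t ≤ C₁ := by
    rw [hC₁]
    exact add_le_add (add_le_add le_rfl (mul_le_of_le_one_right (by positivity) hsS))
      (mul_le_of_le_one_right (by positivity) hsS)
  have h4 : L₁ * S * ((1 / 4 + 6 * (L₁ + 1) * t + 9 * cM * L₁ / 2 * t) ^ 2 / 2) ≤
      L₁ * (3 * M) * (C₁ ^ 2 / 2) :=
    mul_le_mul (mul_le_mul_of_nonneg_left hSM hL)
      (div_le_div_of_nonneg_right (pow_le_pow_left₀ (by positivity) hin 2) two_pos.le)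
      (by positivity) (mul_nonneg hL (by linarith))
  have h1 := mul_le_mul_of_nonneg_left hsM hcM
  have h2 := mul_le_mul_of_nonneg_left hq2 hL
  have h3 := mul_le_mul_of_nonneg_left hq1 hL
  have h5 := mul_le_mul_of_nonneg_left hn (sq_nonneg H)
  have h6 := mul_le_mul_of_nonneg_left hμ (sq_nonneg B)
  rw [e, hC]
  linarith

/-- The final bound at given parameters. -/
lemma rate_arith {c s y M C ε : ℝ} (hc : 0 ≤ c) (hs : 0 < s) (hy : 0 < y) (hM : 0 < M)
    (hkey : Real.sqrt M = y * s ^ 2 * y)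
    (hR : c * (9 / s + (3 * (C + 1) / 2 + 32) * y) ≤ ε) :
    c * (8 * s ^ 2 / s + s / 2 + 3 * (C * M / (2 * Real.sqrt M) + Real.sqrt M / 2) / y +
      4 * y * (8 * s ^ 2)) ≤ ε * s ^ 2 := by
  have h1 : C * M / (2 * Real.sqrt M) = C / 2 * Real.sqrt M := by
    rw [div_eq_iff (mul_pos two_pos (Real.sqrt_pos.2 hM)).ne']
    linear_combination (-C) * Real.mul_self_sqrt hM.le
  rw [h1, hkey]
  have e : 8 * s ^ 2 / s + s / 2 + 3 * (C / 2 * (y * s ^ 2 * y) + y * s ^ 2 * y / 2) / y +
      4 * y * (8 * s ^ 2) = ((9 / s + (3 * (C + 1) / 2 + 32) * y) - 1 / (2 * s)) * s ^ 2 := by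
    field_simp
    ring
  rw [e, ← mul_assoc]
  refine mul_le_mul_of_nonneg_right (le_trans ?_ hR) (sq_nonneg _)
  exact mul_le_mul_of_nonneg_left (sub_le_self _ (by positivity)) hc

/-- The tuning of the parameters at horizon `M`. -/
lemma horizon_facts (L M : ℕ) (hM : 1 ≤ M) :
    0 < (horizonParams L M).s ∧
    (horizonParams L M).s ^ 2 ≤ (M : ℝ) ∧
    (horizonParams L M).s ^ 2 / (horizonParams L M).S ≤ 1 ∧
    ((horizonParams L M).S : ℝ) ≤ 3 * M ∧
    ((horizonParams L M).Q : ℝ) ^ 2 ≤ 4 * M ∧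
    ((horizonParams L M).Q : ℝ) ≤ 4 * M ∧
    Real.sqrt M = (M : ℝ) ^ (-(1 / 10 : ℝ)) * (horizonParams L M).s ^ 2 *
      (M : ℝ) ^ (-(1 / 10 : ℝ)) := by
  have hMr : (1 : ℝ) ≤ M := by exact_mod_cast hM
  have hM0 : (0 : ℝ) < M := by linarith
  have hs2 : (horizonParams L M).s ^ 2 = (M : ℝ) ^ (7 / 10 : ℝ) := by
    simp only [horizonParams]
    rw [← Real.rpow_natCast, ← Real.rpow_mul hM0.le]
    norm_num
  have hle : ∀ a : ℝ, a ≤ 1 → (M : ℝ) ^ a ≤ M := fun a ha =>
    (Real.rpow_le_rpow_of_exponent_le hMr ha).trans_eq (Real.rpow_one _)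
  have hS : ((horizonParams L M).S : ℝ) = (⌈(M : ℝ) ^ (17 / 20 : ℝ)⌉₊ : ℝ) + 1 := by
    simp [horizonParams]
  have hQ : (horizonParams L M).Q ^ 2 ≤ 4 * M := by
    have h1 : Nat.sqrt M * Nat.sqrt M ≤ M := Nat.sqrt_le M
    have h2 : 1 ≤ Nat.sqrt M := Nat.le_sqrt.2 (by omega)
    simp only [horizonParams]
    nlinarith
  refine ⟨Real.rpow_pos_of_pos hM0 _, hs2 ▸ hle _ (by norm_num), ?_, ?_, by exact_mod_cast hQ,
    by exact_mod_cast (Nat.le_self_pow two_ne_zero _).trans hQ, ?_⟩
  · have h := Nat.le_ceil ((M : ℝ) ^ (17 / 20 : ℝ))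
    rw [hs2, hS, div_le_one (by positivity)]
    linarith [Real.rpow_le_rpow_of_exponent_le hMr (show (7 / 10 : ℝ) ≤ 17 / 20 by norm_num)]
  · have h := Nat.ceil_lt_add_one (show 0 ≤ (M : ℝ) ^ (17 / 20 : ℝ) by positivity)
    linarith [hle (17 / 20 : ℝ) (by norm_num)]
  · rw [Real.sqrt_eq_rpow, hs2, ← Real.rpow_add hM0, ← Real.rpow_add hM0]
    norm_num

lemma tendsto_rate (c C : ℝ) : Tendsto
    (fun M : ℕ => c * (9 / (M : ℝ) ^ (7 / 20 : ℝ) + C * (M : ℝ) ^ (-(1 / 10 : ℝ))))
    atTop (𝓝 0) := by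
  have h1 : Tendsto (fun M : ℕ => (M : ℝ) ^ (7 / 20 : ℝ)) atTop atTop :=
    (tendsto_rpow_atTop (by norm_num)).comp tendsto_natCast_atTop_atTop
  have h2 : Tendsto (fun M : ℕ => (M : ℝ) ^ (-(1 / 10 : ℝ))) atTop (𝓝 0) :=
    (tendsto_rpow_neg_atTop (by norm_num)).comp tendsto_natCast_atTop_atTop
  have h3 := (((tendsto_const_nhds (x := (9 : ℝ))).div_atTop h1).add (h2.const_mul C)).const_mul c
  simp only [add_zero, mul_zero] at h3
  exact h3

end SelfAvg

open SelfAvg in
/-- Self-averaging. -/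
theorem self_average : SelfAverageStmt := by
  intro K lam P Q c H hbd L ε hε
  obtain ⟨hB, hP⟩ := theta_bound hbd.model
  have := hbd.model.prob_factor
  have := hbd.model.prob_field
  have hQ : ∀ᵐ h ∂Q, |h| ≤ |H| := hbd.model.h_le.mono fun h hh => hh.trans (le_abs_self H)
  obtain ⟨C₁, hC₁⟩ : ∃ C₁ : ℝ, C₁ = 1 / 4 + 6 * (((L + 1 : ℕ) : ℝ) + 1) +
      9 * (Fintype.card (Mono (L + 1)) : ℝ) * ((L + 1 : ℕ) : ℝ) / 2 := ⟨_, rfl⟩
  obtain ⟨C, hC⟩ : ∃ C : ℝ, C = 9 * (Fintype.card (Mono (L + 1)) : ℝ) + ((L + 1 : ℕ) : ℝ) / 32 +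
      ((L + 1 : ℕ) : ℝ) / 8 + 3 * ((L + 1 : ℕ) : ℝ) * C₁ ^ 2 / 2 + 2 * |H| ^ 2 +
      3 * (-Real.log (1 - c)) ^ 2 * lam := ⟨_, rfl⟩
  have hR := (tendsto_rate (Fintype.card (Obs (L + 1)) : ℝ) (3 * (C + 1) / 2 + 32)).eventually
    (eventually_le_nhds hε)
  filter_upwards [hR, eventually_ge_atTop 1] with M hRM hM1
  intro N hN1 hN2 μ hμ
  have : NeZero N := ⟨by omega⟩
  have hM0 : (0 : ℝ) < M := by exact_mod_cast hM1
  obtain ⟨hs0, hsM, hsS, hSM, hq2, hq1, hkey⟩ := horizon_facts L M hM1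
  have hn : (N : ℝ) ≤ M := by exact_mod_cast hN2
  have hS0 : (0 : ℝ) < (horizonParams L M).S := by exact_mod_cast (horizonParams L M).S_pos
  have hW : ∀ x : Obs (horizonParams L M).L → ℝ, (∀ o, |x o| ≤ 3) →
      variance (phiC (-Real.log (1 - c)) |H| x)
        ((baseLaw N P Q μ).prod (envJ (horizonParams L M) N)) ≤ C * M := by
    intro x hx
    refine (phiC_variance hB (abs_nonneg H) hx μ P Q).trans ?_
    simp only [Nat.cast_mul]
    exact variance_arith (Nat.cast_nonneg _) (Nat.cast_nonneg _) hC₁ hC hS0 hsS hsM hSM hq2 hq1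
      hn hμ
  have hy0 : 0 < (M : ℝ) ^ (-(1 / 10 : ℝ)) := Real.rpow_pos_of_pos hM0 _
  have hy1 : (M : ℝ) ^ (-(1 / 10 : ℝ)) ≤ 1 :=
    Real.rpow_le_one_of_one_le_of_nonpos (by exact_mod_cast hM1) (by norm_num)
  have hdev := fun o => integral_devC_le (p := horizonParams L M) (N := N) (μ := μ) hB
    (abs_nonneg H) hP hQ hs0 (Real.sqrt_pos.2 hM0) hy0 hy1 hW o
  rw [integral_congr_ae (ae_of_all _ fun x => fluct_eq x hs0),
    integral_div ((horizonParams L M).s ^ 2),
    integral_finsetSum _ fun o _ => (hdev o).1, div_le_iff₀ (pow_pos hs0 2)]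
  refine (Finset.sum_le_sum fun o _ => (hdev o).2).trans ?_
  rw [Finset.sum_const, Finset.card_univ, nsmul_eq_mul]
  exact rate_arith (Nat.cast_nonneg _) hs0 hy0 hM0 hkey hRM

end Vale.Agent.P168.Limit
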