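import Vale.Agent.P168.Limit.SlotId
import Vale.Agent.P168.Limit.SelfAverage

/-!
The Ghirlanda–Guerra identities of the system array, by Gaussian integration by parts and the
smallness of the fluctuations.
-/

open MeasureTheory ProbabilityTheory Filter
open scoped BigOperators NNReal ENNReal

noncomputable section

namespace Vale.Agent.P168.Limit

/-- Integration by parts in one coordinate of a Gaussian vector. -/
theorem gaussPi_ibp {ι : Type*} [Fintype ι] [DecidableEq ι] (f : ι) {G G' : (ι → ℝ) → ℝ}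
    {A B : ℝ} (hG : Measurable G) (hG' : Measurable G') (hA : ∀ z, |G z| ≤ A)
    (hB : ∀ z, |G' z| ≤ B)
    (hd : ∀ z t, HasDerivAt (fun u => G (Function.update z f u)) (G' (Function.update z f t)) t) :
    ∫ z, z f * G z ∂Toolkit.gaussPi ι = ∫ z, G' z ∂Toolkit.gaussPi ι := by
  have h := SelfAvg.updateOne_preserving (fun _ : ι => Toolkit.gauss) f
  have key : ∀ φ : (ι → ℝ) → ℝ, Measurable φ → Integrable φ (Toolkit.gaussPi ι) →
      ∫ z, φ z ∂Toolkit.gaussPi ι
        = ∫ z, ∫ t, φ (Function.update z f t) ∂Toolkit.gauss ∂Toolkit.gaussPi ι := by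
    intro φ hφm hφ
    have hc : Integrable (fun q : (ι → ℝ) × ℝ => φ (Function.update q.1 f q.2))
        ((Toolkit.gaussPi ι).prod Toolkit.gauss) :=
      h.integrable_comp_of_integrable hφ
    conv_lhs => rw [Toolkit.gaussPi, ← h.map_eq]
    rw [integral_map h.measurable.aemeasurable hφm.aestronglyMeasurable]
    exact integral_prod _ hc
  have i1 : Integrable (fun z => z f * G z) (Toolkit.gaussPi ι) := by
    refine ((Toolkit.integrable_eval_gaussPi f).abs.mul_const A).mono'
      ((measurable_pi_apply f).mul hG).aestronglyMeasurable (ae_of_all _ fun z => ?_)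
    rw [Real.norm_eq_abs, abs_mul]
    exact mul_le_mul_of_nonneg_left (hA z) (abs_nonneg _)
  have i2 : Integrable G' (Toolkit.gaussPi ι) :=
    Integrable.of_bound hG'.aestronglyMeasurable B
      (ae_of_all _ fun z => (Real.norm_eq_abs _).trans_le (hB z))
  rw [key (fun z => z f * G z) ((measurable_pi_apply f).mul hG) i1, key G' hG' i2]
  refine integral_congr_ae (ae_of_all _ fun z => ?_)
  simp only [Function.update_self]
  exact Toolkit.gauss_ibp (hd z) fun t => hB _

variable {K N : ℕ} (p : Params)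

/-- The product over a monomial of the kernels of two configurations. -/
def monKer (e : Env p N) (a : Mono p.L) (σ τ : Fin N → Bool) : ℝ :=
  ∏ i, kern p e (a.2 i) σ τ

theorem sum_featVal_mul (e : Env p N) (a : Mono p.L) (σ τ : Fin N → Bool) :
    ∑ v : Fin a.1.val → Fin p.S, featVal p e ⟨a, v⟩ σ * featVal p e ⟨a, v⟩ τ = monKer p e a σ τ := by
  have hS : (0 : ℝ) ≤ p.S := Nat.cast_nonneg _
  simp only [featVal, ← Finset.prod_mul_distrib, monKer, kern, Finset.sum_div]
  rw [Fintype.prod_sum]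
  refine Finset.sum_congr rfl fun v _ => Finset.prod_congr rfl fun i _ => ?_
  rw [div_mul_div_comm, Real.mul_self_sqrt hS]

theorem abs_featVal_le (e : Env p N) (f : Feat p.L p.S) (σ : Fin N → Bool) :
    |featVal p e f σ| ≤ 1 := by
  rw [featVal, Finset.abs_prod]
  refine Finset.prod_le_one (fun i _ => abs_nonneg _) fun i _ => ?_
  have h1 : (1 : ℝ) ≤ Real.sqrt p.S := Real.one_le_sqrt.2 (by exact_mod_cast p.S_pos)
  rw [abs_div, abs_of_nonneg (zero_le_one.trans h1), div_le_one (zero_lt_one.trans_le h1)]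
  exact (abs_psiAt_le p e _ _ σ).trans h1

theorem gaussObs_update (e : Env p N) (J : Feat p.L p.S → ℝ) (f : Feat p.L p.S) (t : ℝ)
    (a : Mono p.L) (σ : Fin N → Bool) :
    gaussObs p e (Function.update J f t) a σ = gaussObs p e (Function.update J f 0) a σ +
      if a = f.1 then t * featVal p e f σ else 0 := by
  simp only [gaussObs]
  by_cases ha : a = f.1
  · subst ha
    rw [if_pos rfl, ← Finset.add_sum_erase _ _ (Finset.mem_univ f.2),
      ← Finset.add_sum_erase (Finset.univ : Finset (Fin f.1.1.val → Fin p.S)) _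
        (Finset.mem_univ f.2)]
    simp only [Sigma.eta, Function.update_self, zero_mul, zero_add]
    rw [add_comm]
    congr 1
    refine Finset.sum_congr rfl fun v hv => ?_
    have hne : (⟨f.1, v⟩ : Feat p.L p.S) ≠ f := fun h =>
      Finset.ne_of_mem_erase hv (eq_of_heq (Sigma.mk.inj (h.trans (Sigma.eta f).symm)).2)
    simp only [Function.update_of_ne hne]
  · rw [if_neg ha, add_zero]
    refine Finset.sum_congr rfl fun v _ => ?_
    have hne : (⟨a, v⟩ : Feat p.L p.S) ≠ f := fun h => ha (congrArg Sigma.fst h)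
    simp only [Function.update_of_ne hne]

theorem totalH_updateJ (x : Obs p.L → ℝ) (b : Base K N) (e : Env p N) (J : Feat p.L p.S → ℝ)
    (f : Feat p.L p.S) (t : ℝ) :
    totalH p x (b, e, Function.update J f t) = fun σ =>
      totalH p x (b, e, Function.update J f 0) σ + t * (p.s * x (Sum.inl f.1) * featVal p e f σ) := by
  funext σ
  have h : ∀ a : Mono p.L, x (Sum.inl a) * gaussObs p e (Function.update J f t) a σ
      = x (Sum.inl a) * gaussObs p e (Function.update J f 0) a σ +
        if a = f.1 then x (Sum.inl a) * (t * featVal p e f σ) else 0 := fun a => by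
    rw [gaussObs_update]
    split_ifs <;> ring
  simp only [totalH, pertH, h, Finset.sum_add_distrib, Finset.sum_ite_eq', Finset.mem_univ, if_true]
  ring

variable [NeZero N] (P : Measure (Factor K)) (Q : Measure ℝ) (μ : ℝ≥0)
variable [IsProbabilityMeasure P] [IsProbabilityMeasure Q] (x : Obs p.L → ℝ)

theorem integrable_coord (f : Feat p.L p.S) :
    Integrable (fun d : Dis K p N => d.2.2 f) (disLaw p N P Q μ) := by
  unfold disLaw
  have : IsProbabilityMeasure (unifFin (Env p N)) := States.isProb_unifFin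
  exact ((Toolkit.integrable_eval_gaussPi f).comp_snd (unifFin (Env p N))).comp_snd _

theorem integrable_coord_nav (n : ℕ) (f : Feat p.L p.S)
    (A : Env p N → (ℕ → Fin N → Bool) → ℝ) {B : ℝ} (hA : ∀ e σ, |A e σ| ≤ B) :
    Integrable (fun d : Dis K p N => d.2.2 f * nav n (fun σ => totalH p x d σ + 0) (A d.2.1))
      (disLaw p N P Q μ) := by
  refine ((integrable_coord p P Q μ f).abs.mul_const B).mono'
    (((measurable_pi_apply f).comp (measurable_snd.comp measurable_snd)).mul
      (measurable_navDis p x n (fun _ : Fin N → Bool => 0) A)).aestronglyMeasurable (ae_of_all _ fun d => ?_)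
  rw [Real.norm_eq_abs, abs_mul]
  exact mul_le_mul_of_nonneg_left (abs_nav_le _ _ (hA d.2.1)) (abs_nonneg _)

/-- Integration by parts for one Gaussian coordinate of the disorder. -/
theorem integral_coord_nav (n : ℕ) (f : Feat p.L p.S) (A : Env p N → (ℕ → Fin N → Bool) → ℝ)
    {B : ℝ} (hA : ∀ e σ, |A e σ| ≤ B)
    (hdep : ∀ e σ τ, (∀ l < n, σ l = τ l) → A e σ = A e τ) :
    ∫ d, d.2.2 f * nav n (fun σ => totalH p x d σ + 0) (A d.2.1) ∂disLaw p N P Q μ
      = p.s * x (Sum.inl f.1) * ((∑ q ∈ Finset.range n,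
          eav p P Q μ x n (fun _ : Fin N → Bool => 0) fun e σ => A e σ * featVal p e f (σ q)) -
        (n : ℝ) * eav p P Q μ x (n + 1) (fun _ : Fin N → Bool => 0) fun e σ => A e σ * featVal p e f (σ n)) := by
  set κ := p.s * x (Sum.inl f.1)
  set G' : Dis K p N → ℝ := fun d => κ * ((∑ q ∈ Finset.range n,
      nav n (fun σ => totalH p x d σ + 0) fun σ => A d.2.1 σ * featVal p d.2.1 f (σ q)) -
    (n : ℝ) * nav (n + 1) (fun σ => totalH p x d σ + 0) fun σ => A d.2.1 σ * featVal p d.2.1 f (σ n))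
    with hG'
  have hAf : ∀ e σ q, |A e σ * featVal p e f (σ q)| ≤ B := fun e σ q => by
    rw [abs_mul]
    exact (mul_le_of_le_one_right (abs_nonneg _) (abs_featVal_le p e f _)).trans (hA e σ)
  have i1 : ∀ q, Integrable (fun d : Dis K p N => nav n (fun σ => totalH p x d σ + 0)
      fun σ => A d.2.1 σ * featVal p d.2.1 f (σ q)) (disLaw p N P Q μ) := fun q =>
    integrable_navDis p P Q μ x n (fun _ : Fin N → Bool => 0) fun e σ => A e σ * featVal p e f (σ q)
  have i2 : Integrable (fun d : Dis K p N => nav (n + 1) (fun σ => totalH p x d σ + 0)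
      fun σ => A d.2.1 σ * featVal p d.2.1 f (σ n)) (disLaw p N P Q μ) :=
    integrable_navDis p P Q μ x (n + 1) (fun _ : Fin N → Bool => 0) fun e σ => A e σ * featVal p e f (σ n)
  have iG' : Integrable G' (disLaw p N P Q μ) :=
    ((integrable_finsetSum _ fun q _ => i1 q).sub (i2.const_mul _)).const_mul _
  have e1 : ∫ d, G' d ∂disLaw p N P Q μ = κ * ((∑ q ∈ Finset.range n,
          eav p P Q μ x n (fun _ : Fin N → Bool => 0) fun e σ => A e σ * featVal p e f (σ q)) -
        (n : ℝ) * eav p P Q μ x (n + 1) (fun _ : Fin N → Bool => 0) fun e σ => A e σ * featVal p e f (σ n)) := by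
    simp only [hG', eav]
    rw [integral_const_mul, integral_sub (integrable_finsetSum _ fun q _ => i1 q) (i2.const_mul _),
      integral_finsetSum _ fun q _ => i1 q, integral_const_mul]
  rw [← e1]
  have iL := integrable_coord_nav p P Q μ x n f A hA
  have hGm : Measurable G' :=
    (((Finset.measurable_sum _ fun q _ => measurable_navDis p x n (fun _ : Fin N → Bool => 0)
      fun e σ => A e σ * featVal p e f (σ q)).sub
        ((measurable_navDis p x (n + 1) (fun _ : Fin N → Bool => 0)
          fun e σ => A e σ * featVal p e f (σ n)).const_mul _)).const_mul _)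
  have hGb : ∀ d, |G' d| ≤ |κ| * ((n : ℝ) * B + (n : ℝ) * B) := fun d => by
    simp only [hG', abs_mul]
    refine mul_le_mul_of_nonneg_left ((abs_sub _ _).trans (add_le_add ?_ ?_)) (abs_nonneg _)
    · refine (Finset.abs_sum_le_sum_abs _ _).trans ((Finset.sum_le_sum fun q _ =>
        abs_nav_le _ _ fun σ => hAf d.2.1 σ q).trans_eq ?_)
      simp
    · rw [abs_mul, Nat.abs_cast]
      exact mul_le_mul_of_nonneg_left (abs_nav_le _ _ fun σ => hAf d.2.1 σ n) (Nat.cast_nonneg _)
  unfold disLaw at iL iG' ⊢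
  have : IsProbabilityMeasure (unifFin (Env p N)) := States.isProb_unifFin
  rw [integral_prod _ iL, integral_prod _ iG']
  refine integral_congr_ae ?_
  filter_upwards [iL.prod_right_ae, iG'.prod_right_ae] with b h1 h2
  rw [integral_prod _ h1, integral_prod _ h2]
  refine integral_congr_ae (ae_of_all _ fun e => ?_)
  refine gaussPi_ibp f (G := fun J => nav n (fun σ => totalH p x (b, e, J) σ + 0) (A e))
    (G' := fun J => G' (b, e, J))
    (measurable_nav_of n (fun σ => (measurable_totalH_J p x b e σ).add_const 0) _)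
    (hGm.comp (measurable_const.prodMk (measurable_const.prodMk measurable_id)))
    (fun z => abs_nav_le _ _ (hA e)) (fun z => hGb _) fun z t => ?_
  have hH : ∀ u, (fun σ => totalH p x (b, e, Function.update z f u) σ + 0) = fun σ =>
      totalH p x (b, e, Function.update z f 0) σ + u * (κ * featVal p e f σ) := fun u => by
    simp only [add_zero, κ]
    exact totalH_updateJ p x b e z f u
  simp only [hG', hH]
  have h := hasDerivAt_nav n (fun σ => totalH p x (b, e, Function.update z f 0) σ)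
    (fun σ => κ * featVal p e f σ) (A e) (hdep e) t
  refine h.congr_deriv ?_
  simp only [mul_left_comm _ κ, nav_const_mul, ← Finset.mul_sum]
  ring

/-- The disorder average of `A` times the Gaussian observable of replica `0`. -/
theorem integral_gauss_nav (n : ℕ) (hn : 1 ≤ n) (a : Mono p.L)
    (A : Env p N → (ℕ → Fin N → Bool) → ℝ) {B : ℝ} (hA : ∀ e σ, |A e σ| ≤ B)
    (hdep : ∀ e σ τ, (∀ l < n, σ l = τ l) → A e σ = A e τ) :
    ∫ d, nav n (totalH p x d) (fun σ => A d.2.1 σ * gaussObs p d.2.1 d.2.2 a (σ 0))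
        ∂disLaw p N P Q μ
      = p.s * x (Sum.inl a) * ((∑ q ∈ Finset.range n,
          eav p P Q μ x n (fun _ : Fin N → Bool => 0) fun e σ => A e σ * monKer p e a (σ 0) (σ q)) -
        (n : ℝ) * eav p P Q μ x (n + 1) (fun _ : Fin N → Bool => 0)
          fun e σ => A e σ * monKer p e a (σ 0) (σ n)) := by
  set A' : (Fin a.1.val → Fin p.S) → Env p N → (ℕ → Fin N → Bool) → ℝ :=
    fun v e σ => A e σ * featVal p e ⟨a, v⟩ (σ 0)
  have hA' : ∀ v e σ, |A' v e σ| ≤ B := fun v e σ => by
    rw [abs_mul]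
    exact (mul_le_of_le_one_right (abs_nonneg _) (abs_featVal_le p e _ _)).trans (hA e σ)
  have hdep' : ∀ v e σ τ, (∀ l < n, σ l = τ l) → A' v e σ = A' v e τ := fun v e σ τ h => by
    simp only [A', hdep e σ τ h, h 0 hn]
  have e1 : ∀ d : Dis K p N,
      nav n (totalH p x d) (fun σ => A d.2.1 σ * gaussObs p d.2.1 d.2.2 a (σ 0))
      = ∑ v : Fin a.1.val → Fin p.S,
          d.2.2 ⟨a, v⟩ * nav n (fun σ => totalH p x d σ + 0) (A' v d.2.1) := fun d => by
    simp only [add_zero, ← nav_const_mul, ← nav_sum]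
    refine nav_congr _ fun σ => ?_
    simp only [gaussObs, Finset.mul_sum, A']
    exact Finset.sum_congr rfl fun v _ => by ring
  simp only [e1]
  rw [integral_finsetSum _ fun v _ => integrable_coord_nav p P Q μ x n ⟨a, v⟩ (A' v) (hA' v),
    Finset.sum_congr rfl fun v _ =>
      integral_coord_nav p P Q μ x n ⟨a, v⟩ (A' v) (hA' v) (hdep' v)]
  dsimp only
  rw [← Finset.mul_sum, Finset.sum_sub_distrib, ← Finset.mul_sum, Finset.sum_comm]
  simp only [← eav_sum]
  congr 2
  · refine eav_congr p P Q μ x n _ fun e σ => Finset.sum_congr rfl fun q _ => ?_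
    simp only [A', mul_assoc, ← Finset.mul_sum, sum_featVal_mul]
  · congr 1
    refine eav_congr p P Q μ x (n + 1) _ fun e σ => ?_
    simp only [A', mul_assoc, ← Finset.mul_sum, sum_featVal_mul]

/-- The fluctuation of a Gaussian observable. -/
def gaussFl {K : ℕ} (p : Params) (N : ℕ) (P : Measure (Factor K)) (Q : Measure ℝ) (μ : ℝ≥0)
    (x : Obs p.L → ℝ) (a : Mono p.L) : ℝ :=
  ∫ d, gav (totalH p x d) (fun σ => |gaussObs p d.2.1 d.2.2 a σ -
    ∫ d', gav (totalH p x d') (gaussObs p d'.2.1 d'.2.2 a) ∂disLaw p N P Q μ|) ∂disLaw p N P Q μ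

/-- The mean of a linear observable. -/
def linMean {K : ℕ} (p : Params) (N : ℕ) (P : Measure (Factor K)) (Q : Measure ℝ) (μ : ℝ≥0)
    (x : Obs p.L → ℝ) (o : Option (Fin p.L)) : ℝ :=
  ∫ d, gav (totalH p x d) (linObs p d.2.1 o) ∂disLaw p N P Q μ

/-- The fluctuation of a linear observable. -/
def linFl {K : ℕ} (p : Params) (N : ℕ) (P : Measure (Factor K)) (Q : Measure ℝ) (μ : ℝ≥0)
    (x : Obs p.L → ℝ) (o : Option (Fin p.L)) : ℝ :=
  ∫ d, gav (totalH p x d) (fun σ => |linObs p d.2.1 o σ - linMean p N P Q μ x o|) ∂disLaw p N P Q μ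

omit [NeZero N] [IsProbabilityMeasure P] [IsProbabilityMeasure Q] in
theorem gaussFl_nonneg (a : Mono p.L) : 0 ≤ gaussFl p N P Q μ x a :=
  integral_nonneg fun d => Finset.sum_nonneg fun σ _ => mul_nonneg (gw_nonneg _ _) (abs_nonneg _)

omit [NeZero N] [IsProbabilityMeasure P] [IsProbabilityMeasure Q] in
theorem linFl_nonneg (o : Option (Fin p.L)) : 0 ≤ linFl p N P Q μ x o :=
  integral_nonneg fun d => Finset.sum_nonneg fun σ _ => mul_nonneg (gw_nonneg _ _) (abs_nonneg _)

omit [NeZero N] [IsProbabilityMeasure P] [IsProbabilityMeasure Q] in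
theorem fluct_eq_sum :
    fluct p N P Q μ x = (∑ a, gaussFl p N P Q μ x a) / p.s + ∑ o, linFl p N P Q μ x o := rfl

omit [NeZero N] [IsProbabilityMeasure P] [IsProbabilityMeasure Q] in
theorem gaussFl_le_fluct (hs : 0 < p.s) (a : Mono p.L) :
    gaussFl p N P Q μ x a / p.s ≤ fluct p N P Q μ x := by
  rw [fluct_eq_sum]
  exact (div_le_div_of_nonneg_right (Finset.single_le_sum (fun a _ => gaussFl_nonneg p P Q μ x a)
    (Finset.mem_univ a)) hs.le).trans
      (le_add_of_nonneg_right (Finset.sum_nonneg fun o _ => linFl_nonneg p P Q μ x o))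

omit [NeZero N] [IsProbabilityMeasure P] [IsProbabilityMeasure Q] in
theorem linFl_le_fluct (hs : 0 < p.s) (o : Option (Fin p.L)) :
    linFl p N P Q μ x o ≤ fluct p N P Q μ x := by
  rw [fluct_eq_sum]
  exact (Finset.single_le_sum (fun o _ => linFl_nonneg p P Q μ x o) (Finset.mem_univ o)).trans
    (le_add_of_nonneg_left (div_nonneg (Finset.sum_nonneg fun a _ => gaussFl_nonneg p P Q μ x a)
      hs.le))

theorem abs_linMean_le (o : Option (Fin p.L)) : |linMean p N P Q μ x o| ≤ 1 :=
  (Real.norm_eq_abs _).ge.trans ((norm_integral_le_of_norm_le_const (μ := disLaw p N P Q μ)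
    (ae_of_all _ fun d : Dis K p N => (Real.norm_eq_abs (gav (totalH p x d) (linObs p d.2.1 o))).trans_le
      (abs_gav_le_of_le _ fun σ => abs_linObs_le p d.2.1 o σ))).trans (by simp))

/-- A single replica's observable as a disorder average. -/
theorem eav_single {m k : ℕ} (hk : k < m) (f : Env p N → (Fin N → Bool) → ℝ) :
    eav p P Q μ x m (fun _ : Fin N → Bool => 0) (fun e σ => f e (σ k))
      = ∫ d, gav (totalH p x d) (f d.2.1) ∂disLaw p N P Q μ := by
  rw [eav]
  refine integral_congr_ae (ae_of_all _ fun d => ?_)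
  simp only [add_zero]
  exact nav_single hk (totalH p x d) (f d.2.1)

/-- Adding a bounded replica changes a disorder average by at most its fluctuation. -/
theorem abs_eav_diff_le {m : ℕ} {A B C : Env p N → (ℕ → Fin N → Bool) → ℝ}
    (h : ∀ e σ, |A e σ - B e σ| ≤ C e σ) :
    |eav p P Q μ x m (fun _ : Fin N → Bool => 0) A - eav p P Q μ x m (fun _ : Fin N → Bool => 0) B|
      ≤ eav p P Q μ x m (fun _ : Fin N → Bool => 0) C := by
  rw [← eav_sub, eav, eav]
  refine abs_integral_le_integral_abs.trans (integral_mono_of_nonneg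
    (ae_of_all _ fun d => abs_nonneg _) (integrable_navDis p P Q μ x m _ C) (ae_of_all _ fun d => ?_))
  unfold nav
  refine (Finset.abs_sum_le_sum_abs _ _).trans (Finset.sum_le_sum fun σ _ => ?_)
  rw [abs_mul, abs_of_nonneg (Finset.prod_nonneg fun l _ => gw_nonneg _ _)]
  exact mul_le_mul_of_nonneg_left (h _ _) (Finset.prod_nonneg fun l _ => gw_nonneg _ _)

omit [NeZero N] in
theorem abs_prod_sub_prod_le {ι : Type*} (s : Finset ι) {a b : ι → ℝ} (ha : ∀ i ∈ s, |a i| ≤ 1)
    (hb : ∀ i ∈ s, |b i| ≤ 1) : |∏ i ∈ s, a i - ∏ i ∈ s, b i| ≤ ∑ i ∈ s, |a i - b i| := by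
  classical
  induction s using Finset.induction_on with
  | empty => simp
  | insert i s hi ih =>
    rw [Finset.prod_insert hi, Finset.prod_insert hi, Finset.sum_insert hi]
    have e : a i * ∏ j ∈ s, a j - b i * ∏ j ∈ s, b j
        = (a i - b i) * ∏ j ∈ s, a j + b i * (∏ j ∈ s, a j - ∏ j ∈ s, b j) := by ring
    rw [e]
    refine (abs_add_le _ _).trans (add_le_add ?_ ?_)
    · rw [abs_mul, Finset.abs_prod]
      exact mul_le_of_le_one_right (abs_nonneg _) (Finset.prod_le_one (fun j _ => abs_nonneg _)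
        fun j hj => ha j (Finset.mem_insert_of_mem hj))
    · rw [abs_mul]
      exact (mul_le_of_le_one_left (abs_nonneg _) (hb i (Finset.mem_insert_self i s))).trans
        (ih (fun j hj => ha j (Finset.mem_insert_of_mem hj))
          fun j hj => hb j (Finset.mem_insert_of_mem hj))

omit [NeZero N] in
theorem abs_monKer_le (e : Env p N) (a : Mono p.L) (σ τ : Fin N → Bool) :
    |monKer p e a σ τ| ≤ 1 := by
  rw [monKer, Finset.abs_prod]
  exact Finset.prod_le_one (fun i _ => abs_nonneg _) fun i _ => abs_kern_le p e _ σ τ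

/-- The Ghirlanda–Guerra identity of the system for one monomial. -/
theorem gg_eav (hs : 0 < p.s) (a : Mono p.L) (hx : 1 ≤ x (Sum.inl a)) (n : ℕ) (hn : 1 ≤ n)
    (A : Env p N → (ℕ → Fin N → Bool) → ℝ) (hA : ∀ e σ, |A e σ| ≤ 1)
    (hdep : ∀ e σ τ, (∀ l < n, σ l = τ l) → A e σ = A e τ) :
    |(n : ℝ) * eav p P Q μ x (n + 1) (fun _ : Fin N → Bool => 0) (fun e σ => A e σ * monKer p e a (σ 0) (σ n)) -
      ((eav p P Q μ x n (fun _ : Fin N → Bool => 0) A) *
          (eav p P Q μ x 2 (fun _ : Fin N → Bool => 0) fun e σ => monKer p e a (σ 0) (σ 1)) +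
        ∑ l ∈ Finset.Ico 1 n,
          eav p P Q μ x n (fun _ : Fin N → Bool => 0) fun e σ => A e σ * monKer p e a (σ 0) (σ l))|
      ≤ (1 + 2 * (a.1.val : ℝ)) * fluct p N P Q μ x := by
  set κ := p.s * x (Sum.inl a) with hκ
  set m := ∫ d, gav (totalH p x d) (gaussObs p d.2.1 d.2.2 a) ∂disLaw p N P Q μ with hm
  set E := eav p P Q μ x n (fun _ : Fin N → Bool => 0) A with hE
  set Φ := gaussFl p N P Q μ x a with hΦ
  set D : ℝ := ∏ i, linMean p N P Q μ x (some (a.2 i)) with hD
  set Δ : ℝ := ∑ i, linFl p N P Q μ x (some (a.2 i)) with hΔ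
  set e00 := eav p P Q μ x 1 (fun _ : Fin N → Bool => 0) fun e σ => monKer p e a (σ 0) (σ 0) with he00
  set e01 := eav p P Q μ x 2 (fun _ : Fin N → Bool => 0) fun e σ => monKer p e a (σ 0) (σ 1) with he01
  set T := eav p P Q μ x (n + 1) (fun _ : Fin N → Bool => 0) fun e σ => A e σ * monKer p e a (σ 0) (σ n) with hT
  set U : ℕ → ℝ := fun q =>
    eav p P Q μ x n (fun _ : Fin N → Bool => 0) fun e σ => A e σ * monKer p e a (σ 0) (σ q) with hU
  -- the mean of the observable
  have hm1 : m = κ * (e00 - e01) := by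
    have h := integral_gauss_nav p P Q μ x 1 le_rfl a (fun (_ : Env p N) (_ : ℕ → Fin N → Bool) => (1 : ℝ)) (B := 1) (fun _ _ => by simp)
      fun _ _ _ _ => rfl
    simp only [one_mul, Finset.sum_range_one, Nat.cast_one] at h
    rw [hm, he00, he01, hκ, ← h]
    refine integral_congr_ae (ae_of_all _ fun d => ?_)
    exact (nav_single Nat.zero_lt_one (totalH p x d) (gaussObs p d.2.1 d.2.2 a)).symm
  -- the main comparison
  have h1 : |κ * ((∑ q ∈ Finset.range n, U q) - (n : ℝ) * T) - m * E| ≤ Φ := by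
    rw [← integral_gauss_nav p P Q μ x n hn a A hA hdep, hE, eav, ← integral_const_mul]
    have hg : ∀ d : Dis K p N, |nav n (totalH p x d) (fun σ => A d.2.1 σ *
        gaussObs p d.2.1 d.2.2 a (σ 0)) - m * nav n (fun σ => totalH p x d σ + 0) (A d.2.1)|
        ≤ gav (totalH p x d) (fun σ => |gaussObs p d.2.1 d.2.2 a σ - m|) := by
      intro d
      simp only [add_zero]
      rw [← nav_single (Nat.lt_of_lt_of_le Nat.zero_lt_one hn) (totalH p x d)
        fun τ => |gaussObs p d.2.1 d.2.2 a τ - m|, ← nav_const_mul]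
      unfold nav
      rw [rav, rav, rav, ← Finset.sum_sub_distrib]
      refine (Finset.abs_sum_le_sum_abs _ _).trans (Finset.sum_le_sum fun σ _ => ?_)
      rw [← mul_sub, abs_mul, abs_of_nonneg (Finset.prod_nonneg fun l _ => gw_nonneg _ _)]
      refine mul_le_mul_of_nonneg_left ?_ (Finset.prod_nonneg fun l _ => gw_nonneg _ _)
      rw [show ∀ u g : ℝ, u * g - m * u = u * (g - m) from fun u g => by ring, abs_mul]
      exact mul_le_of_le_one_left (abs_nonneg _) (hA _ _)
    have hgi : ∀ σ : Fin N → Bool,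
        Integrable (fun d : Dis K p N => gaussObs p d.2.1 d.2.2 a σ) (disLaw p N P Q μ) := fun σ => by
      refine (integrable_finsetSum Finset.univ fun (v : Fin a.1.val → Fin p.S) _ =>
        (integrable_coord p P Q μ ⟨a, v⟩).abs).mono'
          ?_ (ae_of_all _ fun d => ?_)
      · refine (Finset.measurable_sum _ fun v _ => ?_).aestronglyMeasurable
        exact ((measurable_pi_apply _).comp (measurable_snd.comp measurable_snd)).mul
          (Measurable.comp (g := fun e : Env p N => featVal p e ⟨a, v⟩ σ)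
            (f := fun d : Dis K p N => d.2.1) (measurable_of_finite _)
              (measurable_fst.comp measurable_snd))
      · rw [Real.norm_eq_abs]
        refine (Finset.abs_sum_le_sum_abs _ _).trans (Finset.sum_le_sum fun v _ => ?_)
        rw [abs_mul]
        exact mul_le_of_le_one_right (abs_nonneg _) (abs_featVal_le p _ _ σ)
    have iR : Integrable (fun d : Dis K p N =>
        gav (totalH p x d) (fun σ => |gaussObs p d.2.1 d.2.2 a σ - m|)) (disLaw p N P Q μ) := by
      refine integrable_finsetSum _ fun σ _ => ?_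
      exact ((hgi σ).sub (integrable_const m)).abs.bdd_mul (c := 1)
        (measurable_gw_totalH p x σ).aestronglyMeasurable
        (ae_of_all _ fun d => by
          rw [Real.norm_eq_abs, abs_of_nonneg (gw_nonneg _ _)]; exact gw_le_one _ _)
    have iL : Integrable (fun d : Dis K p N => nav n (totalH p x d)
        (fun σ => A d.2.1 σ * gaussObs p d.2.1 d.2.2 a (σ 0))) (disLaw p N P Q μ) := by
      refine integrable_finsetSum _ fun σ _ => ?_
      simp only [← mul_assoc]
      refine (hgi _).bdd_mul (c := 1) ?_ (ae_of_all _ fun d => ?_)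
      · exact ((Finset.measurable_prod _ fun l _ => measurable_gw_totalH p x (σ l)).mul
          (Measurable.comp (g := fun e : Env p N =>
            A e fun l => if h : l < n then σ ⟨l, h⟩ else default)
            (f := fun d : Dis K p N => d.2.1) (measurable_of_finite _)
              (measurable_fst.comp measurable_snd))).aestronglyMeasurable
      · rw [Real.norm_eq_abs, abs_mul, Finset.abs_prod]
        exact mul_le_one₀ (Finset.prod_le_one (fun l _ => abs_nonneg _) fun l _ => by
          rw [abs_of_nonneg (gw_nonneg _ _)]; exact gw_le_one _ _) (abs_nonneg _) (hA _ _)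
    rw [← integral_sub iL ((integrable_navDis p P Q μ x n (fun _ : Fin N → Bool => 0) A).const_mul m)]
    exact abs_integral_le_integral_abs.trans (integral_mono_of_nonneg
      (ae_of_all _ fun d => abs_nonneg _) iR (ae_of_all _ hg))
  -- the diagonal
  have hdiag : ∀ (e : Env p N) (σ : Fin N → Bool), |monKer p e a σ σ - D|
      ≤ ∑ i, |linObs p e (some (a.2 i)) σ - linMean p N P Q μ x (some (a.2 i))| := fun e σ =>
    abs_prod_sub_prod_le _ (fun i _ => abs_kern_le p e _ σ σ)
      fun i _ => abs_linMean_le p P Q μ x _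
  have hfl : ∀ m' : ℕ, 0 < m' → eav p P Q μ x m' (fun _ : Fin N → Bool => 0) (fun e σ =>
      ∑ i, |linObs p e (some (a.2 i)) (σ 0) - linMean p N P Q μ x (some (a.2 i))|) = Δ := fun m' hm' => by
    rw [hΔ, eav_sum]
    exact Finset.sum_congr rfl fun i _ => eav_single p P Q μ x hm' fun e τ =>
      |linObs p e (some (a.2 i)) τ - linMean p N P Q μ x (some (a.2 i))|
  have hD00 : |e00 - D| ≤ Δ := by
    have e2 : eav p P Q μ x 1 (fun _ : Fin N → Bool => 0) (fun _ _ => D) = D := by
      rw [eav_single p P Q μ x Nat.zero_lt_one fun _ _ => D]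
      simp [gav_const]
    rw [← e2, he00, ← hfl 1 Nat.zero_lt_one]
    exact abs_eav_diff_le p P Q μ x fun e σ => hdiag e (σ 0)
  have hU0 : |U 0 - D * E| ≤ Δ := by
    rw [hE, ← eav_const_mul, ← hfl n hn]
    refine abs_eav_diff_le p P Q μ x fun e σ => ?_
    rw [show ∀ u g : ℝ, u * g - D * u = u * (g - D) from fun u g => by ring, abs_mul]
    exact (mul_le_of_le_one_left (abs_nonneg _) (hA e σ)).trans (hdiag e (σ 0))
  have hE1 : |E| ≤ 1 := abs_eav_le p P Q μ x n (fun _ : Fin N → Bool => 0) hA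
  have hsum : ∑ q ∈ Finset.range n, U q = U 0 + ∑ l ∈ Finset.Ico 1 n, U l := by
    rw [Finset.range_eq_Ico, Finset.sum_eq_sum_Ico_succ_bot (by omega : 0 < n)]
  rw [hm1, hsum] at h1
  have hκ1 : p.s ≤ κ := by rw [hκ]; exact le_mul_of_one_le_right hs.le hx
  have hκ0 : 0 < κ := hs.trans_le hκ1
  have h2 : |U 0 + ∑ l ∈ Finset.Ico 1 n, U l - (n : ℝ) * T - (e00 - e01) * E| ≤ Φ / p.s := by
    rw [le_div_iff₀ hs]
    refine le_trans ?_ h1
    rw [show κ * (U 0 + ∑ l ∈ Finset.Ico 1 n, U l - (n : ℝ) * T) - κ * (e00 - e01) * E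
      = κ * (U 0 + ∑ l ∈ Finset.Ico 1 n, U l - (n : ℝ) * T - (e00 - e01) * E) by ring,
      abs_mul, abs_of_pos hκ0, mul_comm]
    exact mul_le_mul_of_nonneg_right hκ1 (abs_nonneg _)
  have hΦf := gaussFl_le_fluct (N := N) p P Q μ x hs a
  have hΔf : Δ ≤ (a.1.val : ℝ) * fluct p N P Q μ x := by
    rw [hΔ]
    exact (Finset.sum_le_sum fun i _ => linFl_le_fluct p P Q μ x hs (some (a.2 i))).trans_eq
      (by simp)
  have h3 : |(e00 - D) * E| ≤ Δ := by
    rw [abs_mul]
    exact (mul_le_of_le_one_right (abs_nonneg _) hE1).trans hD00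
  have e3 : (n : ℝ) * T - (E * e01 + ∑ l ∈ Finset.Ico 1 n, U l)
      = -(U 0 + ∑ l ∈ Finset.Ico 1 n, U l - (n : ℝ) * T - (e00 - e01) * E)
        + ((U 0 - D * E) - (e00 - D) * E) := by ring
  change |(n : ℝ) * T - (E * e01 + ∑ l ∈ Finset.Ico 1 n, U l)| ≤ _
  rw [e3]
  refine (abs_add_le _ _).trans ?_
  rw [abs_neg]
  nlinarith [abs_sub (U 0 - D * E) ((e00 - D) * E)]

/-- Kernel monomials as products over a monomial index. -/
theorem kMono_arrOf (e : Env p N) (s : ℕ → Fin N) (σ : ℕ → Fin N → Bool) (w : List ℕ)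
    (hw : w.length < p.L + 1) (hwL : ∀ i : Fin w.length, w.get i < p.L) (a b : ℕ) :
    kMono w a b (arrOf p e s σ)
      = monKer p e ⟨⟨w.length, hw⟩, fun i => ⟨w.get i, hwL i⟩⟩ (σ a) (σ b) := by
  rw [kMono, monKer, ← List.ofFn_getElem_eq_map, List.prod_ofFn]
  refine Finset.prod_congr rfl fun i _ => ?_
  simp only [arrOf, kval]
  rw [dif_pos (show w[(i : ℕ)] < p.L from hwL i)]
  rfl

theorem measurable_kMono (w : List ℕ) (a b : ℕ) : Measurable fun ω : Arr => kMono w a b ω := by
  induction w with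
  | nil =>
    change Measurable fun _ : Arr => (1 : ℝ)
    exact measurable_const
  | cons g w ih =>
    change Measurable fun ω : Arr => ω.2 g a b * kMono w a b ω
    have h : Measurable fun ω : Arr => ω.2 g a b := by fun_prop
    exact h.mul ih

/-- The Ghirlanda–Guerra identity of the system array. -/
theorem sys_gg (hs : 0 < p.s) (hx : ∀ a, 1 ≤ x (Sum.inl a)) {n q : ℕ} (hn : 1 ≤ n)
    {F : List (Coord n)} (hF : SitesBelow F q) (w : List ℕ) (hw : w.length ≤ p.L)
    (hwL : ∀ g ∈ w, g < p.L) :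
    |(n : ℝ) * (∫ ω, repMono F ω * kMono w 0 n ω ∂sysArr p N P Q μ x) -
      ((∫ ω, repMono F ω ∂sysArr p N P Q μ x) * (∫ ω, kMono w 0 1 ω ∂sysArr p N P Q μ x) +
        ∑ l ∈ Finset.Ico 1 n, ∫ ω, repMono F ω * kMono w 0 l ω ∂sysArr p N P Q μ x)|
      ≤ (1 + 2 * (w.length : ℝ)) * fluct p N P Q μ x := by
  set a : Mono p.L := ⟨⟨w.length, Nat.lt_succ_of_le hw⟩,
    fun i => ⟨w.get i, hwL _ (List.get_mem w i)⟩⟩ with ha
  have hk : ∀ (e : Env p N) (s : ℕ → Fin N) σ l l', kMono w l l' (arrOf p e s σ)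
      = monKer p e a (σ l) (σ l') := fun e s σ l l' => kMono_arrOf p e s σ w _ _ l l'
  have hint : ∀ (m l : ℕ), n ≤ m → l < m →
      ∫ ω, repMono F ω * kMono w 0 l ω ∂sysArr p N P Q μ x = avg fun c : Fin q → Fin N =>
        eav p P Q μ x m (fun _ : Fin N → Bool => 0) fun e σ =>
          repVal p F c e.1 σ * monKer p e a (σ 0) (σ l) := by
    intro m l hnm hlm
    rw [integral_sysArr_eav p P Q μ x (G := fun ω => repMono F ω * kMono w 0 l ω) (B := 1)
      ((measurable_repMono F).mul (measurable_kMono w 0 l)) (fun e s σ => ?_) m q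
      (fun e s σ τ h => ?_) fun e s t σ h => ?_]
    · exact avg_congr fun c => eav_congr p P Q μ x m _ fun e σ => by rw [hk, repVal_eq]
    · rw [abs_mul, hk]
      exact mul_le_one₀ (abs_repMono_arrOf_le p F e s σ) (abs_nonneg _) (abs_monKer_le p e a _ _)
    · simp only [hk, h 0 (by omega), h l hlm, repMono_congr_rep p F e s fun i hi => h i (by omega)]
    · simp only [hk, repMono_congr_site p hF e σ h]
  have h01 : ∫ ω, kMono w 0 1 ω ∂sysArr p N P Q μ x
      = eav p P Q μ x 2 (fun _ : Fin N → Bool => 0) fun e σ => monKer p e a (σ 0) (σ 1) := by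
    rw [integral_sysArr_eav p P Q μ x (G := fun ω => kMono w 0 1 ω) (B := 1)
      (measurable_kMono w 0 1) (fun e s σ => by rw [hk]; exact abs_monKer_le p e a _ _) 2 0
      (fun e s σ τ h => by simp only [hk, h 0 (by omega), h 1 (by omega)])
      fun e s t σ _ => by simp only [hk]]
    simp only [hk, avg_const]
  rw [hint (n + 1) n (Nat.le_succ n) (Nat.lt_succ_self n), h01, integral_repMono p P Q μ x hF,
    Finset.sum_congr rfl fun l hl => hint n l le_rfl (Finset.mem_Ico.1 hl).2, ← avg_sum,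
    ← avg_const_mul, mul_comm (avg _), ← avg_const_mul, ← avg_add, ← avg_sub]
  refine abs_avg_le fun c => ?_
  have h := gg_eav p P Q μ x hs a (hx a) n hn (fun e σ => repVal p F c e.1 σ)
    (fun e σ => abs_repMono_arrOf_le p F _ _ σ) fun e σ τ hh => repMono_congr_rep p F _ _ hh
  rw [mul_comm (eav p P Q μ x 2 _ _)]
  exact h

/-- The fluctuation of the diagonal of a kernel. -/
theorem sys_diag (g a : ℕ) (hg : g < p.L) :
    ∫ ω, |ω.2 g a a - linMean p N P Q μ x (some ⟨g, hg⟩)| ∂sysArr p N P Q μ x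
      = linFl p N P Q μ x (some ⟨g, hg⟩) := by
  rw [integral_sysArr_eav p P Q μ x
    (G := fun ω => |ω.2 g a a - linMean p N P Q μ x (some ⟨g, hg⟩)|) (B := 2)
    (Measurable.abs (by fun_prop)) (fun e s σ => ?_) (a + 1) 0
    (fun e s σ τ h => by simp only [arrOf, h a (Nat.lt_succ_self a)]) fun e s t σ _ => rfl]
  · simp only [avg_const, arrOf, kval, dif_pos hg]
    exact eav_single p P Q μ x (Nat.lt_succ_self a) fun e τ =>
      |linObs p e (some ⟨g, hg⟩) τ - linMean p N P Q μ x (some ⟨g, hg⟩)|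
  · simp only [arrOf]
    rw [abs_abs]
    refine (abs_sub _ _).trans ?_
    linarith [abs_kval_le p e g (σ a) (σ a), abs_linMean_le (N := N) p P Q μ x (some ⟨g, hg⟩)]

end Vale.Agent.P168.Limit
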