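import Vale.Agent.P168.Limit.GibbsLemmas
import Vale.Agent.P168.States.Basic

/-! Finite averages, uniform sites and a sampler of a finite law from a uniform variable. -/

open MeasureTheory ProbabilityTheory
open scoped BigOperators ENNReal

noncomputable section

namespace Vale.Agent.P168.Limit

/-- The uniform average over a finite type. -/
def avg {α : Type*} [Fintype α] (f : α → ℝ) : ℝ := (∑ x, f x) / Fintype.card α

variable {α β : Type*} [Fintype α] [Fintype β]

theorem avg_congr {f g : α → ℝ} (h : ∀ x, f x = g x) : avg f = avg g := by rw [funext h]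

theorem avg_add (f g : α → ℝ) : avg (fun x => f x + g x) = avg f + avg g := by
  simp [avg, Finset.sum_add_distrib, add_div]

theorem avg_sub (f g : α → ℝ) : avg (fun x => f x - g x) = avg f - avg g := by
  simp [avg, Finset.sum_sub_distrib, sub_div]

theorem avg_const_mul (c : ℝ) (f : α → ℝ) : avg (fun x => c * f x) = c * avg f := by
  simp [avg, ← Finset.mul_sum, mul_div_assoc]

theorem avg_sum {γ : Type*} (s : Finset γ) (f : γ → α → ℝ) :
    avg (fun x => ∑ i ∈ s, f i x) = ∑ i ∈ s, avg (f i) := by
  simp only [avg]
  rw [Finset.sum_comm, Finset.sum_div]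

theorem avg_const [Nonempty α] (c : ℝ) : avg (fun _ : α => c) = c := by
  simp [avg]

theorem avg_mono {f g : α → ℝ} (h : ∀ x, f x ≤ g x) : avg f ≤ avg g := by
  unfold avg
  gcongr
  exact h _

theorem abs_avg_le_avg (f : α → ℝ) : |avg f| ≤ avg fun x => |f x| := by
  rw [avg, abs_div, Nat.abs_cast, avg]
  gcongr
  exact Finset.abs_sum_le_sum_abs _ _

theorem abs_avg_le [Nonempty α] {f : α → ℝ} {B : ℝ} (h : ∀ x, |f x| ≤ B) : |avg f| ≤ B :=
  (abs_avg_le_avg f).trans ((avg_mono h).trans_eq (avg_const B))

theorem avg_comm (f : α → β → ℝ) :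
    avg (fun x => avg fun y => f x y) = avg fun y => avg fun x => f x y := by
  simp only [avg, ← Finset.sum_div]
  rw [Finset.sum_comm]
  ring

theorem avg_equiv (e : α ≃ β) (f : β → ℝ) : avg (fun x => f (e x)) = avg f := by
  simp [avg, e.sum_comp f, Fintype.card_congr e]

theorem avg_prod (f : α × β → ℝ) : avg f = avg fun a => avg fun b => f (a, b) := by
  simp only [avg, ← Finset.sum_div, Fintype.card_prod, Fintype.sum_prod_type]
  push_cast
  rw [div_div, mul_comm (Fintype.card β : ℝ)]

/-- An average over a finite block of coordinates splits. -/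
theorem avg_append (q E : ℕ) (G : (Fin q → α) → (Fin E → α) → ℝ) :
    avg (fun s : Fin (q + E) → α => G (fun i => s (Fin.castAdd E i)) fun i => s (Fin.natAdd q i))
      = avg fun a => avg fun v => G a v := by
  rw [← avg_equiv (Fin.appendEquiv q E), avg_prod]
  simp [Fin.appendEquiv]

variable [MeasurableSpace α]

theorem integral_unifFin [Nonempty α] [MeasurableSingletonClass α] (f : α → ℝ) :
    ∫ x, f x ∂unifFin α = avg f := by
  rw [unifFin, integral_smul_measure, integral_count, ENNReal.toReal_inv, ENNReal.toReal_natCast,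
    smul_eq_mul, avg]
  ring

/-- A function of finitely many iid uniform coordinates. -/
theorem integral_sites [Nonempty α] [MeasurableSingletonClass α] (q : ℕ)
    (G : (Fin q → α) → ℝ) :
    ∫ s : ℕ → α, G (fun i => s i) ∂Measure.infinitePi (fun _ => unifFin α) = avg G := by
  have hm : Measurable fun (s : ℕ → α) (i : Fin q) => s i := by fun_prop
  have h := Measure.map_infinitePi_infinitePi_of_inj (P := fun _ : ℕ => unifFin α)
    (f := fun i : Fin q => (i : ℕ)) Fin.val_injective
  rw [Measure.infinitePi_eq_pi (μ := fun _ : Fin q => unifFin α)] at h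
  rw [← integral_map hm.aemeasurable (measurable_of_finite G).aestronglyMeasurable, h,
    integral_fintype (Integrable.of_finite)]
  have e : ∀ x : Fin q → α, (Measure.pi fun _ : Fin q => unifFin α).real {x}
      = ((Fintype.card α : ℝ)⁻¹) ^ q := by
    intro x
    rw [measureReal_def, Measure.pi_singleton]
    simp [unifFin]
  simp only [e, smul_eq_mul, ← Finset.mul_sum, avg, Fintype.card_fun, Fintype.card_fin, inv_pow]
  push_cast
  ring

/-! The sampler. -/

variable {X : Type*} [Fintype X]

/-- The sum of the weights before `x`. -/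
def cumBefore (w : X → ℝ) (x : X) : ℝ :=
  ∑ y, if (Fintype.equivFin X y : ℕ) < Fintype.equivFin X x then w y else 0

/-- The point whose interval of cumulated weights contains `u`. -/
def samp [Inhabited X] (w : X → ℝ) (u : ℝ) : X := by
  classical
  exact if h : ∃ x, cumBefore w x ≤ u ∧ u < cumBefore w x + w x then h.choose else default

theorem cumBefore_nonneg {w : X → ℝ} (hw : ∀ y, 0 ≤ w y) (x : X) : 0 ≤ cumBefore w x :=
  Finset.sum_nonneg fun y _ => by split_ifs <;> simp [hw y]

theorem cumBefore_add {w : X → ℝ} (x : X) :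
    cumBefore w x + w x
      = ∑ y, if (Fintype.equivFin X y : ℕ) ≤ Fintype.equivFin X x then w y else 0 := by
  classical
  rw [cumBefore]
  have e : w x = ∑ y, if y = x then w y else 0 := by simp
  rw [e, ← Finset.sum_add_distrib]
  refine Finset.sum_congr rfl fun y _ => ?_
  by_cases h : y = x
  · simp [h]
  · have : (Fintype.equivFin X y : ℕ) ≠ Fintype.equivFin X x := fun hh =>
      h ((Fintype.equivFin X).injective (Fin.ext hh))
    simp only [h, if_false, add_zero]
    congr 1
    exact propext ⟨le_of_lt, fun hh => lt_of_le_of_ne hh this⟩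

theorem cumBefore_add_le_one {w : X → ℝ} (hw : ∀ y, 0 ≤ w y) (h1 : ∑ y, w y = 1) (x : X) :
    cumBefore w x + w x ≤ 1 := by
  rw [cumBefore_add, ← h1]
  exact Finset.sum_le_sum fun y _ => by split_ifs <;> simp [hw y]

theorem cumBefore_mono {w : X → ℝ} (hw : ∀ y, 0 ≤ w y) {x x' : X}
    (h : (Fintype.equivFin X x : ℕ) < Fintype.equivFin X x') :
    cumBefore w x + w x ≤ cumBefore w x' := by
  rw [cumBefore_add]
  refine Finset.sum_le_sum fun y _ => ?_
  by_cases h1 : (Fintype.equivFin X y : ℕ) ≤ Fintype.equivFin X x
  · rw [if_pos h1, if_pos (lt_of_le_of_lt h1 h)]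
  · rw [if_neg h1]
    split_ifs <;> simp [hw y]

theorem samp_eq_iff [Inhabited X] {w : X → ℝ} (hw : ∀ y, 0 ≤ w y) {x : X} {u : ℝ}
    (hx : x ≠ default) :
    samp w u = x ↔ cumBefore w x ≤ u ∧ u < cumBefore w x + w x := by
  classical
  unfold samp
  constructor
  · intro h
    split_ifs at h with hex
    · exact h ▸ hex.choose_spec
    · exact absurd h.symm hx
  · intro h
    have hex : ∃ x, cumBefore w x ≤ u ∧ u < cumBefore w x + w x := ⟨x, h⟩
    rw [dif_pos hex]
    have hc := hex.choose_spec
    by_contra hne
    rcases lt_trichotomy (Fintype.equivFin X hex.choose : ℕ) (Fintype.equivFin X x) with hl | he | hl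
    · have := cumBefore_mono hw hl
      linarith [h.1, hc.2]
    · exact hne ((Fintype.equivFin X).injective (Fin.ext he))
    · have := cumBefore_mono hw hl
      linarith [h.2, hc.1]

theorem measurable_samp [Inhabited X] [MeasurableSpace X] [MeasurableSingletonClass X]
    {Ω : Type*} [MeasurableSpace Ω] {w : Ω → X → ℝ} (hm : ∀ x, Measurable fun o => w o x)
    (hw : ∀ o x, 0 ≤ w o x) : Measurable fun q : Ω × ℝ => samp (w q.1) q.2 := by
  classical
  have hc : ∀ x, Measurable fun q : Ω × ℝ => cumBefore (w q.1) x := fun x => by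
    refine Finset.measurable_sum _ fun y _ => ?_
    split_ifs
    · exact (hm y).comp measurable_fst
    · exact measurable_const
  have hne : ∀ x : X, x ≠ default →
      MeasurableSet ((fun q : Ω × ℝ => samp (w q.1) q.2) ⁻¹' {x}) := fun x hx => by
    have e : (fun q : Ω × ℝ => samp (w q.1) q.2) ⁻¹' {x}
        = {q | cumBefore (w q.1) x ≤ q.2} ∩ {q | q.2 < cumBefore (w q.1) x + w q.1 x} := by
      ext q
      exact samp_eq_iff (hw q.1) hx
    rw [e]
    exact (measurableSet_le (hc x) measurable_snd).inter
      (measurableSet_lt measurable_snd ((hc x).add ((hm x).comp measurable_fst)))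
  refine measurable_to_countable' fun x => ?_
  by_cases hx : x = default
  · have e : (fun q : Ω × ℝ => samp (w q.1) q.2) ⁻¹' {x}
        = (⋃ y ∈ ({default}ᶜ : Set X), (fun q : Ω × ℝ => samp (w q.1) q.2) ⁻¹' {y})ᶜ := by
      ext q
      simp only [hx, Set.mem_preimage, Set.mem_singleton_iff, Set.mem_compl_iff, Set.mem_iUnion,
        exists_prop, not_exists, not_and]
      exact ⟨fun h i hi he => hi (he.symm.trans h), fun h => by_contra fun hne => h _ hne rfl⟩
    rw [e]
    exact (MeasurableSet.biUnion (Set.to_countable _) fun y hy => hne y hy).compl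
  · exact hne x hx

theorem unif_real_Ico {a b : ℝ} (ha : 0 ≤ a) (hab : a ≤ b) (hb : b ≤ 1) :
    unif.real (Set.Ico a b) = b - a := by
  have e : Set.Ico a b ∩ Set.Icc 0 1 = Set.Ico a b :=
    Set.inter_eq_left.2 fun u hu => ⟨ha.trans hu.1, hu.2.le.trans hb⟩
  rw [unif, measureReal_restrict_apply measurableSet_Ico, e, measureReal_def, Real.volume_Ico,
    ENNReal.toReal_ofReal (by linarith)]

/-- The sampler has law `w`. -/
theorem unif_map_samp [Inhabited X] [MeasurableSpace X] [MeasurableSingletonClass X] {w : X → ℝ}
    (hw : ∀ y, 0 ≤ w y) (h1 : ∑ y, w y = 1) (x : X) :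
    (unif.map (samp w)).real {x} = w x := by
  classical
  have hm : Measurable (samp w) :=
    (measurable_samp (Ω := Unit) (w := fun _ => w) (fun _ => measurable_const)
      fun _ => hw).comp ((measurable_const : Measurable fun _ : ℝ => ()).prodMk measurable_id)
  have : IsProbabilityMeasure (unif.map (samp w)) := Measure.isProbabilityMeasure_map hm.aemeasurable
  have hne : ∀ y, y ≠ default → (unif.map (samp w)).real {y} = w y := fun y hy => by
    rw [map_measureReal_apply hm (measurableSet_singleton y)]
    have e : samp w ⁻¹' {y} = Set.Ico (cumBefore w y) (cumBefore w y + w y) := by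
      ext u
      exact samp_eq_iff hw hy
    rw [e, unif_real_Ico (cumBefore_nonneg hw y) (by linarith [hw y])
      (cumBefore_add_le_one hw h1 y)]
    ring
  by_cases hx : x = default
  · subst hx
    have hs : ∑ y : X, (unif.map (samp w)).real {y} = 1 := by
      rw [sum_measureReal_singleton, Finset.coe_univ, probReal_univ]
    rw [← Finset.add_sum_erase _ _ (Finset.mem_univ (default : X))] at hs h1
    rw [Finset.sum_congr rfl fun y hy => hne y (Finset.ne_of_mem_erase hy)] at hs
    linarith
  · exact hne x hx

/-- Finitely many uniform variables fed to the sampler give independent replicas. -/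
theorem integral_samp [Inhabited X] (n : ℕ) (H : X → ℝ) (G : (ℕ → X) → ℝ)
    (hG : ∀ σ τ : ℕ → X, (∀ l < n, σ l = τ l) → G σ = G τ) :
    ∫ u : ℕ → ℝ, G (fun l => samp (gw H) (u l)) ∂Measure.infinitePi (fun _ => unif)
      = nav n H G := by
  have : Nonempty X := ⟨default⟩
  let _ : MeasurableSpace X := ⊤
  have : MeasurableSingletonClass X := ⟨fun _ => trivial⟩
  have hm : Measurable (samp (gw H)) :=
    (measurable_samp (Ω := Unit) (w := fun _ => gw H) (fun _ => measurable_const)
      fun _ => gw_nonneg H).comp ((measurable_const : Measurable fun _ : ℝ => ()).prodMk measurable_id)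
  set G' : (Fin n → X) → ℝ := fun σ => G fun l => if h : l < n then σ ⟨l, h⟩ else default
  have e : ∀ u : ℕ → ℝ,
      G (fun l => samp (gw H) (u l)) = G' fun i : Fin n => samp (gw H) (u i) := fun u =>
    hG _ _ fun l hl => by simp [hl]
  simp only [e]
  have hm1 : Measurable fun (u : ℕ → ℝ) (i : Fin n) => u i := by fun_prop
  have hm2 : Measurable fun (v : Fin n → ℝ) (i : Fin n) => samp (gw H) (v i) :=
    measurable_pi_lambda _ fun i => hm.comp (measurable_pi_apply i)
  have : IsProbabilityMeasure (unif.map (samp (gw H))) := Measure.isProbabilityMeasure_map hm.aemeasurable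
  have hmap : (Measure.pi fun _ : Fin n => unif).map (fun v i => samp (gw H) (v i))
      = Measure.pi fun _ : Fin n => unif.map (samp (gw H)) :=
    Measure.pi_map_pi (μ := fun _ : Fin n => unif) (f := fun _ => samp (gw H))
      fun _ => hm.aemeasurable
  have h1 := Measure.map_infinitePi_infinitePi_of_inj (P := fun _ : ℕ => unif)
    (f := fun i : Fin n => (i : ℕ)) Fin.val_injective
  rw [Measure.infinitePi_eq_pi (μ := fun _ : Fin n => unif)] at h1
  have e2 : ∫ u : ℕ → ℝ, G' (fun i : Fin n => samp (gw H) (u i)) ∂Measure.infinitePi (fun _ => unif)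
      = ∫ σ, G' σ ∂Measure.pi fun _ : Fin n => unif.map (samp (gw H)) := by
    rw [← hmap, integral_map hm2.aemeasurable (measurable_of_finite G').aestronglyMeasurable, ← h1,
      integral_map hm1.aemeasurable]
    exact ((measurable_of_finite G').comp hm2).aestronglyMeasurable
  rw [e2, integral_fintype Integrable.of_finite, nav, rav]
  refine Finset.sum_congr rfl fun σ _ => ?_
  rw [smul_eq_mul]
  congr 1
  rw [measureReal_def, Measure.pi_singleton, ENNReal.toReal_prod]
  exact Finset.prod_congr rfl fun i _ => unif_map_samp (gw_nonneg H) (sum_gw H) (σ i)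

end Vale.Agent.P168.Limit
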