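import Vale.Agent.P168.ArrayDefs

/-! Gibbs averages on finite configuration spaces. -/

open MeasureTheory ProbabilityTheory
open scoped BigOperators

noncomputable section

namespace Vale.Agent.P168.Limit

variable {X : Type*} [Fintype X]

/-- The Gibbs weight of a Hamiltonian `H`. -/
def gw (H : X → ℝ) (x : X) : ℝ := Real.exp (H x) / ∑ y, Real.exp (H y)

/-- The logarithm of the partition function. -/
def logZ (H : X → ℝ) : ℝ := Real.log (∑ y, Real.exp (H y))

/-- The Gibbs average. -/
def gav (H : X → ℝ) (f : X → ℝ) : ℝ := ∑ x, gw H x * f x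

/-- The average over `n` independent replicas. -/
def rav (n : ℕ) (H : X → ℝ) (F : (Fin n → X) → ℝ) : ℝ :=
  ∑ σ : Fin n → X, (∏ l, gw H (σ l)) * F σ

/-- The average of a function of replicas numbered by natural numbers, with `n` replicas present. -/
def nav (n : ℕ) (H : X → ℝ) (F : (ℕ → X) → ℝ) [Inhabited X] : ℝ :=
  rav n H fun σ => F fun l => if h : l < n then σ ⟨l, h⟩ else default

end Vale.Agent.P168.Limit
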