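import Vale.Agent.P168.Limit.Gibbs

/-! Elementary facts about Gibbs averages, replica derivatives and the Taylor formula. -/

open MeasureTheory ProbabilityTheory Filter
open scoped BigOperators Topology

noncomputable section

namespace Vale.Agent.P168.Limit

variable {X : Type*} [Fintype X] [Nonempty X]

set_option linter.unusedSectionVars false

theorem sum_exp_pos (H : X → ℝ) : 0 < ∑ y, Real.exp (H y) :=
  Finset.sum_pos (fun y _ => Real.exp_pos _) Finset.univ_nonempty

theorem gw_pos (H : X → ℝ) (x : X) : 0 < gw H x :=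
  div_pos (Real.exp_pos _) (sum_exp_pos H)

theorem gw_nonneg (H : X → ℝ) (x : X) : 0 ≤ gw H x := (gw_pos H x).le

theorem sum_gw (H : X → ℝ) : ∑ x, gw H x = 1 := by
  simp only [gw, ← Finset.sum_div]
  exact div_self (sum_exp_pos H).ne'

theorem gw_le_one (H : X → ℝ) (x : X) : gw H x ≤ 1 :=
  sum_gw H ▸ Finset.single_le_sum (fun y _ => gw_nonneg H y) (Finset.mem_univ x)

theorem gav_const (H : X → ℝ) (c : ℝ) : gav H (fun _ => c) = c := by
  simp [gav, ← Finset.sum_mul, sum_gw]

theorem gav_add (H f g : X → ℝ) : gav H (fun x => f x + g x) = gav H f + gav H g := by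
  simp [gav, mul_add, Finset.sum_add_distrib]

theorem gav_sub (H f g : X → ℝ) : gav H (fun x => f x - g x) = gav H f - gav H g := by
  simp [gav, mul_sub, Finset.sum_sub_distrib]

theorem gav_const_mul (H f : X → ℝ) (c : ℝ) : gav H (fun x => c * f x) = c * gav H f := by
  simp only [gav, Finset.mul_sum]
  exact Finset.sum_congr rfl fun x _ => by ring

theorem gav_sum {α : Type*} (s : Finset α) (H : X → ℝ) (f : α → X → ℝ) :
    gav H (fun x => ∑ i ∈ s, f i x) = ∑ i ∈ s, gav H (f i) := by
  simp only [gav, Finset.mul_sum]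
  exact Finset.sum_comm

theorem gav_mono (H : X → ℝ) {f g : X → ℝ} (h : ∀ x, f x ≤ g x) : gav H f ≤ gav H g :=
  Finset.sum_le_sum fun x _ => mul_le_mul_of_nonneg_left (h x) (gw_nonneg H x)

theorem abs_gav_le (H f : X → ℝ) : |gav H f| ≤ gav H (fun x => |f x|) := by
  refine (Finset.abs_sum_le_sum_abs _ _).trans (Finset.sum_le_sum fun x _ => ?_)
  rw [abs_mul, abs_of_nonneg (gw_nonneg H x)]

theorem abs_gav_le_of_le (H : X → ℝ) {f : X → ℝ} {B : ℝ} (h : ∀ x, |f x| ≤ B) : |gav H f| ≤ B :=
  (abs_gav_le H f).trans ((gav_mono H h).trans (gav_const H B).le)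

/-- Adding a constant to the Hamiltonian does nothing. -/
theorem gw_add_const (H : X → ℝ) (c : ℝ) : gw (fun x => H x + c) = gw H := by
  funext x
  simp only [gw, Real.exp_add, ← Finset.sum_mul]
  rw [mul_div_mul_right _ _ (Real.exp_pos c).ne']

theorem gw_tilt (H δ : X → ℝ) (x : X) :
    gw (fun y => H y + δ y) x = gw H x * Real.exp (δ x) / gav H (fun y => Real.exp (δ y)) := by
  have hZ := (sum_exp_pos H).ne'
  have hg : gav H (fun y => Real.exp (δ y))
      = (∑ y, Real.exp (H y + δ y)) / ∑ y, Real.exp (H y) := by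
    simp only [gav, gw, Real.exp_add, Finset.sum_div]
    exact Finset.sum_congr rfl fun y _ => by ring
  rw [hg]
  simp only [gw, Real.exp_add]
  field_simp

theorem gav_exp_pos (H δ : X → ℝ) : 0 < gav H (fun y => Real.exp (δ y)) :=
  Finset.sum_pos (fun x _ => mul_pos (gw_pos H x) (Real.exp_pos _)) Finset.univ_nonempty

/-- The variation distance of a tilted Gibbs measure. -/
theorem sum_abs_gw_tilt_le (H δ : X → ℝ) :
    ∑ x, |gw (fun y => H y + δ y) x - gw H x| ≤ 2 * gav H (fun x => |Real.exp (δ x) - 1|) := by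
  set q := gav H (fun y => Real.exp (δ y)) with hq
  have hqpos : 0 < q := gav_exp_pos H δ
  have h1 : ∀ x, |gw (fun y => H y + δ y) x - gw H x|
      ≤ gw H x * |Real.exp (δ x) - 1| + gw H x * Real.exp (δ x) * |1 - q| / q := by
    intro x
    rw [gw_tilt, ← hq]
    have e : gw H x * Real.exp (δ x) / q - gw H x
        = gw H x * (Real.exp (δ x) - 1) + gw H x * Real.exp (δ x) * (1 - q) / q := by
      field_simp
      ring
    rw [e]
    refine (abs_add_le _ _).trans (le_of_eq ?_)
    rw [abs_mul, abs_div, abs_mul, abs_mul, abs_of_nonneg (gw_nonneg H x),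
      abs_of_pos (Real.exp_pos _), abs_of_pos hqpos]
  refine (Finset.sum_le_sum fun x _ => h1 x).trans ?_
  rw [Finset.sum_add_distrib, ← Finset.sum_div, ← Finset.sum_mul]
  change gav H (fun x => |Real.exp (δ x) - 1|) + q * |1 - q| / q ≤ _
  rw [mul_div_cancel_left₀ _ hqpos.ne']
  have : |1 - q| ≤ gav H (fun x => |Real.exp (δ x) - 1|) := by
    have e : (1 : ℝ) - q = gav H (fun x => 1 - Real.exp (δ x)) := by rw [gav_sub, gav_const]
    rw [e]
    refine (abs_gav_le _ _).trans (le_of_eq ?_)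
    simp [abs_sub_comm]
  linarith

theorem rav_const (n : ℕ) (H : X → ℝ) (c : ℝ) : rav n H (fun _ => c) = c := by
  simp only [rav, ← Finset.sum_mul, ← Fintype.prod_sum, sum_gw, Finset.prod_const_one, one_mul]

theorem rav_add (n : ℕ) (H : X → ℝ) (F G : (Fin n → X) → ℝ) :
    rav n H (fun σ => F σ + G σ) = rav n H F + rav n H G := by
  simp [rav, mul_add, Finset.sum_add_distrib]

theorem rav_const_mul (n : ℕ) (H : X → ℝ) (c : ℝ) (F : (Fin n → X) → ℝ) :
    rav n H (fun σ => c * F σ) = c * rav n H F := by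
  simp only [rav, Finset.mul_sum]
  exact Finset.sum_congr rfl fun x _ => by ring

theorem rav_sum {α : Type*} (s : Finset α) (n : ℕ) (H : X → ℝ) (F : α → (Fin n → X) → ℝ) :
    rav n H (fun σ => ∑ i ∈ s, F i σ) = ∑ i ∈ s, rav n H (F i) := by
  simp only [rav, Finset.mul_sum]
  exact Finset.sum_comm

theorem abs_rav_le (n : ℕ) (H : X → ℝ) (F : (Fin n → X) → ℝ) {B : ℝ} (h : ∀ σ, |F σ| ≤ B) :
    |rav n H F| ≤ B := by
  calc |rav n H F| ≤ ∑ σ : Fin n → X, (∏ l, gw H (σ l)) * B := by
        refine (Finset.abs_sum_le_sum_abs _ _).trans (Finset.sum_le_sum fun σ _ => ?_)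
        rw [abs_mul, abs_of_nonneg (Finset.prod_nonneg fun l _ => gw_nonneg H _)]
        exact mul_le_mul_of_nonneg_left (h σ) (Finset.prod_nonneg fun l _ => gw_nonneg H _)
    _ = B := rav_const n H B

/-- One replica more does not matter for a function of the first `n`. -/
theorem rav_succ (n : ℕ) (H : X → ℝ) (F : (Fin n → X) → ℝ) :
    rav (n + 1) H (fun σ => F (fun l => σ l.castSucc)) = rav n H F := by
  simp only [rav]
  rw [← (Fin.snocEquiv fun _ => X).sum_comp, Fintype.sum_prod_type, Finset.sum_comm]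
  refine Finset.sum_congr rfl fun σ _ => ?_
  simp only [Fin.snocEquiv_apply, Fin.prod_univ_castSucc, Fin.snoc_castSucc, Fin.snoc_last]
  rw [← Finset.sum_mul, ← Finset.mul_sum, sum_gw, mul_one]

variable [Inhabited X]

theorem nav_congr {n : ℕ} (H : X → ℝ) {F G : (ℕ → X) → ℝ} (h : ∀ σ, F σ = G σ) :
    nav n H F = nav n H G := by
  rw [funext h]

/-- A function of the first `n` replicas has the same average with more replicas. -/
theorem nav_eq_of_le {n m : ℕ} (hnm : n ≤ m) (H : X → ℝ) {F : (ℕ → X) → ℝ}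
    (hF : ∀ σ τ : ℕ → X, (∀ l < n, σ l = τ l) → F σ = F τ) : nav m H F = nav n H F := by
  induction m, hnm using Nat.le_induction with
  | base => rfl
  | succ m hnm ih =>
    rw [← ih]
    rw [nav, nav, ← rav_succ m H]
    refine congrArg _ (funext fun σ => hF _ _ fun l hl => ?_)
    simp [show l < m + 1 by omega, show l < m by omega]

theorem nav_add (n : ℕ) (H : X → ℝ) (F G : (ℕ → X) → ℝ) :
    nav n H (fun σ => F σ + G σ) = nav n H F + nav n H G := by
  rw [nav, nav, nav, ← rav_add]

theorem nav_const_mul (n : ℕ) (H : X → ℝ) (c : ℝ) (F : (ℕ → X) → ℝ) :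
    nav n H (fun σ => c * F σ) = c * nav n H F := by
  rw [nav, nav, ← rav_const_mul]

theorem nav_sum {α : Type*} (s : Finset α) (n : ℕ) (H : X → ℝ) (F : α → (ℕ → X) → ℝ) :
    nav n H (fun σ => ∑ i ∈ s, F i σ) = ∑ i ∈ s, nav n H (F i) :=
  rav_sum s n H fun i σ => F i _

theorem abs_nav_le (n : ℕ) (H : X → ℝ) {F : (ℕ → X) → ℝ} {B : ℝ} (h : ∀ σ, |F σ| ≤ B) :
    |nav n H F| ≤ B := abs_rav_le n H _ fun _ => h _

theorem hasDerivAt_gw (H v : X → ℝ) (x : X) (t : ℝ) :
    HasDerivAt (fun u => gw (fun y => H y + u * v y) x)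
      (gw (fun y => H y + t * v y) x * (v x - gav (fun y => H y + t * v y) v)) t := by
  have hd : ∀ y, HasDerivAt (fun u => Real.exp (H y + u * v y))
      (Real.exp (H y + t * v y) * v y) t := fun y => by
    simpa using (((hasDerivAt_id t).mul_const (v y)).const_add (H y)).exp
  have hs := HasDerivAt.fun_sum (u := Finset.univ) fun y _ => hd y
  have hZ := (sum_exp_pos fun y => H y + t * v y).ne'
  refine ((hd x).div hs hZ).congr_deriv ?_
  have hg : gav (fun y => H y + t * v y) v
      = (∑ y, Real.exp (H y + t * v y) * v y) / ∑ y, Real.exp (H y + t * v y) := by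
    simp only [gav, gw, Finset.sum_div]
    exact Finset.sum_congr rfl fun y _ => by ring
  rw [hg, gw]
  field_simp

theorem rav_succ_last (n : ℕ) (H : X → ℝ) (F : (Fin n → X) → ℝ) (v : X → ℝ) :
    rav (n + 1) H (fun σ => F (fun l => σ l.castSucc) * v (σ (Fin.last n)))
      = rav n H F * gav H v := by
  simp only [rav, gav]
  rw [← (Fin.snocEquiv fun _ => X).sum_comp, Fintype.sum_prod_type, Finset.sum_comm,
    Finset.sum_mul]
  refine Finset.sum_congr rfl fun σ _ => ?_
  simp only [Fin.snocEquiv_apply, Fin.prod_univ_castSucc, Fin.snoc_castSucc, Fin.snoc_last,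
    Finset.mul_sum]
  exact Finset.sum_congr rfl fun y _ => by ring

/-- The derivative of a replica average along a direction. -/
theorem hasDerivAt_nav (n : ℕ) (H v : X → ℝ) (F : (ℕ → X) → ℝ)
    (hF : ∀ σ τ : ℕ → X, (∀ l < n, σ l = τ l) → F σ = F τ) (t : ℝ) :
    HasDerivAt (fun u => nav n (fun y => H y + u * v y) F)
      ((∑ q ∈ Finset.range n, nav n (fun y => H y + t * v y) (fun σ => F σ * v (σ q))) -
        (n : ℝ) * nav (n + 1) (fun y => H y + t * v y) (fun σ => F σ * v (σ n))) t := by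
  classical
  set Ht := fun y => H y + t * v y with hHt
  set G : (Fin n → X) → ℝ := fun σ => F fun l => if h : l < n then σ ⟨l, h⟩ else default with hG
  have h1 : HasDerivAt (fun u => rav n (fun y => H y + u * v y) G)
      (∑ σ : Fin n → X,
        (∑ i, (∏ j ∈ Finset.univ.erase i, gw Ht (σ j)) * (gw Ht (σ i) * (v (σ i) - gav Ht v)))
          * G σ) t := by
    refine HasDerivAt.fun_sum fun σ _ => ?_
    refine HasDerivAt.mul_const ?_ (G σ)
    have := HasDerivAt.fun_finset_prod (u := Finset.univ) fun i _ => hasDerivAt_gw H v (σ i) t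
    simpa only [smul_eq_mul] using this
  refine h1.congr_deriv ?_
  have e2 : ∀ σ : Fin n → X,
      (∑ i, (∏ j ∈ Finset.univ.erase i, gw Ht (σ j)) * (gw Ht (σ i) * (v (σ i) - gav Ht v))) * G σ
      = (∑ i, (∏ l, gw Ht (σ l)) * (G σ * v (σ i)))
        - (n : ℝ) * gav Ht v * ((∏ l, gw Ht (σ l)) * G σ) := by
    intro σ
    rw [Finset.sum_mul]
    calc ∑ i, (∏ j ∈ Finset.univ.erase i, gw Ht (σ j)) * (gw Ht (σ i) * (v (σ i) - gav Ht v)) * G σ
        = ∑ i : Fin n, ((∏ l, gw Ht (σ l)) * (G σ * v (σ i))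
            - gav Ht v * ((∏ l, gw Ht (σ l)) * G σ)) := by
          refine Finset.sum_congr rfl fun i _ => ?_
          rw [← Finset.mul_prod_erase Finset.univ (fun l => gw Ht (σ l)) (Finset.mem_univ i)]
          ring
      _ = _ := by
          rw [Finset.sum_sub_distrib, Finset.sum_const, Finset.card_univ, Fintype.card_fin,
            nsmul_eq_mul]
          ring
  rw [Finset.sum_congr rfl fun σ _ => e2 σ, Finset.sum_sub_distrib, ← Finset.mul_sum,
    Finset.sum_comm]
  congr 1
  · rw [Finset.sum_range fun q => nav n Ht fun σ => F σ * v (σ q)]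
    refine Finset.sum_congr rfl fun i _ => Finset.sum_congr rfl fun σ _ => ?_
    simp [hG, i.isLt]
  · have e3 : nav (n + 1) Ht (fun σ => F σ * v (σ n))
        = rav (n + 1) Ht (fun σ => G (fun l => σ l.castSucc) * v (σ (Fin.last n))) := by
      refine congrArg _ (funext fun σ => ?_)
      simp only [hG]
      refine congrArg₂ (· * ·) (hF _ _ fun l hl => ?_) (by simp [Fin.last])
      simp [hl, Nat.lt_succ_of_lt hl, Fin.castSucc, Fin.castAdd, Fin.castLE]
    rw [e3, rav_succ_last]
    simp only [rav]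
    ring

/-! The insertion operator. -/

theorem ins_congr : ∀ (J n : ℕ) {G G' : (Fin J → ℕ) → ℝ},
    (∀ g, (∀ i, g i < n + J) → G g = G' g) → ins J n G = ins J n G'
  | 0, _, _, _, h => h _ fun i => i.elim0
  | J + 1, n, G, G', h => by
    simp only [ins]
    congr 1
    · refine Finset.sum_congr rfl fun q hq => ins_congr J n fun g hg => h _ fun i => ?_
      have := Finset.mem_range.1 hq
      refine Fin.cases ?_ (fun i => ?_) i <;> simp only [Fin.cons_zero, Fin.cons_succ]
      · omega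
      · have := hg i; omega
    · congr 1
      refine ins_congr J (n + 1) fun g hg => h _ fun i => ?_
      refine Fin.cases ?_ (fun i => ?_) i <;> simp only [Fin.cons_zero, Fin.cons_succ]
      · omega
      · have := hg i; omega

theorem ins_const_mul : ∀ (J n : ℕ) (c : ℝ) (G : (Fin J → ℕ) → ℝ),
    ins J n (fun g => c * G g) = c * ins J n G
  | 0, _, _, _ => rfl
  | J + 1, n, c, G => by
    simp only [ins, ins_const_mul J, ← Finset.mul_sum]
    ring

theorem ins_sum {α : Type*} (s : Finset α) : ∀ (J n : ℕ) (G : α → (Fin J → ℕ) → ℝ),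
    ins J n (fun g => ∑ i ∈ s, G i g) = ∑ i ∈ s, ins J n (G i)
  | 0, _, _ => rfl
  | J + 1, n, G => by
    simp only [ins]
    rw [ins_sum s J (n + 1), Finset.sum_sub_distrib, ← Finset.mul_sum,
      Finset.sum_congr rfl fun q _ => ins_sum s J n fun i g => G i (Fin.cons q g),
      Finset.sum_comm]

theorem abs_ins_le : ∀ (J n : ℕ) (G : (Fin J → ℕ) → ℝ) (B : ℝ), (∀ g, |G g| ≤ B) →
    |ins J n G| ≤ (2 : ℝ) ^ J * (n.ascFactorial J : ℝ) * B
  | 0, _, _, _, h => by simpa [ins] using h _
  | J + 1, n, G, B, h => by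
    have hB : 0 ≤ B := (abs_nonneg _).trans (h fun _ => 0)
    have h1 := abs_ins_le J (n + 1) (fun g => G (Fin.cons n g)) B fun g => h _
    have h2 : ∀ q ∈ Finset.range n, |ins J n fun g => G (Fin.cons q g)|
        ≤ (2 : ℝ) ^ J * ((n + 1).ascFactorial J : ℝ) * B := by
      intro q _
      refine (abs_ins_le J n _ B fun g => h _).trans ?_
      gcongr
      omega
    simp only [ins]
    refine (abs_sub _ _).trans ?_
    calc |∑ q ∈ Finset.range n, ins J n fun g => G (Fin.cons q g)|
          + |(n : ℝ) * ins J (n + 1) fun g => G (Fin.cons n g)|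
        ≤ ∑ _q ∈ Finset.range n, (2 : ℝ) ^ J * ((n + 1).ascFactorial J : ℝ) * B
          + (n : ℝ) * ((2 : ℝ) ^ J * ((n + 1).ascFactorial J : ℝ) * B) := by
          rw [abs_mul, Nat.abs_cast]
          exact add_le_add ((Finset.abs_sum_le_sum_abs _ _).trans (Finset.sum_le_sum h2))
            (mul_le_mul_of_nonneg_left h1 (Nat.cast_nonneg _))
      _ = _ := by
          rw [Finset.sum_const, Finset.card_range, nsmul_eq_mul,
            show n.ascFactorial (J + 1) = n * (n + 1).ascFactorial J by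
              rw [Nat.ascFactorial_succ, ← Nat.succ_ascFactorial n J]]
          push_cast
          ring

/-- The `J`th derivative of a replica average, as a replica average. -/
def dterm (J n : ℕ) (H v : X → ℝ) (F : (ℕ → X) → ℝ) : ℝ :=
  nav (n + J) H fun σ => F σ * ins J n fun g => ∏ i, v (σ (g i))

theorem dterm_zero (n : ℕ) (H v : X → ℝ) (F : (ℕ → X) → ℝ) : dterm 0 n H v F = nav n H F := by
  simp [dterm, ins]

theorem dterm_succ (J n : ℕ) (H v : X → ℝ) (F : (ℕ → X) → ℝ)
    (hF : ∀ σ τ : ℕ → X, (∀ l < n, σ l = τ l) → F σ = F τ) :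
    dterm (J + 1) n H v F = (∑ q ∈ Finset.range n, dterm J n H v (fun σ => F σ * v (σ q))) -
      (n : ℝ) * dterm J (n + 1) H v (fun σ => F σ * v (σ n)) := by
  have hins : ∀ (σ : ℕ → X) (m q : ℕ),
      (ins J m fun g => ∏ i, v (σ ((Fin.cons q g : Fin (J + 1) → ℕ) i)))
        = v (σ q) * ins J m fun g => ∏ i, v (σ (g i)) := by
    intro σ m q
    rw [← ins_const_mul]
    exact congrArg _ (funext fun g => by simp [Fin.prod_univ_succ])
  have e0 : ∀ σ : ℕ → X, (F σ * ins (J + 1) n fun g => ∏ i, v (σ (g i)))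
      = (∑ q ∈ Finset.range n, (F σ * v (σ q) * ins J n fun g => ∏ i, v (σ (g i))))
        + -(n : ℝ) * (F σ * v (σ n) * ins J (n + 1) fun g => ∏ i, v (σ (g i))) := by
    intro σ
    simp only [ins, hins, mul_sub, Finset.mul_sum, mul_assoc]
    ring
  rw [dterm, nav_congr _ e0, nav_add, nav_sum, nav_const_mul, sub_eq_add_neg, neg_mul]
  congr 1
  · refine Finset.sum_congr rfl fun q hq => nav_eq_of_le (by omega) H fun σ τ h => ?_
    rw [hF σ τ fun l hl => h l (by omega), h q (by have := Finset.mem_range.1 hq; omega)]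
    congr 1
    exact ins_congr J n fun g hg => Finset.prod_congr rfl fun i _ => by rw [h _ (hg i)]
  · rw [dterm, show n + 1 + J = n + (J + 1) by omega]

/-- The derivative of the `J`th derivative is the next one. -/
theorem hasDerivAt_dterm (H v : X → ℝ) : ∀ (J n : ℕ) (F : (ℕ → X) → ℝ),
    (∀ σ τ : ℕ → X, (∀ l < n, σ l = τ l) → F σ = F τ) → ∀ t : ℝ,
    HasDerivAt (fun u => dterm J n (fun y => H y + u * v y) v F)
      (dterm (J + 1) n (fun y => H y + t * v y) v F) t := by
  intro J
  induction J with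
  | zero =>
    intro n F hF t
    rw [dterm_succ 0 n _ v F hF]
    simp only [dterm_zero]
    exact hasDerivAt_nav n H v F hF t
  | succ J ih =>
    intro n F hF t
    have h1 : ∀ q ∈ Finset.range n,
        ∀ σ τ : ℕ → X, (∀ l < n, σ l = τ l) → F σ * v (σ q) = F τ * v (τ q) := by
      intro q hq σ τ h
      rw [hF σ τ h, h q (Finset.mem_range.1 hq)]
    have h2 : ∀ σ τ : ℕ → X, (∀ l < n + 1, σ l = τ l) → F σ * v (σ n) = F τ * v (τ n) := by
      intro σ τ h
      rw [hF σ τ fun l hl => h l (by omega), h n (by omega)]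
    rw [dterm_succ (J + 1) n _ v F hF, funext fun u => dterm_succ J n (fun y => H y + u * v y) v F hF]
    exact (HasDerivAt.fun_sum fun q hq => ih n _ (h1 q hq) t).sub
      ((ih (n + 1) _ h2 t).const_mul _)

theorem abs_dterm_le (J n : ℕ) (H v : X → ℝ) (F : (ℕ → X) → ℝ) {V B : ℝ} (hv : ∀ x, |v x| ≤ V)
    (hF : ∀ σ, |F σ| ≤ B) :
    |dterm J n H v F| ≤ B * ((2 : ℝ) ^ J * (n.ascFactorial J : ℝ) * V ^ J) := by
  refine abs_nav_le _ _ fun σ => ?_
  rw [abs_mul]
  refine mul_le_mul (hF σ) (abs_ins_le J n _ (V ^ J) fun g => ?_) (abs_nonneg _)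
    ((abs_nonneg _).trans (hF σ))
  rw [Finset.abs_prod]
  calc ∏ i, |v (σ (g i))| ≤ ∏ _i : Fin J, V :=
        Finset.prod_le_prod (fun i _ => abs_nonneg _) fun i _ => hv _
    _ = V ^ J := by simp

theorem summable_dbound (n : ℕ) :
    Summable fun J : ℕ => (2 : ℝ) ^ J * (n.ascFactorial J : ℝ) * (1 / 8) ^ J / (J.factorial : ℝ) := by
  refine Summable.of_nonneg_of_le (fun J => by positivity) (fun J => ?_)
    ((summable_geometric_of_lt_one (r := (1 / 2 : ℝ)) (by norm_num) (by norm_num)).mul_left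
      ((2 : ℝ) ^ n))
  have h1 : (n.ascFactorial J : ℝ) ≤ (2 : ℝ) ^ (n + J) * (J.factorial : ℝ) := by
    have e : n.ascFactorial J = J.factorial * (n + J - 1).choose J :=
      Nat.ascFactorial_eq_factorial_mul_choose' n J
    rw [e]
    push_cast
    rw [mul_comm]
    gcongr
    calc ((n + J - 1).choose J : ℝ) ≤ (2 : ℝ) ^ (n + J - 1) := by
          exact_mod_cast Nat.choose_le_two_pow _ _
      _ ≤ 2 ^ (n + J) := pow_le_pow_right₀ one_le_two (Nat.sub_le _ _)
  rw [div_le_iff₀ (by positivity)]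
  calc (2 : ℝ) ^ J * (n.ascFactorial J : ℝ) * (1 / 8) ^ J
      ≤ 2 ^ J * ((2 : ℝ) ^ (n + J) * (J.factorial : ℝ)) * (1 / 8) ^ J := by gcongr
    _ = _ := by
        rw [pow_add]
        have : (2 : ℝ) ^ J * 2 ^ J * (1 / 8) ^ J = (1 / 2) ^ J := by
          rw [← mul_pow, ← mul_pow]
          norm_num
        linear_combination ((2 : ℝ) ^ n * (J.factorial : ℝ)) * this

/-- The tilted replica average as a series of insertions. -/
theorem hasSum_dterm (n : ℕ) (H v : X → ℝ) (F : (ℕ → X) → ℝ)
    (hF : ∀ σ τ : ℕ → X, (∀ l < n, σ l = τ l) → F σ = F τ) {B : ℝ} (hB : ∀ σ, |F σ| ≤ B)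
    (hv : ∀ x, |v x| ≤ 1 / 8) :
    HasSum (fun J : ℕ => ((J.factorial : ℝ))⁻¹ * dterm J n H v F)
      (nav n (fun y => H y + v y) F) := by
  have hB0 : 0 ≤ B := (abs_nonneg _).trans (hB fun _ => default)
  set c : ℕ → ℝ := fun J =>
    B * ((2 : ℝ) ^ J * (n.ascFactorial J : ℝ) * (1 / 8) ^ J) with hc
  set g : ℕ → ℝ → ℝ := fun J u => dterm J n (fun y => H y + u * v y) v F with hg
  have hgb : ∀ J u, |g J u| ≤ c J := fun J u => abs_dterm_le J n _ v F hv hB
  have hsum : Summable fun J : ℕ => ((J.factorial : ℝ))⁻¹ * g J 0 := by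
    refine Summable.of_norm_bounded ((summable_dbound n).mul_left B) fun J => ?_
    rw [Real.norm_eq_abs, abs_mul, abs_inv, Nat.abs_cast]
    calc ((J.factorial : ℝ))⁻¹ * |g J 0| ≤ ((J.factorial : ℝ))⁻¹ * c J := by
          gcongr
          exact hgb J 0
      _ = _ := by simp only [hc]; ring
  set T : ℕ → ℝ → ℝ := fun k u =>
    ∑ J ∈ Finset.range k, (1 - u) ^ J / (J.factorial : ℝ) * g J u with hT
  have hTd : ∀ k u, HasDerivAt (T (k + 1)) ((1 - u) ^ k / (k.factorial : ℝ) * g (k + 1) u) u := by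
    intro k
    induction k with
    | zero =>
      intro u
      simpa [hT] using hasDerivAt_dterm H v 0 n F hF u
    | succ k ih =>
      intro u
      have e : T (k + 1 + 1) = fun w =>
          T (k + 1) w + (1 - w) ^ (k + 1) / ((k + 1).factorial : ℝ) * g (k + 1) w := by
        funext w
        simp only [hT]
        rw [Finset.sum_range_succ]
      rw [e]
      have h2 : HasDerivAt (fun w : ℝ => (1 - w) ^ (k + 1) / ((k + 1).factorial : ℝ))
          (-((1 - u) ^ k / (k.factorial : ℝ))) u := by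
        refine ((((hasDerivAt_id u).const_sub 1).pow (k + 1)).div_const _).congr_deriv ?_
        rw [Nat.factorial_succ]
        simp only [id, Nat.add_sub_cancel]
        push_cast
        field_simp
      exact ((ih u).add (h2.mul (hasDerivAt_dterm H v (k + 1) n F hF u))).congr_deriv (by ring)
  have hgoal : nav n (fun y => H y + v y) F = g 0 1 := by simp [hg, dterm_zero]
  have e0 : ∀ J : ℕ, ((J.factorial : ℝ))⁻¹ * dterm J n H v F = ((J.factorial : ℝ))⁻¹ * g J 0 := by
    intro J
    simp [hg]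
  rw [funext e0, hgoal]
  rw [hsum.hasSum_iff_tendsto_nat]
  have hrem : ∀ k : ℕ, |g 0 1 - ∑ J ∈ Finset.range (k + 1), ((J.factorial : ℝ))⁻¹ * g J 0|
      ≤ c (k + 1) / (k.factorial : ℝ) := by
    intro k
    have h1 : T (k + 1) 1 = g 0 1 := by
      simp [hT, Finset.sum_range_succ']
    have h0 : T (k + 1) 0 = ∑ J ∈ Finset.range (k + 1), ((J.factorial : ℝ))⁻¹ * g J 0 := by
      simp [hT]
    rw [← h1, ← h0, ← Real.norm_eq_abs]
    refine le_trans (norm_image_sub_le_of_norm_deriv_le_segment_01'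
      (f' := fun u => (1 - u) ^ k / (k.factorial : ℝ) * g (k + 1) u)
      (fun u _ => (hTd k u).hasDerivWithinAt) fun u hu => ?_) le_rfl
    obtain ⟨hu0, hu1⟩ := Set.mem_Ico.1 hu
    rw [Real.norm_eq_abs, abs_mul, abs_of_nonneg (div_nonneg (pow_nonneg (by linarith) _)
      (Nat.cast_nonneg _)), div_mul_eq_mul_div]
    gcongr
    calc (1 - u) ^ k * |g (k + 1) u| ≤ 1 * c (k + 1) :=
          mul_le_mul (pow_le_one₀ (by linarith) (by linarith)) (hgb _ _) (abs_nonneg _) zero_le_one
      _ = _ := one_mul _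
  have hc0 : Tendsto (fun k : ℕ => c (k + 1) / (k.factorial : ℝ)) atTop (𝓝 0) := by
    have hs : Summable fun J : ℕ => (J : ℝ) * ((2 : ℝ) ^ n * (1 / 2) ^ J) := by
      have := (hasSum_coe_mul_geometric_of_norm_lt_one (r := (1 / 2 : ℝ)) (by norm_num)).summable
      exact (this.mul_left ((2 : ℝ) ^ n)).congr fun J => by ring
    refine squeeze_zero (fun k => div_nonneg
      (by simp only [hc]; positivity) (Nat.cast_nonneg _)) (fun k => ?_)
      (by simpa using ((hs.tendsto_atTop_zero.comp (tendsto_add_atTop_nat 1)).const_mul B))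
    simp only [Function.comp_apply, hc]
    rw [div_le_iff₀ (by positivity)]
    have h1 : (n.ascFactorial (k + 1) : ℝ) ≤ (2 : ℝ) ^ (n + (k + 1)) * ((k + 1).factorial : ℝ) := by
      rw [Nat.ascFactorial_eq_factorial_mul_choose']
      push_cast
      rw [mul_comm]
      gcongr
      calc ((n + (k + 1) - 1).choose (k + 1) : ℝ) ≤ (2 : ℝ) ^ (n + (k + 1) - 1) := by
            exact_mod_cast Nat.choose_le_two_pow _ _
        _ ≤ 2 ^ (n + (k + 1)) := pow_le_pow_right₀ one_le_two (Nat.sub_le _ _)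
    calc B * ((2 : ℝ) ^ (k + 1) * (n.ascFactorial (k + 1) : ℝ) * (1 / 8) ^ (k + 1))
        ≤ B * ((2 : ℝ) ^ (k + 1) * ((2 : ℝ) ^ (n + (k + 1)) * ((k + 1).factorial : ℝ))
            * (1 / 8) ^ (k + 1)) := by gcongr
      _ = B * (2 : ℝ) ^ n * ((k + 1).factorial : ℝ)
            * ((2 : ℝ) ^ (k + 1) * 2 ^ (k + 1) * (1 / 8) ^ (k + 1)) := by
          rw [pow_add 2 n]; ring
      _ = B * (2 : ℝ) ^ n * ((k + 1).factorial : ℝ) * (1 / 2 : ℝ) ^ (k + 1) := by
          rw [← mul_pow, ← mul_pow]
          norm_num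
      _ = _ := by
          rw [Nat.factorial_succ]
          push_cast
          simp only [one_div, inv_pow]
          ring
  rw [← tendsto_add_atTop_iff_nat 1]
  refine tendsto_iff_norm_sub_tendsto_zero.2 (squeeze_zero (fun k => norm_nonneg _) (fun k => ?_) hc0)
  rw [Real.norm_eq_abs, abs_sub_comm]
  exact hrem k

theorem logZ_tilt (H δ : X → ℝ) :
    logZ (fun x => H x + δ x) - logZ H = Real.log (gav H fun x => Real.exp (δ x)) := by
  rw [logZ, logZ, ← Real.log_div (sum_exp_pos _).ne' (sum_exp_pos _).ne']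
  congr 1
  simp only [gav, gw, Real.exp_add, Finset.sum_div]
  exact Finset.sum_congr rfl fun y _ => by ring

/-- Jensen's inequality: adding `δ` raises `logZ` by at least `⟨δ⟩`. -/
theorem gav_le_logZ_sub (H δ : X → ℝ) : gav H δ ≤ logZ (fun x => H x + δ x) - logZ H := by
  rw [logZ_tilt, Real.le_log_iff_exp_le (gav_exp_pos H δ)]
  set m := gav H δ
  calc Real.exp m = gav H (fun x => Real.exp m * (1 + (δ x - m))) := by
        rw [gav_const_mul, gav_add, gav_const, gav_sub, gav_const]
        simp [m]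
    _ ≤ gav H (fun x => Real.exp (δ x)) := by
        refine gav_mono H fun x => ?_
        have h := mul_le_mul_of_nonneg_left (Real.add_one_le_exp (δ x - m)) (Real.exp_pos m).le
        rw [← Real.exp_add, add_sub_cancel] at h
        linarith

theorem abs_logZ_sub_le (H δ : X → ℝ) {c : ℝ} (h : ∀ x, |δ x| ≤ c) :
    |logZ (fun x => H x + δ x) - logZ H| ≤ c := by
  rw [logZ_tilt, abs_le, Real.le_log_iff_exp_le (gav_exp_pos H δ),
    Real.log_le_iff_le_exp (gav_exp_pos H δ)]
  constructor
  · refine le_trans (gav_const H _).ge (gav_mono H fun x => Real.exp_le_exp.2 ?_)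
    linarith [(abs_le.1 (h x)).1]
  · exact (gav_mono H fun x => Real.exp_le_exp.2 ((abs_le.1 (h x)).2)).trans (gav_const H _).le

theorem hasDerivAt_logZ (H v : X → ℝ) (t : ℝ) :
    HasDerivAt (fun u => logZ fun x => H x + u * v x) (gav (fun x => H x + t * v x) v) t := by
  have hd : ∀ y, HasDerivAt (fun u => Real.exp (H y + u * v y))
      (Real.exp (H y + t * v y) * v y) t := fun y => by
    simpa using (((hasDerivAt_id t).mul_const (v y)).const_add (H y)).exp
  refine ((HasDerivAt.fun_sum (u := Finset.univ) fun y _ => hd y).log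
    (sum_exp_pos _).ne').congr_deriv ?_
  simp only [gav, gw, Finset.sum_div]
  exact Finset.sum_congr rfl fun y _ => by ring

/-- The derivative of a Gibbs average is a covariance. -/
theorem hasDerivAt_gav (H v f : X → ℝ) (t : ℝ) :
    HasDerivAt (fun u => gav (fun x => H x + u * v x) f)
      (gav (fun x => H x + t * v x) (fun x => f x * v x) -
        gav (fun x => H x + t * v x) f * gav (fun x => H x + t * v x) v) t := by
  refine (HasDerivAt.fun_sum (u := Finset.univ) fun y _ =>
    (hasDerivAt_gw H v y t).mul_const (f y)).congr_deriv ?_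
  set g := gav (fun x => H x + t * v x) v
  simp only [gav, Finset.sum_mul, ← Finset.sum_sub_distrib]
  exact Finset.sum_congr rfl fun y _ => by ring

theorem rav_eq_prod (n : ℕ) (H : X → ℝ) (f : Fin n → X → ℝ) :
    rav n H (fun σ => ∏ l, f l (σ l)) = ∏ l, gav H (f l) := by
  simp only [rav, gav, Fintype.prod_sum, Finset.prod_mul_distrib]

/-- The effect on a replica average of changing the weights. -/
theorem abs_rav_tilt_le (n : ℕ) (H δ : X → ℝ) (F : (Fin n → X) → ℝ) (hF : ∀ σ, |F σ| ≤ 1) :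
    |rav n (fun y => H y + δ y) F - rav n H F|
      ≤ 2 * (n : ℝ) * gav H (fun x => |Real.exp (δ x) - 1|) := by
  set p := gw (fun y => H y + δ y)
  set q := gw H
  have hpq : ∀ k : ℕ, ∑ σ : Fin k → X, |(∏ l, p (σ l)) - ∏ l, q (σ l)|
      ≤ (k : ℝ) * ∑ x, |p x - q x| := by
    intro k
    induction k with
    | zero => simp
    | succ k ih =>
      rw [← (Fin.snocEquiv fun _ => X).sum_comp, Fintype.sum_prod_type, Finset.sum_comm]
      simp only [Fin.snocEquiv_apply, Fin.prod_univ_castSucc, Fin.snoc_castSucc, Fin.snoc_last]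
      have hstep : ∀ (σ : Fin k → X) (y : X), |(∏ l, p (σ l)) * p y - (∏ l, q (σ l)) * q y|
          ≤ |(∏ l, p (σ l)) - ∏ l, q (σ l)| * p y + (∏ l, q (σ l)) * |p y - q y| := by
        intro σ y
        have e : (∏ l, p (σ l)) * p y - (∏ l, q (σ l)) * q y
            = ((∏ l, p (σ l)) - ∏ l, q (σ l)) * p y + (∏ l, q (σ l)) * (p y - q y) := by ring
        rw [e]
        refine (abs_add_le _ _).trans (le_of_eq ?_)
        rw [abs_mul, abs_mul, abs_of_nonneg (gw_nonneg _ y),
          abs_of_nonneg (Finset.prod_nonneg fun l _ => gw_nonneg _ _)]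
      refine (Finset.sum_le_sum fun σ _ => Finset.sum_le_sum fun y _ => hstep σ y).trans ?_
      simp only [Finset.sum_add_distrib, ← Finset.mul_sum, ← Finset.sum_mul]
      rw [show ∑ y, p y = 1 from sum_gw _, ← Fintype.prod_sum, show ∑ y, q y = 1 from sum_gw _,
        Finset.prod_const_one]
      push_cast
      linarith
  have h2 := mul_le_mul_of_nonneg_left (sum_abs_gw_tilt_le H δ) (Nat.cast_nonneg (α := ℝ) n)
  refine le_trans ?_ ((hpq n).trans (h2.trans_eq (by ring)))
  simp only [rav, ← Finset.sum_sub_distrib, ← sub_mul]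
  refine (Finset.abs_sum_le_sum_abs _ _).trans (Finset.sum_le_sum fun σ _ => ?_)
  rw [abs_mul]
  exact mul_le_of_le_one_right (abs_nonneg _) (hF σ)

end Vale.Agent.P168.Limit
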