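import Mathlib

/-! Toolkit for module 5 of P168: total variance and the Efron–Stein inequality on finite products. -/

open MeasureTheory ProbabilityTheory
open scoped BigOperators NNReal ENNReal

noncomputable section

namespace Vale.Agent.P168.Toolkit

variable {α β : Type*} [MeasurableSpace α] [MeasurableSpace β]

/-- A square integrable function has square integrable sections and section means. -/
lemma memLp_sections {μ : Measure α} {ν : Measure β} [IsProbabilityMeasure μ]
    [IsProbabilityMeasure ν] {f : α × β → ℝ} (hf : MemLp f 2 (μ.prod ν)) :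
    (∀ᵐ x ∂μ, MemLp (fun y => f (x, y)) 2 ν) ∧ MemLp (fun x => ∫ y, f (x, y) ∂ν) 2 μ := by
  have h1 : Integrable f (μ.prod ν) := hf.integrable one_le_two
  have h2 : Integrable (fun p => f p ^ 2) (μ.prod ν) := hf.integrable_sq
  have hs : ∀ᵐ x ∂μ, MemLp (fun y => f (x, y)) 2 ν := by
    filter_upwards [h1.prod_right_ae, h2.prod_right_ae] with x hx hx2
    exact (memLp_two_iff_integrable_sq hx.aestronglyMeasurable).2 hx2
  refine ⟨hs, (memLp_two_iff_integrable_sq h1.integral_prod_left.aestronglyMeasurable).2 ?_⟩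
  refine h2.integral_prod_left.mono' (h1.integral_prod_left.aestronglyMeasurable.pow 2) ?_
  filter_upwards [hs] with x hx
  have h := variance_eq_sub hx
  have h0 := variance_nonneg (fun y => f (x, y)) ν
  simp only [Pi.pow_apply] at h
  rw [Real.norm_eq_abs, abs_of_nonneg (sq_nonneg _)]
  linarith

/-- The law of total variance for two independent factors. -/
theorem variance_prod_eq {μ : Measure α} {ν : Measure β} [IsProbabilityMeasure μ]
    [IsProbabilityMeasure ν] {f : α × β → ℝ} (hf : MemLp f 2 (μ.prod ν)) :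
    variance f (μ.prod ν) =
      ∫ x, variance (fun y => f (x, y)) ν ∂μ + variance (fun x => ∫ y, f (x, y) ∂ν) μ := by
  obtain ⟨hs, hg⟩ := memLp_sections hf
  have h1 : Integrable f (μ.prod ν) := hf.integrable one_le_two
  have h2 : Integrable (fun p => f p ^ 2) (μ.prod ν) := hf.integrable_sq
  have hv : (fun x => variance (fun y => f (x, y)) ν) =ᵐ[μ]
      fun x => ∫ y, f (x, y) ^ 2 ∂ν - (∫ y, f (x, y) ∂ν) ^ 2 := by
    filter_upwards [hs] with x hx
    simpa only [Pi.pow_apply] using variance_eq_sub hx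
  rw [integral_congr_ae hv, integral_sub h2.integral_prod_left hg.integrable_sq,
    variance_eq_sub hf, variance_eq_sub hg]
  simp only [Pi.pow_apply]
  rw [integral_prod _ h2, integral_prod _ h1]
  ring

/-- A variance is at most half the mean square of a bound on the differences. -/
theorem variance_le_of_dist {μ : Measure α} [IsProbabilityMeasure μ] {f : α → ℝ}
    (hf : MemLp f 2 μ) {d : α → α → ℝ}
    (hd : Integrable (fun p : α × α => d p.1 p.2 ^ 2) (μ.prod μ))
    (hb : ∀ x y, |f x - f y| ≤ d x y) :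
    variance f μ ≤ (1 / 2) * ∫ x, ∫ y, d x y ^ 2 ∂μ ∂μ := by
  have i1 : Integrable f μ := hf.integrable one_le_two
  have i2 : Integrable (fun x => f x ^ 2) μ := hf.integrable_sq
  have a1 : Integrable (fun p : α × α => f p.1 ^ 2) (μ.prod μ) := i2.comp_fst μ
  have a2 : Integrable (fun p : α × α => f p.2 ^ 2) (μ.prod μ) := i2.comp_snd μ
  have a3 : Integrable (fun p : α × α => f p.1 * f p.2) (μ.prod μ) := i1.mul_prod i1
  have b1 : ∫ p : α × α, f p.1 ^ 2 ∂(μ.prod μ) = ∫ x, f x ^ 2 ∂μ := by
    rw [integral_fun_fst (fun x => f x ^ 2)]; simp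
  have b2 : ∫ p : α × α, f p.2 ^ 2 ∂(μ.prod μ) = ∫ x, f x ^ 2 ∂μ := by
    rw [integral_fun_snd (fun x => f x ^ 2)]; simp
  have b3 : ∫ p : α × α, f p.1 * f p.2 ∂(μ.prod μ) = (∫ x, f x ∂μ) ^ 2 := by
    rw [integral_prod_mul f f]; ring
  have ha : ∫ p : α × α, (f p.1 - f p.2) ^ 2 ∂(μ.prod μ) = 2 * variance f μ := by
    have e : ∀ p : α × α, (f p.1 - f p.2) ^ 2 =
        f p.1 ^ 2 + f p.2 ^ 2 - 2 * (f p.1 * f p.2) := fun p => by ring
    simp_rw [e]
    have a12 : Integrable (fun p : α × α => f p.1 ^ 2 + f p.2 ^ 2) (μ.prod μ) := a1.add a2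
    rw [integral_sub a12 (a3.const_mul 2), integral_add a1 a2, integral_const_mul,
      variance_eq_sub hf, b1, b2, b3]
    simp only [Pi.pow_apply]
    ring
  have hle : ∫ p : α × α, (f p.1 - f p.2) ^ 2 ∂(μ.prod μ) ≤
      ∫ p : α × α, d p.1 p.2 ^ 2 ∂(μ.prod μ) := by
    refine integral_mono_of_nonneg (ae_of_all _ fun p => sq_nonneg _) hd (ae_of_all _ fun p => ?_)
    simp only
    rw [← sq_abs (f p.1 - f p.2)]
    exact pow_le_pow_left₀ (abs_nonneg _) (hb _ _) 2
  rw [integral_prod (fun p : α × α => d p.1 p.2 ^ 2) hd] at hle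
  linarith

private lemma cons_measurePreserving {n : ℕ} {X : Fin (n + 1) → Type*}
    [∀ i, MeasurableSpace (X i)] (μ : ∀ i, Measure (X i)) [∀ i, IsProbabilityMeasure (μ i)] :
    MeasurePreserving (fun p : (∀ j : Fin n, X j.succ) × X 0 => (Fin.cons p.2 p.1 : ∀ i, X i))
      ((Measure.pi fun j => μ j.succ).prod (μ 0)) (Measure.pi μ) := by
  have h := (measurePreserving_piFinSuccAbove μ 0).symm
  have hs : MeasurePreserving (Prod.swap : (∀ j : Fin n, X j.succ) × X 0 → _)
      ((Measure.pi fun j => μ j.succ).prod (μ 0))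
      ((μ 0).prod (Measure.pi fun j => μ j.succ)) := Measure.measurePreserving_swap
  have := h.comp hs
  refine cast (congrArg (fun g => MeasurePreserving g _ _) (funext fun p => ?_)) this
  simp only [MeasurableEquiv.piFinSuccAbove_symm_apply, Fin.insertNthEquiv,
    Equiv.coe_fn_mk, Fin.insertNth_zero]
  rfl

private lemma efronStein_fin (n : ℕ) : ∀ {X : Fin n → Type*} [∀ i, MeasurableSpace (X i)]
    (μ : ∀ i, Measure (X i)) [∀ i, IsProbabilityMeasure (μ i)] {f : (∀ i, X i) → ℝ}
    (_hm : Measurable f) (_hf : MemLp f 2 (Measure.pi μ)) {d : ∀ i, X i → X i → ℝ}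
    (_hd : ∀ i, Integrable (fun p : X i × X i => d i p.1 p.2 ^ 2) ((μ i).prod (μ i)))
    (_hb : ∀ x i a, |f x - f (Function.update x i a)| ≤ d i (x i) a),
    variance f (Measure.pi μ) ≤ ∑ i, (1 / 2) * ∫ x, ∫ y, d i x y ^ 2 ∂(μ i) ∂(μ i) := by
  induction n with
  | zero =>
    intro X _ μ _ f _ hf d _ _
    have : f = fun _ => f finZeroElim :=
      funext fun x => congrArg f (funext fun i => Fin.elim0 i)
    rw [this, variance_eq_sub (memLp_const _)]
    simp
  | succ n ih =>
    intro X _ μ _ f hfm hf d hd hb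
    have hmp := cons_measurePreserving μ
    set ρ := Measure.pi fun j : Fin n => μ j.succ with hρ
    set F : (∀ j : Fin n, X j.succ) × X 0 → ℝ := fun p => f (Fin.cons p.2 p.1) with hF
    have hFm : Measurable F := hfm.comp hmp.measurable
    have hFp : MemLp F 2 (ρ.prod (μ 0)) := hf.comp_measurePreserving hmp
    have hv : variance f (Measure.pi μ) = variance F (ρ.prod (μ 0)) :=
      (hmp.variance_fun_comp hf.aestronglyMeasurable.aemeasurable).symm
    obtain ⟨hs, hg⟩ := memLp_sections hFp
    have hgm : Measurable fun y => ∫ a, F (y, a) ∂μ 0 :=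
      (hFm.stronglyMeasurable.integral_prod_right').measurable
    have h0 : ∀ y a b, |F (y, a) - F (y, b)| ≤ d 0 a b := by
      intro y a b
      have := hb (Fin.cons a y) 0 b
      rwa [Fin.cons_zero, Fin.update_cons_zero] at this
    have hgb : ∀ y j c, |(∫ a, F (y, a) ∂μ 0) - ∫ a, F (Function.update y j c, a) ∂μ 0| ≤
        d j.succ (y j) c := by
      intro y j c
      set y' := Function.update y j c with hy'
      have hp : ∀ a, |F (y, a) - F (y', a)| ≤ d j.succ (y j) c := by
        intro a
        have := hb (Fin.cons a y) j.succ c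
        rwa [Fin.cons_succ, ← Fin.cons_update] at this
      have hdiff : Integrable (fun a => F (y, a) - F (y', a)) (μ 0) :=
        Integrable.of_bound ((hFm.comp measurable_prodMk_left).sub
          (hFm.comp measurable_prodMk_left)).aestronglyMeasurable _ (ae_of_all _ hp)
      by_cases hi : Integrable (fun a => F (y, a)) (μ 0)
      · have hi' : Integrable (fun a => F (y', a)) (μ 0) :=
          (hi.sub hdiff).congr (ae_of_all _ fun a => by simp)
        rw [← integral_sub hi hi']
        simpa using norm_integral_le_of_norm_le_const (μ := μ 0)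
          (ae_of_all _ fun a => show ‖F (y, a) - F (y', a)‖ ≤ _ from hp a)
      · have hi' : ¬ Integrable (fun a => F (y', a)) (μ 0) := fun h =>
          hi ((h.add hdiff).congr (ae_of_all _ fun a => by simp))
        obtain ⟨a⟩ := nonempty_of_isProbabilityMeasure (μ 0)
        simp [integral_undef hi, integral_undef hi', (abs_nonneg _).trans (hp a)]
    rw [hv, variance_prod_eq hFp, Fin.sum_univ_succ]
    refine add_le_add ?_ (ih (fun j => μ j.succ) hgm hg (fun j => hd j.succ) hgb)
    calc ∫ y, variance (fun a => F (y, a)) (μ 0) ∂ρ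
        ≤ ∫ _y, (1 / 2) * ∫ a, ∫ b, d 0 a b ^ 2 ∂(μ 0) ∂(μ 0) ∂ρ := by
          refine integral_mono_of_nonneg (ae_of_all _ fun y => variance_nonneg _ _)
            (integrable_const _) ?_
          filter_upwards [hs] with y hy
          exact variance_le_of_dist hy (hd 0) (h0 y)
      _ = _ := by simp

/-- The Efron–Stein inequality on a finite product of probability spaces. -/
theorem efronStein {ι : Type*} [Fintype ι] [DecidableEq ι] {X : ι → Type*}
    [∀ i, MeasurableSpace (X i)] (μ : ∀ i, Measure (X i)) [∀ i, IsProbabilityMeasure (μ i)]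
    {f : (∀ i, X i) → ℝ} (hm : Measurable f) (hf : MemLp f 2 (Measure.pi μ))
    {d : ∀ i, X i → X i → ℝ}
    (hd : ∀ i, Integrable (fun p : X i × X i => d i p.1 p.2 ^ 2) ((μ i).prod (μ i)))
    (hb : ∀ x i a, |f x - f (Function.update x i a)| ≤ d i (x i) a) :
    variance f (Measure.pi μ) ≤ ∑ i, (1 / 2) * ∫ x, ∫ y, d i x y ^ 2 ∂(μ i) ∂(μ i) := by
  set e := (Fintype.equivFin ι).symm
  set T := MeasurableEquiv.piCongrLeft X e with hT
  have hmp : MeasurePreserving T (Measure.pi fun k => μ (e k)) (Measure.pi μ) :=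
    measurePreserving_piCongrLeft μ e
  have happ : ∀ z k, T z (e k) = z k := fun z k =>
    MeasurableEquiv.piCongrLeft_apply_apply (e := e) (β := X) z k
  have hv : variance f (Measure.pi μ) = variance (fun z => f (T z)) (Measure.pi fun k => μ (e k)) :=
    (hmp.variance_fun_comp hf.aestronglyMeasurable.aemeasurable).symm
  rw [hv, ← e.sum_comp fun i => (1 / 2) * ∫ x, ∫ y, d i x y ^ 2 ∂(μ i) ∂(μ i)]
  refine efronStein_fin _ (fun k => μ (e k)) (hm.comp T.measurable)
    (hf.comp_measurePreserving hmp) (fun k => hd (e k)) fun z k a => ?_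
  have hu : T (Function.update z k a) = Function.update (T z) (e k) a := by
    funext i
    obtain ⟨l, rfl⟩ := e.surjective i
    rw [happ]
    by_cases h : l = k
    · subst h; simp
    · rw [Function.update_of_ne h, Function.update_of_ne (e.injective.ne h), happ]
  simp only [Function.comp_apply]
  rw [hu]
  have := hb (T z) (e k) a
  rwa [happ] at this

end Vale.Agent.P168.Toolkit
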