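import Vale.Agent.P168.Limit.GG

/-! The arrays of the perturbed systems along a selected sequence approximate gadget arrays. -/

open MeasureTheory ProbabilityTheory Filter
open scoped BigOperators NNReal ENNReal Topology

noncomputable section

namespace Vale.Agent.P168.Limit

theorem exists_site_bound {n : ℕ} (F : List (Coord n)) : ∃ q, SitesBelow F q := by
  induction F with
  | nil => exact ⟨0, fun l i h => by simp at h⟩
  | cons c F ih =>
    obtain ⟨q, hq⟩ := ih
    refine ⟨max q (Sum.elim (fun li => li.2 + 1) (fun _ => 0) c), fun l i h => ?_⟩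
    rcases List.mem_cons.1 h with h | h
    · subst h
      exact lt_of_lt_of_le (Nat.lt_succ_self i) (le_max_right _ _)
    · exact lt_of_lt_of_le (hq l i h) (le_max_left _ _)

variable {K : ℕ} (P : Measure (Factor K)) (Q : Measure ℝ)
variable [IsProbabilityMeasure P] [IsProbabilityMeasure Q]

/-- Data selected for each level. -/
structure Choice where
  M : ℕ → ℕ
  N : ℕ → ℕ
  μ : ℕ → ℝ≥0
  x : (j : ℕ) → Obs (horizonParams j (M j)).L → ℝ

variable (C : Choice)

/-- The parameters at level `j`. -/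
abbrev Choice.p (j : ℕ) : Params := horizonParams j (C.M j)

/-- The array at level `j`. -/
def Choice.arr (j : ℕ) : Measure Arr := sysArr (C.p j) (C.N j) P Q (C.μ j) (C.x j)

/-- The choice is good: small errors and small fluctuations. -/
structure Choice.IsGood : Prop where
  pos : ∀ j, 0 < C.N j
  mem : ∀ j o, C.x j o ∈ Set.Icc (1 : ℝ) 2
  tilt : ∀ j, tiltErr (slotVar (C.p j) 2) (slotShift (C.p j) 2) ≤ 1 / ((j : ℝ) + 1)
  invQ : ∀ j, 1 / ((C.p j).Q : ℝ) ≤ 1 / ((j : ℝ) + 1)
  invS : ∀ j, 1 / ((C.p j).S : ℝ) ≤ 1 / ((j : ℝ) + 1)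
  s_pos : ∀ j, 0 < (C.p j).s
  fluct_zero : Tendsto (fun j => fluct (C.p j) (C.N j) P Q (C.μ j) (C.x j)) atTop (𝓝 0)

variable {P Q}

theorem Choice.IsGood.abs_x_le {C : Choice} (hC : C.IsGood P Q) (j : ℕ) (o : Obs (C.p j).L) :
    |C.x j o| ≤ 2 :=
  abs_le.2 ⟨by linarith [(hC.mem j o).1], (hC.mem j o).2⟩

theorem Choice.IsGood.slotErr_le {C : Choice} (hC : C.IsGood P Q) (j n k : ℕ) :
    slotErr (C.p j) n 2 ((k : ℝ) * (2 / (C.p j).S))
      ≤ (2 + 4 * (n : ℝ) + 4 * k) * (1 / ((j : ℝ) + 1)) := by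
  have h1 := hC.invQ j
  have h2 := hC.invS j
  have h3 := hC.tilt j
  have e1 : (2 : ℝ) / (C.p j).Q = 2 * (1 / ((C.p j).Q : ℝ)) := by ring
  have e2 : (2 : ℝ) / (C.p j).S = 2 * (1 / ((C.p j).S : ℝ)) := by ring
  have hn : (0 : ℝ) ≤ n := Nat.cast_nonneg n
  have hk : (0 : ℝ) ≤ k := Nat.cast_nonneg k
  rw [slotErr, e1, e2]
  nlinarith [mul_le_mul_of_nonneg_left h3 hn, mul_le_mul_of_nonneg_left h2 hk]

theorem Choice.IsGood.level {C : Choice} (j g : ℕ) (h : g ≤ j) : g < (C.p j).L :=
  Nat.lt_succ_of_le h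

/-- The arrays of a good choice approximate gadget arrays. -/
theorem Choice.IsGood.isApprox {C : Choice} (hC : C.IsGood P Q) : IsApprox (C.arr P Q) := by
  have hN : ∀ j, NeZero (C.N j) := fun j => ⟨(hC.pos j).ne'⟩
  have hx : ∀ j, ∀ o, |C.x j o| ≤ 2 := hC.abs_x_le
  set φ : ℕ → ℝ := fun j => fluct (C.p j) (C.N j) P Q (C.μ j) (C.x j) with hφ
  have hε : Tendsto (fun j : ℕ => 1 / ((j : ℝ) + 1)) atTop (𝓝 0) :=
    tendsto_one_div_add_atTop_nhds_zero_nat
  have hzero : ∀ {f : ℕ → ℝ} (a b : ℝ), (∀ᶠ j in atTop, |f j| ≤ a * (1 / ((j : ℝ) + 1)) + b * φ j) →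
      Tendsto f atTop (𝓝 0) := fun {f} a b hf => by
    refine squeeze_zero_norm' (by simpa only [Real.norm_eq_abs] using hf) ?_
    simpa using (hε.const_mul a).add (hC.fluct_zero.const_mul b)
  exact
  { prob := fun j => isProb_sysArr (C.p j) P Q (C.μ j) (C.x j)
    exch_rep := fun j π => sysArr_exch_rep (C.p j) P Q (C.μ j) (C.x j) π
    exch_site := fun j π => sysArr_exch_site (C.p j) P Q (C.μ j) (C.x j) π
    symm := fun j g a b => sysArr_symm (C.p j) P Q (C.μ j) (C.x j) g a b
    bound := fun j g a b => sysArr_bound (C.p j) P Q (C.μ j) (C.x j) g a b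
    psd := fun j g n c => sysArr_psd (C.p j) P Q (C.μ j) (C.x j) g n c
    unused := fun g hg hun j a b => sysArr_unused (C.p j) P Q (C.μ j) (C.x j) g hg hun a b
    site_avg := fun L j k k' hk hk' => sysArr_site_avg (C.p j) P Q (C.μ j) (C.x j) L k k' hk hk'
    diag := fun g => by
      refine ⟨fun j => if h : g < (C.p j).L then
        linMean (C.p j) (C.N j) P Q (C.μ j) (C.x j) (some ⟨g, h⟩) else 0, fun j => ?_, fun a => ?_⟩
      · dsimp only
        split_ifs
        · exact abs_linMean_le _ P Q _ _ _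
        · simp
      · refine hzero 0 1 ((eventually_ge_atTop g).mono fun j hj => ?_)
        dsimp only
        rw [zero_mul, zero_add, one_mul, dif_pos (Choice.IsGood.level (C := C) j g hj)]
        rw [Choice.arr, sys_diag (C.p j) P Q (C.μ j) (C.x j) g a (Choice.IsGood.level (C := C) j g hj),
          abs_of_nonneg (linFl_nonneg _ P Q _ _ _)]
        exact linFl_le_fluct _ P Q _ _ (hC.s_pos j) _
    magnetisation := by
      refine ⟨fun j => linMean (C.p j) (C.N j) P Q (C.μ j) (C.x j) none,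
        fun j => abs_linMean_le _ P Q _ _ _, fun n F q a hF ha => ?_⟩
      refine hzero (2 + 4 * (n : ℝ) + 4 * F.length) 1 (Eventually.of_forall fun j => ?_)
      refine (sys_mag (C.p j) P Q (C.μ j) (C.x j) (Nat.succ_pos j) (hx j) hF ha
        (linMean (C.p j) (C.N j) P Q (C.μ j) (C.x j) none)).trans ?_
      rw [one_mul]
      exact add_le_add (hC.slotErr_le j n F.length)
        (linFl_le_fluct (C.p j) P Q (C.μ j) (C.x j) (hC.s_pos j) none)
    gg := fun n hn F w => by
      obtain ⟨q, hF⟩ := exists_site_bound F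
      refine hzero 0 (1 + 2 * (w.length : ℝ))
        ((eventually_ge_atTop (w.length + w.sum)).mono fun j hj => ?_)
      rw [zero_mul, zero_add]
      exact sys_gg (C.p j) P Q (C.μ j) (C.x j) (hC.s_pos j) (fun a => (hC.mem j _).1) hn hF w
        (Nat.le_succ_of_le (by omega))
        fun g hg => Choice.IsGood.level (C := C) j g (by have := List.le_sum_of_mem hg; omega)
    overlap := fun n F q a b hF ha hb => by
      refine hzero (2 + 4 * (n : ℝ) + 4 * F.length) 0 (Eventually.of_forall fun j => ?_)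
      rw [zero_mul, add_zero]
      exact (sys_overlap (C.p j) P Q (C.μ j) (C.x j) (Nat.succ_pos j) (hx j) hF ha hb).trans
        (hC.slotErr_le j n F.length)
    gadget := fun Γ s n q l l' F hF hl hl' => by
      refine hzero (2 + 4 * (n : ℝ) + 4 * F.length) 0
        ((eventually_ge_atTop (kidx Γ s)).mono fun j hj => ?_)
      rw [zero_mul, add_zero]
      exact (sys_gadget (C.p j) P Q (C.μ j) (C.x j) Γ s (Choice.IsGood.level (C := C) j _ hj) (hx j)
        hF hl hl').trans (hC.slotErr_le j n F.length) }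

end Vale.Agent.P168.Limit
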