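import Vale.Agent.P168.Limit.ArrayLimitBase

/-! From monomials in countably many bounded coordinates to bounded measurable functions. -/

open MeasureTheory ProbabilityTheory Filter
open scoped BigOperators NNReal ENNReal Topology

noncomputable section

namespace Vale.Agent.P168.Limit.ArrLim

theorem ext_moments {Ω : Type*} [MeasurableSpace Ω] {K : Type*} [Countable K] {μ : Measure Ω}
    [IsFiniteMeasure μ] {ι : Type*} [Fintype ι] (P : ι → Ω → K → ℝ) (g : ι → Ω → ℝ)
    (hP : ∀ i, Measurable (P i)) (hPb : ∀ i, ∀ᵐ ω ∂μ, ∀ k, |P i ω k| ≤ 1)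
    (hg : ∀ i, Measurable (g i)) (C : ℝ) (hgb : ∀ i, ∀ᵐ ω ∂μ, |g i ω| ≤ C)
    (hmono : ∀ c : List K, ∑ i, ∫ ω, (c.map (P i ω)).prod * g i ω ∂μ = 0)
    (F : (K → ℝ) → ℝ) (hF : Measurable F) (hFb : ∀ y, |F y| ≤ 1) :
    ∑ i, ∫ ω, F (P i ω) * g i ω ∂μ = 0 := by
  classical
  set Y := K → Set.Icc (-1 : ℝ) 1 with hY
  let p : ι → Ω → Y := fun i ω k => Set.projIcc (-1) 1 (by norm_num) (P i ω k)
  have hp : ∀ i, Measurable (p i) := fun i => measurable_pi_lambda _ fun k =>
    continuous_projIcc.measurable.comp ((measurable_pi_apply k).comp (hP i))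
  have hpv : ∀ i, ∀ᵐ ω ∂μ, (fun k => (p i ω k : ℝ)) = P i ω := fun i =>
    (hPb i).mono fun ω hω => funext fun k => by
      simp only [p, Set.projIcc_of_mem _ (show P i ω k ∈ Set.Icc (-1 : ℝ) 1 from abs_le.1 (hω k))]
  let T : (Y → ℝ) → ℝ := fun f => ∑ i, ∫ ω, f (p i ω) * g i ω ∂μ
  have hgi : ∀ i, Integrable (g i) μ := fun i => Integrable.of_bound (hg i).aestronglyMeasurable C
    ((hgb i).mono fun ω hω => (Real.norm_eq_abs _).trans_le hω)
  have hint : ∀ (f : Y → ℝ), Measurable f → ∀ D, (∀ y, |f y| ≤ D) → ∀ i,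
      Integrable (fun ω => f (p i ω) * g i ω) μ := fun f hf D hD i =>
    (hgi i).bdd_mul (c := D) (hf.comp (hp i)).aestronglyMeasurable
      (Eventually.of_forall fun ω => (Real.norm_eq_abs _).trans_le (hD _))
  -- continuous test functions
  have hintC : ∀ (f : C(Y, ℝ)) i, Integrable (fun ω => f (p i ω) * g i ω) μ := fun f i =>
    hint f f.continuous.measurable ‖f‖ (fun y => (Real.norm_eq_abs _).symm.trans_le
      (f.norm_coe_le_norm y)) i
  have hTlin : ∀ (a : ℝ) (f h : C(Y, ℝ)), T (a • f + h : C(Y, ℝ)) = a * T f + T h := by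
    intro a f h
    simp only [T, ContinuousMap.add_apply, ContinuousMap.smul_apply, smul_eq_mul,
      Finset.mul_sum, ← Finset.sum_add_distrib]
    refine Finset.sum_congr rfl fun i _ => ?_
    rw [← integral_const_mul, ← integral_add ((hintC f i).const_mul a) (hintC h i)]
    exact integral_congr_ae (Eventually.of_forall fun ω => by ring)
  have hT0 : T (0 : C(Y, ℝ)) = 0 := by simp [T]
  let co : K → C(Y, ℝ) := fun k =>
    ⟨fun y => (y k : ℝ), continuous_subtype_val.comp (continuous_apply k)⟩
  have hprod : ∀ l : List C(Y, ℝ), (∀ f ∈ l, f ∈ Set.range co) →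
      ∃ c : List K, l.prod = (c.map co).prod := by
    intro l hl
    induction l with
    | nil => exact ⟨[], rfl⟩
    | cons f l ih =>
      obtain ⟨k, hk⟩ := hl f List.mem_cons_self
      obtain ⟨c, hc⟩ := ih fun h hh => hl h (List.mem_cons_of_mem _ hh)
      exact ⟨k :: c, by simp [hk, hc]⟩
  have hTmono : ∀ c : List K, T ((c.map co).prod : C(Y, ℝ)) = 0 := by
    intro c
    have e : ∀ y : Y, (c.map co).prod y = (c.map fun k => (y k : ℝ)).prod := fun y => by
      induction c with
      | nil => simp
      | cons k c ih => simp [ih, co]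
    rw [← hmono c]
    refine Finset.sum_congr rfl fun i _ => integral_congr_ae ((hpv i).mono fun ω hω => ?_)
    simp only [e]
    rw [← hω]
  have hadj : ∀ f ∈ Algebra.adjoin ℝ (Set.range co), T f = 0 := by
    intro f hf
    rw [← Subalgebra.mem_toSubmodule, Algebra.adjoin_eq_span] at hf
    induction hf using Submodule.span_induction with
    | mem x hx =>
      obtain ⟨l, hl, rfl⟩ := Submonoid.exists_list_of_mem_closure hx
      obtain ⟨c, hc⟩ := hprod l hl
      rw [hc]
      exact hTmono c
    | zero => exact hT0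
    | add x y _ _ hx hy =>
      have := hTlin 1 x y
      rw [one_smul, hx, hy] at this
      simpa using this
    | smul a x _ hx =>
      have := hTlin a x 0
      rw [add_zero, hx, hT0] at this
      simpa using this
  have hsep : (Algebra.adjoin ℝ (Set.range co)).SeparatesPoints := by
    intro y y' hyy
    obtain ⟨k, hk⟩ := Function.ne_iff.1 hyy
    exact ⟨_, ⟨co k, Algebra.subset_adjoin ⟨k, rfl⟩, rfl⟩, fun h => hk (Subtype.ext h)⟩
  have hcont : ∀ f : C(Y, ℝ), T f = 0 := by
    intro f
    set D := ∑ i, ∫ ω, |g i ω| ∂μ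
    have hD : 0 ≤ D := Finset.sum_nonneg fun i _ => integral_nonneg fun ω => abs_nonneg _
    refine eq_of_forall_dist_le fun ε hε => ?_
    obtain ⟨h, hh⟩ := ContinuousMap.exists_mem_subalgebra_near_continuousMap_of_separatesPoints _ hsep f
      (ε / (D + 1)) (by positivity)
    rw [dist_zero_right, Real.norm_eq_abs, ← sub_zero (T f), ← hadj h.1 h.2]
    have hb : ∀ y, |f y - h.1 y| ≤ ε / (D + 1) := fun y => by
      rw [abs_sub_comm, ← Real.norm_eq_abs, ← ContinuousMap.sub_apply]
      exact ((h.1 - f).norm_coe_le_norm y).trans hh.le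
    calc |T f - T h.1| = |∑ i, ∫ ω, (f (p i ω) - h.1 (p i ω)) * g i ω ∂μ| := by
          simp only [T, ← Finset.sum_sub_distrib, ← integral_sub (hintC f _) (hintC h.1 _), sub_mul]
      _ ≤ ∑ i, ε / (D + 1) * ∫ ω, |g i ω| ∂μ := by
          refine (Finset.abs_sum_le_sum_abs _ _).trans (Finset.sum_le_sum fun i _ => ?_)
          rw [← integral_const_mul]
          rw [← Real.norm_eq_abs]
          refine (norm_integral_le_of_norm_le ((hgi i).abs.const_mul _)
            (Eventually.of_forall fun ω => ?_))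
          rw [Real.norm_eq_abs, abs_mul]
          exact mul_le_mul_of_nonneg_right (hb _) (abs_nonneg _)
      _ = ε / (D + 1) * D := (Finset.mul_sum _ _ _).symm
      _ ≤ ε := by
          rw [div_mul_eq_mul_div, div_le_iff₀ (by positivity)]
          nlinarith
  -- two finite measures
  let ρ : (ℝ → ℝ) → Measure Y := fun s =>
    ∑ i, (μ.withDensity fun ω => ENNReal.ofReal (s (g i ω))).map (p i)
  have hρfin : ∀ s : ℝ → ℝ, (∀ x, |s x| ≤ |x|) → Measurable s → IsFiniteMeasure (ρ s) := by
    intro s hs hsm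
    have : ∀ i, IsFiniteMeasure ((μ.withDensity fun ω => ENNReal.ofReal (s (g i ω))).map (p i)) :=
      fun i => by
        have := isFiniteMeasure_withDensity_ofReal (μ := μ) (f := fun ω => s (g i ω))
          (((hgi i).mono (hsm.comp (hg i)).aestronglyMeasurable
            (Eventually.of_forall fun ω => hs _)).2)
        infer_instance
    infer_instance
  have hρint : ∀ (s : ℝ → ℝ), (∀ x, |s x| ≤ |x|) → Measurable s → (∀ x, 0 ≤ s x) →
      ∀ f : Y → ℝ, Measurable f → ∀ D, (∀ y, |f y| ≤ D) →
        ∫ y, f y ∂ρ s = ∑ i, ∫ ω, f (p i ω) * s (g i ω) ∂μ := by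
    intro s hs hsm hs0 f hf D hD
    have : ∀ i, IsFiniteMeasure ((μ.withDensity fun ω => ENNReal.ofReal (s (g i ω))).map (p i)) :=
      fun i => by
        have := isFiniteMeasure_withDensity_ofReal (μ := μ) (f := fun ω => s (g i ω))
          (((hgi i).mono (hsm.comp (hg i)).aestronglyMeasurable
            (Eventually.of_forall fun ω => hs _)).2)
        infer_instance
    rw [integral_finsetSum_measure fun i _ => Integrable.of_bound hf.aestronglyMeasurable D
      (Eventually.of_forall fun y => (Real.norm_eq_abs _).trans_le (hD y))]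
    refine Finset.sum_congr rfl fun i _ => ?_
    have hm : Measurable fun ω => ENNReal.ofReal (s (g i ω)) :=
      (hsm.comp (hg i)).ennreal_ofReal
    rw [integral_map (hp i).aemeasurable hf.aestronglyMeasurable,
      integral_withDensity_eq_integral_toReal_smul hm
        (Eventually.of_forall fun ω => ENNReal.ofReal_lt_top)]
    refine integral_congr_ae (Eventually.of_forall fun ω => ?_)
    simp [ENNReal.toReal_ofReal (hs0 _), mul_comm]
  set sp : ℝ → ℝ := fun x => max x 0 with hsp
  set sn : ℝ → ℝ := fun x => max (-x) 0 with hsn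
  have hspb : ∀ x, |sp x| ≤ |x| := fun x => by
    rw [abs_of_nonneg (le_max_right _ _)]; exact max_le (le_abs_self x) (abs_nonneg x)
  have hsnb : ∀ x, |sn x| ≤ |x| := fun x => by
    rw [abs_of_nonneg (le_max_right _ _)]; exact max_le (neg_le_abs x) (abs_nonneg x)
  have hspm : Measurable sp := measurable_id.max measurable_const
  have hsnm : Measurable sn := measurable_neg.max measurable_const
  have hdiff : ∀ f : Y → ℝ, Measurable f → ∀ D, (∀ y, |f y| ≤ D) →
      ∫ y, f y ∂ρ sp - ∫ y, f y ∂ρ sn = T f := by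
    intro f hf D hD
    rw [hρint sp hspb hspm (fun x => le_max_right _ _) f hf D hD,
      hρint sn hsnb hsnm (fun x => le_max_right _ _) f hf D hD, ← Finset.sum_sub_distrib]
    refine Finset.sum_congr rfl fun i _ => ?_
    have hi : ∀ s : ℝ → ℝ, (∀ x, |s x| ≤ |x|) → Measurable s →
        Integrable (fun ω => f (p i ω) * s (g i ω)) μ := fun s hs hsm =>
      ((hgi i).mono (hsm.comp (hg i)).aestronglyMeasurable
        (Eventually.of_forall fun ω => hs _)).bdd_mul (c := D) (hf.comp (hp i)).aestronglyMeasurable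
        (Eventually.of_forall fun ω => (Real.norm_eq_abs _).trans_le (hD _))
    rw [← integral_sub (hi sp hspb hspm) (hi sn hsnb hsnm)]
    refine integral_congr_ae (Eventually.of_forall fun ω => ?_)
    simp only [hsp, hsn, ← mul_sub]
    congr 1
    exact max_zero_sub_eq_self _
  have := hρfin sp hspb hspm
  have := hρfin sn hsnb hsnm
  have heq : ρ sp = ρ sn := by
    refine ext_of_forall_integral_eq_of_IsFiniteMeasure fun f => ?_
    have := hdiff f f.continuous.measurable ‖f‖ fun y => (Real.norm_eq_abs _).symm.trans_le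
      (f.norm_coe_le_norm y)
    rw [← sub_eq_zero, this]
    exact hcont f.toContinuousMap
  have hF' : Measurable fun y : Y => F fun k => (y k : ℝ) :=
    hF.comp (measurable_pi_lambda _ fun k => measurable_subtype_coe.comp (measurable_pi_apply k))
  have h0 := hdiff (fun y => F fun k => (y k : ℝ)) hF' 1 fun y => hFb _
  rw [heq, sub_self] at h0
  rw [h0]
  refine Finset.sum_congr rfl fun i _ => integral_congr_ae ((hpv i).mono fun ω hω => ?_)
  simp only [hω]

end Vale.Agent.P168.Limit.ArrLim
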