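import Vale.Agent.P168.Limit.ArrayLimitSites
import Vale.Agent.P168.Limit.ArrayLimitExtend

/-! A limit point of an approximating sequence is a gadget array. -/

open MeasureTheory ProbabilityTheory Filter
open scoped BigOperators NNReal ENNReal Topology

noncomputable section

namespace Vale.Agent.P168.Limit.ArrLim

open Vale.Agent.P168.Tree (measurable_kernel measurable_kvec measurable_repData measurable_spinProd
  abs_spinProd clampUnit siteAvg measurable_siteAvg abs_siteAvg_le spinProd_permSite)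

variable {ν : ℕ → Measure Arr} {μ : Measure Arr}

lemma Lim.bound' (hμ : Lim ν μ) (g a b : ℕ) : ∀ᵐ ω ∂μ, |ω.2 g a b| ≤ 1 :=
  hμ.bdd.mono fun _ h => h g a b

lemma Lim.symm' (hμ : Lim ν μ) (hA : IsApprox ν) (g a b : ℕ) :
    ∀ᵐ ω ∂μ, ω.2 g a b = ω.2 g b a := by
  refine (hμ.ae_zero' (f := fun ω => |ω.2 g a b - ω.2 g b a|)
    ((continuous_kernel g a b).sub (continuous_kernel g b a)).abs (fun ω => abs_nonneg _)
    fun j => (hA.symm j g a b).mono fun ω h => by simp [h]).mono fun ω h => ?_
  exact sub_eq_zero.1 (abs_eq_zero.1 h)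

lemma Lim.unused' (hμ : Lim ν μ) (hA : IsApprox ν) (g : ℕ) (hg : g ≠ 0)
    (hk : ∀ (Γ : Gadget) (s : Bool), kidx Γ s ≠ g) (a b : ℕ) : ∀ᵐ ω ∂μ, ω.2 g a b = 0 :=
  (hμ.ae_zero' (f := fun ω => |ω.2 g a b|) (continuous_kernel g a b).abs (fun ω => abs_nonneg _)
    fun j => (hA.unused g hg hk j a b).mono fun ω h => by simp [h]).mono fun _ h => abs_eq_zero.1 h

lemma Lim.psd' (hμ : Lim ν μ) (hA : IsApprox ν) (g n : ℕ) (c : Fin n → ℝ) :
    ∀ᵐ ω ∂μ, 0 ≤ ∑ a, ∑ b, c a * c b * ω.2 g a b := by
  refine (hμ.ae_zero' (f := fun ω => max 0 (-∑ a : Fin n, ∑ b : Fin n, c a * c b * ω.2 g a b))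
    (continuous_const.max (Continuous.neg (continuous_finsetSum Finset.univ fun (a : Fin n) _ =>
      continuous_finsetSum Finset.univ fun (b : Fin n) _ =>
        (continuous_kernel g a b).const_mul (c a * c b)))) (fun ω => le_max_left _ _)
    fun j => (hA.psd j g n c).mono fun ω h => max_eq_left (by linarith)).mono fun ω h => ?_
  have := le_max_right (0 : ℝ) (-∑ a : Fin n, ∑ b : Fin n, c a * c b * ω.2 g a b)
  linarith

lemma Lim.diag' (hμ : Lim ν μ) (g : ℕ) : ∃ d : ℝ, ∀ a, ∀ᵐ ω ∂μ, ω.2 g a a = d := by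
  obtain ⟨d, hd⟩ := hμ.diag g
  refine ⟨d, fun a => (hμ.ae_zero (f := fun ω => |ω.2 g a a - d|)
    ((continuous_kernel g a a).sub continuous_const).abs (fun ω => abs_nonneg _) (hd a)).mono
    fun ω h => sub_eq_zero.1 (abs_eq_zero.1 h)⟩

/-- The coordinate vector of the data of `n` replicas. -/
def coords (n : ℕ) (ω : Arr) : Coord n → ℝ := fun c => coordVal c (repData n ω)

/-- Recovering the data from the coordinates. -/
def ofCoords (n : ℕ) (y : Coord n → ℝ) : RepData n :=
  (fun l i => decide (0 < y (Sum.inl (l, i))), fun g a b => y (Sum.inr (g, a, b)))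

lemma ofCoords_coords (n : ℕ) (ω : Arr) : ofCoords n (coords n ω) = repData n ω := by
  refine Prod.ext ?_ rfl
  funext l i
  change decide (0 < spin (ω.1 l i)) = ω.1 l i
  cases ω.1 l i <;> simp [spin]

lemma measurable_ofCoords (n : ℕ) : Measurable (ofCoords n) := by
  refine Measurable.prodMk ?_ ?_
  · exact measurable_pi_lambda _ fun l => measurable_pi_lambda _ fun i =>
      measurable_to_bool (by
        have : MeasurableSet {y : Coord n → ℝ | 0 < y (Sum.inl (l, i))} :=
          measurableSet_lt measurable_const (measurable_pi_apply _)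
        simpa [Set.preimage] using this)
  · exact measurable_pi_lambda _ fun g => measurable_pi_lambda _ fun a =>
      measurable_pi_lambda _ fun b => measurable_pi_apply (Sum.inr (g, a, b) : Coord n)

/-- An identity for monomials in the data of `n` replicas extends. -/
lemma ext_repData [IsFiniteMeasure μ] (hb : ∀ᵐ ω ∂μ, Bdd ω) {n : ℕ} {g : Arr → ℝ}
    (hg : Measurable g) {C : ℝ} (hgb : ∀ᵐ ω ∂μ, |g ω| ≤ C)
    (hmono : ∀ F : List (Coord n), ∫ ω, repMono F ω * g ω ∂μ = 0) {F : RepData n → ℝ}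
    (hF : Measurable F) (hFb : ∀ z, |F z| ≤ 1) : ∫ ω, F (repData n ω) * g ω ∂μ = 0 := by
  have := ext_moments (μ := μ) (ι := Unit) (fun _ => coords n) (fun _ => g)
    (fun _ => measurable_pi_lambda _ fun c => (continuous_coord c).measurable)
    (fun _ => hb.mono fun ω hω c => abs_coord_le c hω) (fun _ => hg) C (fun _ => hgb)
    (fun c => by
      rw [Fintype.sum_unique]
      exact hmono c) (fun y => F (ofCoords n y))
    (hF.comp (measurable_ofCoords n)) fun y => hFb _
  simpa [ofCoords_coords] using this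

lemma exists_sitesBelow {n : ℕ} (F : List (Coord n)) : ∃ q, SitesBelow F q := by
  induction F with
  | nil => exact ⟨0, fun l i h => absurd h List.not_mem_nil⟩
  | cons c F ih =>
    obtain ⟨q, hq⟩ := ih
    rcases c with ⟨l₀, i₀⟩ | c
    · refine ⟨max q (i₀ + 1), fun l i h => ?_⟩
      rcases List.mem_cons.1 h with h | h
      · obtain ⟨rfl, rfl⟩ := Prod.mk.injEq .. ▸ Sum.inl_injective h
        omega
      · have := hq l i h; omega
    · refine ⟨q, fun l i h => ?_⟩
      rcases List.mem_cons.1 h with h | h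
      · exact absurd h (by simp)
      · exact hq l i h

lemma swapInv_repMono {n : ℕ} {F : List (Coord n)} {q : ℕ} (hF : SitesBelow F q) :
    SwapInv q (repMono F) := by
  intro i j hi hj ω
  unfold repMono
  refine congrArg List.prod (List.map_congr_left fun c hc => ?_)
  rcases c with ⟨l, x⟩ | ⟨g, a, b⟩
  · have := hF l x hc
    simp only [coordVal, repData, permSite]
    rw [Equiv.swap_apply_of_ne_of_ne (by omega) (by omega)]
  · rfl

/-- A bounded kernel value with the moments of a multi-overlap is the multi-overlap. -/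
lemma Lim.ae_eq_rset (hμ : Lim ν μ) (hA : IsApprox ν) (L : List ℕ) {k : Arr → ℝ}
    (hk : Measurable k) {C : ℝ} (hkb : ∀ᵐ ω ∂μ, |k ω| ≤ C)
    (h1 : ∫ ω, k ω * (k ω - rset L ω) ∂μ = 0)
    (h2 : ∀ i, ∫ ω, spinProd L i ω * (k ω - rset L ω) ∂μ = 0) :
    ∀ᵐ ω ∂μ, k ω = rset L ω := by
  have := hμ.prob
  have hd : Measurable fun ω => k ω - rset L ω := hk.sub (measurable_rset L)
  have hdb : ∀ᵐ ω ∂μ, |k ω - rset L ω| ≤ C + 1 := hkb.mono fun ω h =>
    (abs_sub _ _).trans (add_le_add h (abs_rset_le L ω))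
  have hint : ∀ {f : Arr → ℝ}, Measurable f → ∀ {D : ℝ}, (∀ᵐ ω ∂μ, |f ω| ≤ D) →
      Integrable (fun ω => f ω * (k ω - rset L ω)) μ := fun hf D hD =>
    (Integrable.of_bound hd.aestronglyMeasurable (C + 1) (hdb.mono fun ω h =>
      (Real.norm_eq_abs _).trans_le h)).bdd_mul (c := D) hf.aestronglyMeasurable
      (hD.mono fun ω h => (Real.norm_eq_abs _).trans_le h)
  have hlim : Tendsto (fun m : ℕ => ∫ ω, siteAvg L (4 ^ m) ω * (k ω - rset L ω) ∂μ) atTop
      (nhds (∫ ω, rset L ω * (k ω - rset L ω) ∂μ)) := by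
    refine tendsto_integral_of_dominated_convergence (fun _ => C + 1)
      (fun m => ((measurable_siteAvg L _).fun_mul hd).aestronglyMeasurable) (integrable_const _)
      (fun m => hdb.mono fun ω h => ?_) ?_
    · rw [Real.norm_eq_abs, abs_mul]
      exact (mul_le_of_le_one_left (abs_nonneg _) (abs_siteAvg_le L _ ω)).trans h
    · filter_upwards [hμ.rset_tendsto hA L] with ω hω
      exact hω.mul_const _
  have hzero : ∀ N : ℕ, ∫ ω, siteAvg L N ω * (k ω - rset L ω) ∂μ = 0 := fun N => by
    simp only [siteAvg, div_mul_eq_mul_div, Finset.sum_mul, integral_div]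
    rw [integral_finsetSum _ fun i _ => hint (measurable_spinProd L i)
      (Eventually.of_forall fun ω => (abs_spinProd L i ω).le)]
    simp [h2]
  have h3 : ∫ ω, rset L ω * (k ω - rset L ω) ∂μ = 0 :=
    tendsto_nhds_unique hlim (tendsto_const_nhds.congr fun m => (hzero _).symm)
  have hsq : ∫ ω, (k ω - rset L ω) ^ 2 ∂μ = 0 := by
    calc ∫ ω, (k ω - rset L ω) ^ 2 ∂μ
        = ∫ ω, k ω * (k ω - rset L ω) - rset L ω * (k ω - rset L ω) ∂μ :=
          integral_congr_ae (Eventually.of_forall fun ω => by ring)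
      _ = 0 := by
          rw [integral_sub (hint hk hkb)
            (hint (measurable_rset L) (Eventually.of_forall (abs_rset_le L))), h1, h3, sub_zero]
  refine ((integral_eq_zero_iff_of_nonneg (fun ω => sq_nonneg _) ?_).1 hsq).mono fun ω h => ?_
  · exact (hint hd hdb).congr (Eventually.of_forall fun ω => (sq _).symm)
  · exact sub_eq_zero.1 (pow_eq_zero_iff (n := 2) (by norm_num) |>.1 h)

lemma Lim.overlap_zero' (hμ : Lim ν μ) (hA : IsApprox ν) (a b : ℕ) :
    ∀ᵐ ω ∂μ, ω.2 0 a b = rset [a, b] ω := by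
  have := hμ.prob
  set n := max a b + 1 with hn
  have hab : a < n ∧ b < n := by omega
  have hmono : ∀ F : List (Coord n), ∫ ω, repMono F ω * (ω.2 0 a b - rset [a, b] ω) ∂μ = 0 := by
    intro F
    obtain ⟨q, hq⟩ := exists_sitesBelow F
    have hc1 : Continuous fun ω => repMono F ω * ω.2 0 a b :=
      (continuous_repMono F).mul (continuous_kernel 0 a b)
    have hc2 : Continuous fun ω => repMono F ω * spinProd [a, b] q ω :=
      (continuous_repMono F).mul (continuous_spinProd _ q)
    have e : ∫ ω, repMono F ω * ω.2 0 a b ∂μ = ∫ ω, repMono F ω * spinProd [a, b] q ω ∂μ :=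
      sub_eq_zero.1 (tendsto_nhds_unique ((hμ.tendsto _ hc1).sub (hμ.tendsto _ hc2))
        (hA.overlap n F q a b hq hab.1 hab.2))
    have e2 := hμ.fresh_one hA [a, b] (continuous_repMono F).measurable (C := 1)
      (hμ.bdd.mono fun ω h => abs_repMono_le F h) (swapInv_repMono hq)
    have hi : Integrable (fun ω => repMono F ω * rset [a, b] ω) μ :=
      Integrable.of_bound ((continuous_repMono F).measurable.fun_mul
        (measurable_rset _)).aestronglyMeasurable 1 (hμ.bdd.mono fun ω h => by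
          rw [Real.norm_eq_abs, abs_mul]
          exact mul_le_one₀ (abs_repMono_le F h) (abs_nonneg _) (abs_rset_le _ _))
    simp only [mul_sub]
    rw [integral_sub (integrable_cont hμ.bdd hc1) hi, e, e2, sub_self]
  refine hμ.ae_eq_rset hA [a, b] (measurable_kernel 0 a b) (hμ.bound' 0 a b) ?_ fun i => ?_
  · simpa [repMono, coordVal, repData] using hmono [Sum.inr (0, ⟨a, hab.1⟩, ⟨b, hab.2⟩)]
  · simpa [repMono, coordVal, repData, spinProd] using
      hmono [Sum.inl (⟨a, hab.1⟩, i), Sum.inl (⟨b, hab.2⟩, i)]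

lemma Lim.magnetisation' (hμ : Lim ν μ) (hA : IsApprox ν) :
    ∃ o : ℝ, ∀ a, ∀ᵐ ω ∂μ, rset [a] ω = o := by
  have := hμ.prob
  obtain ⟨o, ho⟩ := hμ.magnetisation
  refine ⟨o, fun a => ?_⟩
  have hmono : ∀ F : List (Coord (a + 1)), ∫ ω, repMono F ω * (o - rset [a] ω) ∂μ = 0 := by
    intro F
    obtain ⟨q, hq⟩ := exists_sitesBelow F
    have hc : Continuous fun ω => repMono F ω * spinProd [a] q ω :=
      (continuous_repMono F).mul (continuous_spinProd _ q)
    have e : ∫ ω, repMono F ω * spinProd [a] q ω ∂μ = o * ∫ ω, repMono F ω ∂μ :=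
      sub_eq_zero.1 (tendsto_nhds_unique
        ((hμ.tendsto _ hc).sub ((hμ.tendsto _ (continuous_repMono F)).const_mul o))
        (ho (a + 1) F q a hq (Nat.lt_succ_self a)))
    have e2 := hμ.fresh_one hA [a] (continuous_repMono F).measurable (C := 1)
      (hμ.bdd.mono fun ω h => abs_repMono_le F h) (swapInv_repMono hq)
    have hi : Integrable (fun ω => repMono F ω * rset [a] ω) μ :=
      Integrable.of_bound ((continuous_repMono F).measurable.fun_mul
        (measurable_rset _)).aestronglyMeasurable 1 (hμ.bdd.mono fun ω h => by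
          rw [Real.norm_eq_abs, abs_mul]
          exact mul_le_one₀ (abs_repMono_le F h) (abs_nonneg _) (abs_rset_le _ _))
    simp only [mul_sub]
    rw [integral_sub ((integrable_cont hμ.bdd (continuous_repMono F)).mul_const o) hi,
      integral_mul_const, ← e2, e, mul_comm, sub_self]
  have h := hμ.ae_eq_rset hA [a] (k := fun _ => o) measurable_const (C := |o|)
    (Eventually.of_forall fun _ => le_rfl) ?_ fun i => ?_
  · exact h.mono fun ω h => h.symm
  · have := hmono []
    simp only [repMono, List.map_nil, List.prod_nil, one_mul] at this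
    rw [integral_const_mul, this, mul_zero]
  · simpa [repMono, coordVal, repData, spinProd] using hmono [Sum.inl (Fin.last a, i)]

lemma Lim.gg' (hμ : Lim ν μ) (hA : IsApprox ν) (n : ℕ) (hn : 1 ≤ n) (F : RepData n → ℝ)
    (h : (ℕ → ℝ) → ℝ) (hF : Measurable F) (hh : Measurable h) (hFb : ∀ z, |F z| ≤ 1)
    (hhb : ∀ z, |h z| ≤ 1) :
    (n : ℝ) * ∫ ω, F (repData n ω) * h (kvec 0 n ω) ∂μ =
      (∫ ω, F (repData n ω) ∂μ) * (∫ ω, h (kvec 0 1 ω) ∂μ) +
        ∑ l ∈ Finset.Ico 1 n, ∫ ω, F (repData n ω) * h (kvec 0 l ω) ∂μ := by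
  have := hμ.prob
  have hFm : Measurable fun ω => F (repData n ω) := hF.comp (measurable_repData n)
  have hFi : ∀ {f : Arr → ℝ}, Measurable f → ∀ {D : ℝ}, (∀ᵐ ω ∂μ, |f ω| ≤ D) →
      Integrable (fun ω => F (repData n ω) * f ω) μ := fun hf D hD =>
    (Integrable.of_bound hf.aestronglyMeasurable D (hD.mono fun ω h =>
      (Real.norm_eq_abs _).trans_le h)).bdd_mul (c := 1) hFm.aestronglyMeasurable
      (Eventually.of_forall fun ω => (Real.norm_eq_abs _).trans_le (hFb _))
  -- monomial test functions on both sides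
  have hmono : ∀ w : List ℕ,
      (n : ℝ) * ∫ ω, F (repData n ω) * kMono w 0 n ω ∂μ =
        (∫ ω, F (repData n ω) ∂μ) * (∫ ω, kMono w 0 1 ω ∂μ) +
          ∑ l ∈ Finset.Ico 1 n, ∫ ω, F (repData n ω) * kMono w 0 l ω ∂μ := by
    intro w
    set c := ∫ ω, kMono w 0 1 ω ∂μ
    let G : Arr → ℝ := fun ω =>
      (n : ℝ) * kMono w 0 n ω - (c + ∑ l ∈ Finset.Ico 1 n, kMono w 0 l ω)
    have hG : Continuous G := ((continuous_kMono w 0 n).const_mul _).sub
      (continuous_const.add (continuous_finsetSum _ fun l _ => continuous_kMono w 0 l))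
    have hlin : ∀ f : Arr → ℝ, Integrable f μ → (∀ l, Integrable (fun ω => f ω * kMono w 0 l ω) μ) →
        ∫ ω, f ω * G ω ∂μ = (n : ℝ) * ∫ ω, f ω * kMono w 0 n ω ∂μ -
          ((∫ ω, f ω ∂μ) * c + ∑ l ∈ Finset.Ico 1 n, ∫ ω, f ω * kMono w 0 l ω ∂μ) := by
      intro f hf hfk
      have e : ∀ ω, f ω * G ω = (n : ℝ) * (f ω * kMono w 0 n ω) -
          (f ω * c + ∑ l ∈ Finset.Ico 1 n, f ω * kMono w 0 l ω) := fun ω => by
        simp only [G, mul_sub, mul_add, Finset.mul_sum]
        ring
      have i1 : Integrable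
          (fun ω => f ω * c + ∑ l ∈ Finset.Ico 1 n, f ω * kMono w 0 l ω) μ :=
        (hf.mul_const c).fun_add (integrable_finsetSum _ fun l _ => hfk l)
      rw [integral_congr_ae (Eventually.of_forall e),
        integral_sub ((hfk n).const_mul _) i1,
        integral_add (hf.mul_const c) (integrable_finsetSum _ fun l _ => hfk l),
        integral_const_mul, integral_mul_const, integral_finsetSum _ fun l _ => hfk l]
    obtain ⟨D, hD⟩ := exists_bound hG
    have h0 := ext_repData (n := n) hμ.bdd hG.measurable (hμ.bdd.mono fun ω hω => hD ω hω)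
      (fun F' => ?_) hF hFb
    · have hi0 : Integrable (fun ω => F (repData n ω)) μ :=
        Integrable.of_bound hFm.aestronglyMeasurable 1
          (Eventually.of_forall fun ω => (Real.norm_eq_abs _).trans_le (hFb _))
      rw [hlin _ hi0 fun l => hFi (continuous_kMono w 0 l).measurable
          (hμ.bdd.mono fun ω hω => abs_kMono_le w 0 l hω)] at h0
      linarith
    · rw [hlin _ (integrable_cont hμ.bdd (continuous_repMono F'))
        fun l => integrable_cont hμ.bdd ((continuous_repMono F').mul (continuous_kMono w 0 l))]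
      refine tendsto_nhds_unique ?_ (hA.gg n hn F' w)
      have hc : ∀ l, Continuous fun ω => repMono F' ω * kMono w 0 l ω := fun l =>
        (continuous_repMono F').mul (continuous_kMono w 0 l)
      exact ((hμ.tendsto _ (hc n)).const_mul _).sub
        (((hμ.tendsto _ (continuous_repMono F')).mul (hμ.tendsto _ (continuous_kMono w 0 1))).add
          (tendsto_finsetSum _ fun l _ => hμ.tendsto _ (hc l)))
  -- extension in the kernel vector
  set S := Finset.Ico 1 n
  let P : Option (Option S) → Arr → ℕ → ℝ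
    | none => kvec 0 n
    | some none => kvec 0 1
    | some (some l) => kvec 0 l.1
  let g : Option (Option S) → Arr → ℝ
    | none => fun ω => (n : ℝ) * F (repData n ω)
    | some none => fun _ => -∫ ω, F (repData n ω) ∂μ
    | some (some _) => fun ω => -F (repData n ω)
  have hI : |∫ ω, F (repData n ω) ∂μ| ≤ 1 := by
    simpa using norm_integral_le_of_norm_le_const (μ := μ) (C := 1)
      (Eventually.of_forall fun ω => (Real.norm_eq_abs _).trans_le (hFb (repData n ω)))
  have hn1 : (1 : ℝ) ≤ n := by exact_mod_cast hn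
  have key : ∀ φ : (ℕ → ℝ) → ℝ,
      ∑ i, ∫ ω, φ (P i ω) * g i ω ∂μ = (n : ℝ) * ∫ ω, F (repData n ω) * φ (kvec 0 n ω) ∂μ -
        ((∫ ω, F (repData n ω) ∂μ) * (∫ ω, φ (kvec 0 1 ω) ∂μ) +
          ∑ l ∈ S, ∫ ω, F (repData n ω) * φ (kvec 0 l ω) ∂μ) := by
    intro φ
    rw [Fintype.sum_option, Fintype.sum_option, ← Finset.sum_coe_sort S]
    simp only [P, g, mul_neg, integral_neg, Finset.sum_neg_distrib, integral_mul_const,
      ← mul_assoc, mul_comm (φ _) (n : ℝ)]
    simp only [mul_assoc, integral_const_mul]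
    simp only [mul_comm (φ _)]
    ring
  have h0 := ext_moments (μ := μ) P g
    (by rintro (_ | _ | l) <;> exact measurable_kvec _ _)
    (by rintro (_ | _ | l) <;> exact hμ.bdd.mono fun ω hω k => hω k _ _)
    (by
      rintro (_ | _ | l)
      · exact hFm.const_mul _
      · exact measurable_const
      · exact hFm.neg)
    n
    (by
      rintro (_ | _ | l) <;> refine Eventually.of_forall fun ω => ?_
      · simpa [g, abs_mul] using mul_le_of_le_one_right (Nat.cast_nonneg n) (hFb (repData n ω))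
      · simpa [g] using hI.trans hn1
      · simpa [g] using (hFb (repData n ω)).trans hn1)
    (fun c => by
      rw [key fun y => (c.map y).prod]
      exact sub_eq_zero.2 (hmono c))
    h hh hhb
  rw [key h] at h0
  linarith

/-- The `J`-th term of the gadget series, with values `V`. -/
def jterm (Γ : Gadget) (J n : ℕ) (V : (Fin J → Fin Γ.1) → (Fin J → ℕ) → Arr → ℝ)
    (ω : Arr) : ℝ :=
  ((J.factorial : ℝ))⁻¹ *
    ∑ a : Fin J → Fin Γ.1, (∏ i, Γ.tilt (a i)) * ins J n (fun g => V a g ω)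

lemma sum_abs_tilt_le (Γ : Gadget) : ∑ a, |Γ.tilt a| ≤ 1 / 8 := by
  by_cases h : ∑ i, |Γ.2.2 i| ≤ 1 / 8
  · simp only [Gadget.tilt, if_pos h]
    calc ∑ a, |((Γ.2.2 a : ℚ) : ℝ)| = ((∑ a, |Γ.2.2 a| : ℚ) : ℝ) := by push_cast; rfl
      _ ≤ ((1 / 8 : ℚ) : ℝ) := Rat.cast_le.2 h
      _ = 1 / 8 := by norm_num
  · simp only [Gadget.tilt, if_neg h]
    simp

/-- The majorant of the gadget series. -/
def dbound (n J : ℕ) : ℝ :=
  (2 : ℝ) ^ J * (n.ascFactorial J : ℝ) * (1 / 8) ^ J / (J.factorial : ℝ)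

lemma abs_jterm_le (Γ : Gadget) (J n : ℕ) {V : (Fin J → Fin Γ.1) → (Fin J → ℕ) → Arr → ℝ}
    (ω : Arr) (h : ∀ a g, |V a g ω| ≤ 1) : |jterm Γ J n V ω| ≤ dbound n J := by
  rw [jterm, abs_mul, abs_inv, Nat.abs_cast, dbound, div_eq_inv_mul]
  refine mul_le_mul_of_nonneg_left ?_ (by positivity)
  calc |∑ a : Fin J → Fin Γ.1, (∏ i, Γ.tilt (a i)) * ins J n (fun g => V a g ω)|
      ≤ ∑ a : Fin J → Fin Γ.1, (∏ i, |Γ.tilt (a i)|) * ((2 : ℝ) ^ J * (n.ascFactorial J : ℝ)) := by
        refine (Finset.abs_sum_le_sum_abs _ _).trans (Finset.sum_le_sum fun a _ => ?_)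
        rw [abs_mul, Finset.abs_prod]
        refine mul_le_mul_of_nonneg_left ?_ (Finset.prod_nonneg fun i _ => abs_nonneg _)
        simpa using abs_ins_le J n (fun g => V a g ω) 1 (h a)
    _ = (∑ x, |Γ.tilt x|) ^ J * ((2 : ℝ) ^ J * (n.ascFactorial J : ℝ)) := by
        rw [← Finset.sum_mul, Fintype.sum_pow]
    _ ≤ (1 / 8) ^ J * ((2 : ℝ) ^ J * (n.ascFactorial J : ℝ)) := by
        exact mul_le_mul_of_nonneg_right (pow_le_pow_left₀
          (Finset.sum_nonneg fun (x : Fin Γ.1) _ => abs_nonneg (Γ.tilt x)) (sum_abs_tilt_le Γ) J)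
          (by positivity)
    _ = _ := by ring

lemma measurable_ins : ∀ (J n : ℕ) {G : (Fin J → ℕ) → Arr → ℝ}, (∀ g, Measurable (G g)) →
    Measurable fun ω => ins J n fun g => G g ω
  | 0, _, _, hG => hG _
  | J + 1, n, G, hG => by
    simp only [ins]
    exact (Finset.measurable_sum _ fun q _ => measurable_ins J n fun g => hG _).sub
      ((measurable_ins J (n + 1) fun g => hG _).const_mul _)

lemma continuous_ins : ∀ (J n : ℕ) {G : (Fin J → ℕ) → Arr → ℝ}, (∀ g, Continuous (G g)) →
    Continuous fun ω => ins J n fun g => G g ω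
  | 0, _, _, hG => hG _
  | J + 1, n, G, hG => by
    simp only [ins]
    exact (continuous_finsetSum _ fun q _ => continuous_ins J n fun g => hG _).sub
      ((continuous_ins J (n + 1) fun g => hG _).const_mul _)

lemma integral_mul_ins (f : Arr → ℝ) : ∀ (J n : ℕ) (G : (Fin J → ℕ) → Arr → ℝ),
    (∀ g, Integrable (fun ω => f ω * G g ω) μ) →
      Integrable (fun ω => f ω * ins J n (fun g => G g ω)) μ ∧
        ∫ ω, f ω * ins J n (fun g => G g ω) ∂μ = ins J n fun g => ∫ ω, f ω * G g ω ∂μ
  | 0, _, _, hG => ⟨hG _, rfl⟩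
  | J + 1, n, G, hG => by
    have h1 := fun q => integral_mul_ins f J n (fun g => G (Fin.cons q g)) fun g => hG _
    have h2 := integral_mul_ins f J (n + 1) (fun g => G (Fin.cons n g)) fun g => hG _
    have e : ∀ ω, f ω * ins (J + 1) n (fun g => G g ω) =
        (∑ q ∈ Finset.range n, f ω * ins J n fun g => G (Fin.cons q g) ω) -
          (n : ℝ) * (f ω * ins J (n + 1) fun g => G (Fin.cons n g) ω) := fun ω => by
      simp only [ins, mul_sub, Finset.mul_sum]
      ring
    refine ⟨((integrable_finsetSum _ fun q _ => (h1 q).1).sub (h2.1.const_mul _)).congr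
      (Eventually.of_forall fun ω => (e ω).symm), ?_⟩
    rw [integral_congr_ae (Eventually.of_forall e),
      integral_sub (integrable_finsetSum _ fun q _ => (h1 q).1) (h2.1.const_mul _),
      integral_finsetSum _ fun q _ => (h1 q).1, integral_const_mul, h2.2]
    simp only [ins, (h1 _).2]

lemma integral_jterm (f : Arr → ℝ) (Γ : Gadget) (J n : ℕ)
    (V : (Fin J → Fin Γ.1) → (Fin J → ℕ) → Arr → ℝ)
    (hV : ∀ a g, Integrable (fun ω => f ω * V a g ω) μ) :
    ∫ ω, f ω * jterm Γ J n V ω ∂μ = ((J.factorial : ℝ))⁻¹ *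
      ∑ a : Fin J → Fin Γ.1, (∏ i, Γ.tilt (a i)) *
        ins J n (fun g => ∫ ω, f ω * V a g ω ∂μ) := by
  simp only [jterm, Finset.mul_sum, mul_left_comm (f _)]
  rw [integral_finsetSum _ fun a _ =>
    (((integral_mul_ins f J n _ (hV a)).1.const_mul _).const_mul _)]
  simp only [integral_const_mul, (integral_mul_ins f J n _ (hV _)).2]

lemma abs_listProd_rset_le {α : Type*} (L : List α) (r : α → List ℕ) (ω : Arr) :
    |(L.map fun e => rset (r e) ω).prod| ≤ 1 :=
  abs_listProd_le _ _ fun _ _ => abs_rset_le _ _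

lemma abs_avg_le (c : Bool → Bool → ℝ) (h : ∀ u v, |c u v| ≤ 1) (s : Bool) :
    |(1 / 4 : ℝ) * ∑ u : Bool, ∑ v : Bool,
      (if u then spin s else 1) * (if v then spin s else 1) * c u v| ≤ 1 := by
  have h1 : ∀ u v, |(if u then spin s else 1) * (if v then spin s else 1) * c u v| ≤ 1 := by
    intro u v
    rw [abs_mul, abs_mul]
    cases u <;> cases v <;> simpa [abs_spin] using h _ _
  rw [abs_mul, abs_of_nonneg (by norm_num : (0 : ℝ) ≤ 1 / 4)]
  calc (1 / 4 : ℝ) * |∑ u : Bool, ∑ v : Bool,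
        (if u then spin s else 1) * (if v then spin s else 1) * c u v|
      ≤ (1 / 4 : ℝ) * ∑ _u : Bool, ∑ _v : Bool, (1 : ℝ) := by
        refine mul_le_mul_of_nonneg_left ((Finset.abs_sum_le_sum_abs _ _).trans
          (Finset.sum_le_sum fun u _ => (Finset.abs_sum_le_sum_abs _ _).trans
            (Finset.sum_le_sum fun v _ => h1 u v))) (by norm_num)
    _ = 1 := by norm_num

lemma abs_gadgetValue_le (Γ : Gadget) (s : Bool) {J : ℕ} (a : Fin J → Fin Γ.1) (l l' : ℕ)
    (g : Fin J → ℕ) (ω : Arr) : |gadgetValue Γ s a l l' g ω| ≤ 1 :=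
  abs_avg_le _ (fun _ _ => abs_listProd_rset_le _ _ _) s

lemma abs_freshValue_le (Γ : Gadget) (s : Bool) {J : ℕ} (a : Fin J → Fin Γ.1) (l l' q : ℕ)
    (g : Fin J → ℕ) (ω : Arr) : |freshValue Γ s a l l' q g ω| ≤ 1 :=
  abs_avg_le _ (fun _ _ => by simp [Finset.abs_prod, abs_spinProd]) s

lemma measurable_gadgetValue (Γ : Gadget) (s : Bool) {J : ℕ} (a : Fin J → Fin Γ.1) (l l' : ℕ)
    (g : Fin J → ℕ) : Measurable (gadgetValue Γ s a l l' g) := by
  have h : ∀ (L : List (Finset (Fin Γ.1) × Bool × Bool)) (u v : Bool),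
      Measurable fun ω => (L.map fun e => rset (edgeReps e a l l' u v g) ω).prod := by
    intro L u v
    induction L with
    | nil => exact measurable_const
    | cons e L ih => exact (measurable_rset _).mul ih
  unfold gadgetValue
  exact (Finset.measurable_sum _ fun u _ => Finset.measurable_sum _ fun v _ =>
    (h _ u v).const_mul _).const_mul _

lemma continuous_freshValue (Γ : Gadget) (s : Bool) {J : ℕ} (a : Fin J → Fin Γ.1) (l l' q : ℕ)
    (g : Fin J → ℕ) : Continuous (freshValue Γ s a l l' q g) :=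
  (continuous_finsetSum _ fun _ _ => continuous_finsetSum _ fun _ _ =>
    (continuous_finsetProd _ fun _ _ => continuous_spinProd _ _).const_mul _).const_mul _

lemma listProd_edgeAt (Γ : Gadget) (f : Finset (Fin Γ.1) × Bool × Bool → ℝ) :
    (Γ.2.1.map f).prod = ∏ i : Fin Γ.2.1.length, f (edgeAt Γ i) := by
  rw [← List.ofFn_getElem_eq_map Γ.2.1 f, List.prod_ofFn]
  refine Finset.prod_congr rfl fun i _ => ?_
  simp [edgeAt]

/-- The fresh-site value of a gadget integrates like its overlap value. -/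
lemma Lim.fresh_gadget (hμ : Lim ν μ) (hA : IsApprox ν) (Γ : Gadget) (s : Bool) {J : ℕ}
    (a : Fin J → Fin Γ.1) (l l' q : ℕ) (g : Fin J → ℕ) {G : Arr → ℝ} (hG : Measurable G)
    (hGb : ∀ᵐ ω ∂μ, |G ω| ≤ 1) (hinv : SwapInv q G) :
    ∫ ω, G ω * freshValue Γ s a l l' q g ω ∂μ =
      ∫ ω, G ω * gadgetValue Γ s a l l' g ω ∂μ := by
  have := hμ.prob
  have hi : ∀ {f : Arr → ℝ}, Measurable f → (∀ ω, |f ω| ≤ 1) →
      Integrable (fun ω => G ω * f ω) μ := fun hf hfb =>
    Integrable.of_bound (hG.fun_mul hf).aestronglyMeasurable 1 (hGb.mono fun ω h => by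
      rw [Real.norm_eq_abs, abs_mul]
      exact mul_le_one₀ h (abs_nonneg _) (hfb ω))
  simp only [freshValue, gadgetValue, listProd_edgeAt, Finset.mul_sum, mul_left_comm (G _)]
  rw [integral_finsetSum _ fun u _ => integrable_finsetSum _ fun v _ =>
      ((hi (Finset.measurable_prod _ fun i _ => measurable_spinProd _ _)
        fun ω => by simp [Finset.abs_prod, abs_spinProd]).const_mul _).const_mul _,
    integral_finsetSum _ fun u _ => integrable_finsetSum _ fun v _ =>
      ((hi (Finset.measurable_prod _ fun i _ => measurable_rset _)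
        fun ω => by
          rw [Finset.abs_prod]
          exact Finset.prod_le_one (fun i _ => abs_nonneg _) fun i _ => abs_rset_le _ _).const_mul
            _).const_mul _]
  refine Finset.sum_congr rfl fun u _ => ?_
  rw [integral_finsetSum _ fun v _ =>
      ((hi (Finset.measurable_prod _ fun i _ => measurable_spinProd _ _)
        fun ω => by simp [Finset.abs_prod, abs_spinProd]).const_mul _).const_mul _,
    integral_finsetSum _ fun v _ =>
      ((hi (Finset.measurable_prod _ fun i _ => measurable_rset _)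
        fun ω => by
          rw [Finset.abs_prod]
          exact Finset.prod_le_one (fun i _ => abs_nonneg _) fun i _ => abs_rset_le _ _).const_mul
            _).const_mul _]
  refine Finset.sum_congr rfl fun v _ => ?_
  simp only [integral_const_mul]
  rw [hμ.fresh_prod hA (fun i => edgeReps (edgeAt Γ i) a l l' u v g) hG hGb hinv]

lemma Lim.gadget' (hμ : Lim ν μ) (hA : IsApprox ν) (Γ : Gadget) (s : Bool) (n l l' : ℕ)
    (hl : l < n) (hl' : l' < n) (F : RepData n → ℝ) (hF : Measurable F)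
    (hFb : ∀ z, |F z| ≤ 1) :
    HasSum (fun J : ℕ => ((J.factorial : ℝ))⁻¹ * ∑ a : Fin J → Fin Γ.1, (∏ i, Γ.tilt (a i)) *
        ∫ ω, F (repData n ω) * ins J n (fun g => gadgetValue Γ s a l l' g ω) ∂μ)
      (∫ ω, F (repData n ω) * ω.2 (kidx Γ s) l l' ∂μ) := by
  have := hμ.prob
  let V : ∀ J, (Fin J → Fin Γ.1) → (Fin J → ℕ) → Arr → ℝ := fun J a g =>
    gadgetValue Γ s a l l' g
  have hVb : ∀ J a g ω, |V J a g ω| ≤ 1 := fun J a g ω => abs_gadgetValue_le Γ s a l l' g ω
  set T : ℕ → Arr → ℝ := fun J => jterm Γ J n (V J) with hT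
  have hTm : ∀ J, Measurable (T J) := fun J =>
    (Finset.measurable_sum _ fun a _ => (measurable_ins J n fun g =>
      measurable_gadgetValue Γ s a l l' g).const_mul _).const_mul _
  have hTb : ∀ J ω, |T J ω| ≤ dbound n J := fun J ω => abs_jterm_le Γ J n ω fun a g => hVb J a g ω
  have hsum : Summable (dbound n) := summable_dbound n
  have hTs : ∀ ω, Summable fun J => T J ω := fun ω =>
    Summable.of_norm_bounded hsum fun J => (Real.norm_eq_abs _).trans_le (hTb J ω)
  set W : Arr → ℝ := fun ω => ∑' J, T J ω with hW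
  have hWm : Measurable W := measurable_of_tendsto_metrizable
    (fun N => Finset.measurable_sum (Finset.range N) fun J _ => hTm J)
    (tendsto_pi_nhds.2 fun ω => (hTs ω).hasSum.tendsto_sum_nat)
  have hWb : ∀ ω, |W ω| ≤ ∑' J, dbound n J := fun ω => (Real.norm_eq_abs _).symm.trans_le
    (tsum_of_norm_bounded hsum.hasSum fun J => (Real.norm_eq_abs _).trans_le (hTb J ω))
  -- the series of integrals
  have hser : ∀ f : Arr → ℝ, Measurable f → (∀ᵐ ω ∂μ, |f ω| ≤ 1) →
      HasSum (fun J => ∫ ω, f ω * T J ω ∂μ) (∫ ω, f ω * W ω ∂μ) := by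
    intro f hf hfb
    refine hasSum_integral_of_dominated_convergence (fun J _ => dbound n J)
      (fun J => (hf.fun_mul (hTm J)).aestronglyMeasurable) (fun J => hfb.mono fun ω h => ?_)
      (Eventually.of_forall fun _ => hsum) (integrable_const _)
      (Eventually.of_forall fun ω => (hTs ω).hasSum.mul_left (f ω))
    rw [Real.norm_eq_abs, abs_mul]
    exact (mul_le_of_le_one_left (abs_nonneg _) h).trans (hTb J ω)
  have hint : ∀ f : Arr → ℝ, Measurable f → (∀ᵐ ω ∂μ, |f ω| ≤ 1) → ∀ J a g,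
      Integrable (fun ω => f ω * V J a g ω) μ := fun f hf hfb J a g =>
    Integrable.of_bound (hf.fun_mul (measurable_gadgetValue Γ s a l l' g)).aestronglyMeasurable 1
      (hfb.mono fun ω h => by
        rw [Real.norm_eq_abs, abs_mul]
        exact mul_le_one₀ h (abs_nonneg _) (hVb J a g ω))
  have hterm : ∀ f : Arr → ℝ, Measurable f → (∀ᵐ ω ∂μ, |f ω| ≤ 1) → ∀ J,
      ∫ ω, f ω * T J ω ∂μ = ((J.factorial : ℝ))⁻¹ * ∑ a : Fin J → Fin Γ.1,
        (∏ i, Γ.tilt (a i)) * ∫ ω, f ω * ins J n (fun g => V J a g ω) ∂μ := by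
    intro f hf hfb J
    rw [hT, integral_jterm f Γ J n (V J) (hint f hf hfb J)]
    simp only [(integral_mul_ins f J n _ (hint f hf hfb J _)).2]
  -- monomials
  have hmono : ∀ F' : List (Coord n),
      ∫ ω, repMono F' ω * (ω.2 (kidx Γ s) l l' - W ω) ∂μ = 0 := by
    intro F'
    obtain ⟨q, hq⟩ := exists_sitesBelow F'
    have hmm : Measurable (repMono F') := (continuous_repMono F').measurable
    have hmb : ∀ᵐ ω ∂μ, |repMono F' ω| ≤ 1 := hμ.bdd.mono fun ω h => abs_repMono_le F' h
    let U : ∀ J, (Fin J → Fin Γ.1) → (Fin J → ℕ) → Arr → ℝ := fun J a g =>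
      freshValue Γ s a l l' q g
    have hUc : ∀ J, Continuous fun ω => repMono F' ω * jterm Γ J n (U J) ω := fun J =>
      (continuous_repMono F').mul ((continuous_finsetSum _ fun a _ => (continuous_ins J n
        fun g => continuous_freshValue Γ s a l l' q g).const_mul _).const_mul _)
    have hUi : ∀ (m : Measure Arr) [IsFiniteMeasure m], (∀ᵐ ω ∂m, Bdd ω) → ∀ J a g,
        Integrable (fun ω => repMono F' ω * U J a g ω) m := fun m _ hb J a g =>
      integrable_cont hb ((continuous_repMono F').mul (continuous_freshValue Γ s a l l' q g))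
    have heq : ∀ j, (∑' J : ℕ, ((J.factorial : ℝ))⁻¹ * ∑ a : Fin J → Fin Γ.1,
        (∏ i, Γ.tilt (a i)) * ∫ ω, repMono F' ω *
          ins J n (fun g => freshValue Γ s a l l' q g ω) ∂ν j) =
        ∑' J : ℕ, ∫ ω, repMono F' ω * jterm Γ J n (U J) ω ∂ν j := fun j => by
      have := hA.prob j
      refine tsum_congr fun J => ?_
      rw [integral_jterm _ Γ J n (U J) (hUi _ (bdd_of_isApprox hA j) J)]
      simp only [← (integral_mul_ins _ J n _ (hUi _ (bdd_of_isApprox hA j) J _)).2]
      rfl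
    have hlim : Tendsto (fun j => ∑' J : ℕ, ∫ ω, repMono F' ω * jterm Γ J n (U J) ω ∂ν j) atTop
        (nhds (∑' J : ℕ, ∫ ω, repMono F' ω * jterm Γ J n (U J) ω ∂μ)) := by
      refine tendsto_tsum_of_dominated_convergence hsum (fun J => hμ.tendsto _ (hUc J))
        (Eventually.of_forall fun j J => ?_)
      have := hA.prob j
      refine (norm_integral_le_of_norm_le_const (C := dbound n J)
        ((bdd_of_isApprox hA j).mono fun ω h => ?_)).trans (by simp)
      rw [Real.norm_eq_abs, abs_mul]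
      exact (mul_le_of_le_one_left (abs_nonneg _) (abs_repMono_le F' h)).trans
        (abs_jterm_le Γ J n ω fun a g => abs_freshValue_le Γ s a l l' q g ω)
    have hk := hA.gadget Γ s n q l l' F' hq hl hl'
    simp only [heq] at hk
    have hkc : Continuous fun ω => repMono F' ω * ω.2 (kidx Γ s) l l' :=
      (continuous_repMono F').mul (continuous_kernel _ _ _)
    have e1 : ∫ ω, repMono F' ω * ω.2 (kidx Γ s) l l' ∂μ =
        ∑' J : ℕ, ∫ ω, repMono F' ω * jterm Γ J n (U J) ω ∂μ :=
      sub_eq_zero.1 (tendsto_nhds_unique ((hμ.tendsto _ hkc).sub hlim) hk)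
    have e2 : ∀ J, ∫ ω, repMono F' ω * jterm Γ J n (U J) ω ∂μ =
        ∫ ω, repMono F' ω * T J ω ∂μ := by
      intro J
      rw [hT, integral_jterm _ Γ J n (U J) (hUi μ hμ.bdd J),
        integral_jterm _ Γ J n (V J) (hint _ hmm hmb J)]
      simp only [U, V, hμ.fresh_gadget hA Γ s _ l l' q _ hmm hmb (swapInv_repMono hq)]
    rw [tsum_congr e2, (hser _ hmm hmb).tsum_eq] at e1
    have hiW : Integrable (fun ω => repMono F' ω * W ω) μ :=
      (Integrable.of_bound hWm.aestronglyMeasurable _ (Eventually.of_forall fun ω =>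
        (Real.norm_eq_abs _).trans_le (hWb ω))).bdd_mul (c := 1) hmm.aestronglyMeasurable
        (hmb.mono fun ω h => (Real.norm_eq_abs _).trans_le h)
    simp only [mul_sub]
    rw [integral_sub (integrable_cont hμ.bdd hkc) hiW, e1, sub_self]
  have h0 := ext_repData (n := n) hμ.bdd ((measurable_kernel _ _ _).sub hWm)
    (C := 1 + ∑' J, dbound n J) (hμ.bdd.mono fun ω h =>
      (abs_sub _ _).trans (add_le_add (h _ _ _) (hWb ω))) hmono hF hFb
  have hFm : Measurable fun ω => F (repData n ω) := hF.comp (measurable_repData n)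
  have hFa : ∀ᵐ ω ∂μ, |F (repData n ω)| ≤ 1 := Eventually.of_forall fun ω => hFb _
  have e3 : ∫ ω, F (repData n ω) * ω.2 (kidx Γ s) l l' ∂μ =
      ∫ ω, F (repData n ω) * W ω ∂μ := by
    have hi : ∀ {f : Arr → ℝ}, Measurable f → ∀ D, (∀ᵐ ω ∂μ, |f ω| ≤ D) →
        Integrable (fun ω => F (repData n ω) * f ω) μ := fun hf D hD =>
      (Integrable.of_bound hf.aestronglyMeasurable D (hD.mono fun ω h =>
        (Real.norm_eq_abs _).trans_le h)).bdd_mul (c := 1) hFm.aestronglyMeasurable
        (Eventually.of_forall fun ω => (Real.norm_eq_abs _).trans_le (hFb _))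
    simp only [Pi.sub_apply, mul_sub] at h0
    rw [integral_sub (hi (measurable_kernel _ _ _) 1 (hμ.bound' _ _ _))
      (hi hWm _ (Eventually.of_forall hWb))] at h0
    linarith
  rw [e3]
  exact (hser _ hFm hFa).congr_fun fun J => ((hterm _ hFm hFa J).symm)

lemma Lim.isGadgetArray (hμ : Lim ν μ) (hA : IsApprox ν) : IsGadgetArray μ where
  prob := hμ.prob
  exch_rep π := hμ.map_eq (continuous_permRep π) fun j => hA.exch_rep j π
  exch_site π := hμ.exch_site hA π
  symm := hμ.symm' hA
  bound := hμ.bound'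
  diag := hμ.diag'
  psd := hμ.psd' hA
  overlap_zero := hμ.overlap_zero' hA
  magnetisation := hμ.magnetisation' hA
  gg := hμ.gg' hA
  unused := hμ.unused' hA
  gadget := hμ.gadget' hA

end ArrLim

open ArrLim in
/-- Compactness: a limit point of an approximating sequence is a gadget array. -/
theorem array_limit_stmt : ArrayLimitStmt := by
  intro ν hν
  obtain ⟨φ, μ, hφ, hμ⟩ := exists_lim hν
  refine ⟨μ, φ, hφ, hμ.isGadgetArray (isApprox_comp hν hφ), fun M n A => ?_⟩
  exact hμ.tendsto (fun ω => ∏ i : Fin M, ∏ l ∈ A i, spin (ω.1 l i))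
    (continuous_finsetProd _ fun i _ => continuous_finsetProd _ fun l _ =>
      continuous_spin_at _ _)

end Vale.Agent.P168.Limit
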