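import Vale.Agent.P168.Limit.Parts
import Vale.Agent.P168.Limit.GibbsLemmas
import Vale.Agent.P168.Tree.Sites

/-! Limit points of sequences of array laws with kernels bounded by one. -/

open MeasureTheory ProbabilityTheory Filter
open scoped BigOperators NNReal ENNReal Topology

noncomputable section

namespace Vale.Agent.P168.Limit.ArrLim

open Vale.Agent.P168.Tree (measurable_kernel measurable_repData measurable_spinProd
  measurable_permSite measurable_permRep integrable_of_abs_le abs_spinProd siteAvg
  measurable_siteAvg abs_siteAvg_le spinProd_permSite)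

/-- All kernels are bounded by one. -/
def Bdd (ω : Arr) : Prop := ∀ g a b, |ω.2 g a b| ≤ 1

/-- Arrays with kernels in `[-1, 1]`. -/
abbrev CArr := (ℕ → ℕ → Bool) × (ℕ → ℕ → ℕ → Set.Icc (-1 : ℝ) 1)

instance : BorelSpace CArr := Prod.borelSpace

instance : BorelSpace Arr := Prod.borelSpace

instance : TopologicalSpace.PseudoMetrizableSpace (ProbabilityMeasure CArr) :=
  @instPseudoMetrizableSpaceProbabilityMeasureOfSeparableSpace CArr _ inferInstance inferInstance _
    inferInstance

/-- Truncation of the kernels. -/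
def toC (ω : Arr) : CArr :=
  (ω.1, fun g a b => Set.projIcc (-1) 1 (by norm_num) (ω.2 g a b))

/-- Forgetting that the kernels are bounded. -/
def ofC (x : CArr) : Arr := (x.1, fun g a b => (x.2 g a b : ℝ))

lemma continuous_ofC : Continuous ofC :=
  continuous_fst.prodMk <| continuous_pi fun g => continuous_pi fun a => continuous_pi fun b =>
    continuous_subtype_val.comp <| (continuous_apply b).comp <| (continuous_apply a).comp <|
      (continuous_apply g).comp continuous_snd

lemma measurable_ofC : Measurable ofC :=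
  measurable_fst.prodMk <| measurable_pi_lambda _ fun g => measurable_pi_lambda _ fun a =>
    measurable_pi_lambda _ fun b => measurable_subtype_coe.comp <| (measurable_pi_apply b).comp <|
      (measurable_pi_apply a).comp <| (measurable_pi_apply g).comp measurable_snd

lemma measurable_toC : Measurable toC :=
  measurable_fst.prodMk <| measurable_pi_lambda _ fun g => measurable_pi_lambda _ fun a =>
    measurable_pi_lambda _ fun b => continuous_projIcc.measurable.comp (measurable_kernel g a b)

lemma bdd_ofC (x : CArr) : Bdd (ofC x) := fun g a b => abs_le.2 (x.2 g a b).2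

lemma ofC_toC {ω : Arr} (h : Bdd ω) : ofC (toC ω) = ω := by
  refine Prod.ext rfl ?_
  funext g a b
  simp only [ofC, toC, Set.projIcc_of_mem _ (show ω.2 g a b ∈ Set.Icc (-1 : ℝ) 1 from
    abs_le.1 (h g a b))]

lemma continuous_kernel (g a b : ℕ) : Continuous fun ω : Arr => ω.2 g a b :=
  (continuous_apply b).comp <| (continuous_apply a).comp <|
    (continuous_apply g).comp continuous_snd

lemma continuous_spin_at (l i : ℕ) : Continuous fun ω : Arr => spin (ω.1 l i) :=
  (continuous_of_discreteTopology (f := spin)).comp <|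
    (continuous_apply i).comp <| (continuous_apply l).comp continuous_fst

lemma continuous_spinProd (L : List ℕ) (i : ℕ) : Continuous (spinProd L i) := by
  induction L with
  | nil => exact continuous_const
  | cons a L ih => exact (continuous_spin_at a i).mul ih

lemma continuous_siteAvg (L : List ℕ) (N : ℕ) : Continuous (siteAvg L N) :=
  (continuous_finsetSum _ fun i _ => continuous_spinProd L i).div_const _

lemma continuous_kMono (w : List ℕ) (a b : ℕ) : Continuous (kMono w a b) := by
  induction w with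
  | nil => exact continuous_const
  | cons g w ih => exact (continuous_kernel g a b).mul ih

lemma continuous_coord {n : ℕ} (c : Coord n) :
    Continuous fun ω : Arr => coordVal c (repData n ω) := by
  rcases c with ⟨l, i⟩ | ⟨g, a, b⟩
  · exact continuous_spin_at l i
  · exact continuous_kernel g a b

lemma continuous_repMono {n : ℕ} (F : List (Coord n)) : Continuous (repMono F) := by
  induction F with
  | nil => exact continuous_const
  | cons c F ih => exact (continuous_coord c).mul ih

lemma continuous_permSite (π : Equiv.Perm ℕ) : Continuous (permSite π) :=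
  (continuous_pi fun l => continuous_pi fun i => (continuous_apply (π i)).comp <|
    (continuous_apply l).comp continuous_fst).prodMk continuous_snd

lemma continuous_permRep (π : Equiv.Perm ℕ) : Continuous (permRep π) :=
  (continuous_pi fun l => (continuous_apply (π l)).comp continuous_fst).prodMk <|
    continuous_pi fun g => continuous_pi fun a => continuous_pi fun b =>
      continuous_kernel g (π a) (π b)

lemma abs_spin (s : Bool) : |spin s| = 1 := by cases s <;> simp [spin]

lemma abs_coord_le {n : ℕ} (c : Coord n) {ω : Arr} (h : Bdd ω) :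
    |coordVal c (repData n ω)| ≤ 1 := by
  rcases c with ⟨l, i⟩ | ⟨g, a, b⟩
  · exact (abs_spin _).le
  · exact h g a b

lemma abs_listProd_le {α : Type*} (L : List α) (f : α → ℝ) (h : ∀ c ∈ L, |f c| ≤ 1) :
    |(L.map f).prod| ≤ 1 := by
  induction L with
  | nil => simp
  | cons c L ih =>
    rw [List.map_cons, List.prod_cons, abs_mul]
    exact mul_le_one₀ (h c List.mem_cons_self) (abs_nonneg _)
      (ih fun d hd => h d (List.mem_cons_of_mem _ hd))

lemma abs_repMono_le {n : ℕ} (F : List (Coord n)) {ω : Arr} (h : Bdd ω) : |repMono F ω| ≤ 1 :=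
  abs_listProd_le _ _ fun c _ => abs_coord_le c h

lemma abs_kMono_le (w : List ℕ) (a b : ℕ) {ω : Arr} (h : Bdd ω) : |kMono w a b ω| ≤ 1 :=
  abs_listProd_le _ _ fun g _ => h g a b

lemma exists_bound {f : Arr → ℝ} (hf : Continuous f) : ∃ C, ∀ ω, Bdd ω → |f ω| ≤ C := by
  obtain ⟨C, hC⟩ := (isCompact_univ (X := CArr)).exists_bound_of_continuousOn
    (hf.comp continuous_ofC).continuousOn
  refine ⟨C, fun ω hω => ?_⟩
  have := hC (toC ω) trivial
  rwa [Function.comp_apply, ofC_toC hω, Real.norm_eq_abs] at this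

lemma integrable_cont {μ : Measure Arr} [IsFiniteMeasure μ] (hb : ∀ᵐ ω ∂μ, Bdd ω)
    {f : Arr → ℝ} (hf : Continuous f) : Integrable f μ := by
  obtain ⟨C, hC⟩ := exists_bound hf
  exact Integrable.of_bound hf.measurable.aestronglyMeasurable C
    (hb.mono fun ω hω => (Real.norm_eq_abs _).trans_le (hC ω hω))

lemma bdd_of_isApprox {ν : ℕ → Measure Arr} (h : IsApprox ν) (j : ℕ) :
    ∀ᵐ ω ∂ν j, Bdd ω := by
  simp only [Bdd, ae_all_iff]
  exact fun g a b => h.bound j g a b

lemma isApprox_comp {ν : ℕ → Measure Arr} (h : IsApprox ν) {φ : ℕ → ℕ} (hφ : StrictMono φ) :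
    IsApprox (ν ∘ φ) where
  prob j := h.prob _
  exch_rep j := h.exch_rep _
  exch_site j := h.exch_site _
  symm j := h.symm _
  bound j := h.bound _
  psd j := h.psd _
  unused g hg hk j := h.unused g hg hk _
  site_avg L j := h.site_avg L _
  diag g := by
    obtain ⟨d, hd, hlim⟩ := h.diag g
    exact ⟨d ∘ φ, fun j => hd _, fun a => (hlim a).comp hφ.tendsto_atTop⟩
  magnetisation := by
    obtain ⟨o, ho, hlim⟩ := h.magnetisation
    exact ⟨o ∘ φ, fun j => ho _, fun n F q a hF ha => (hlim n F q a hF ha).comp hφ.tendsto_atTop⟩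
  gg n hn F w := (h.gg n hn F w).comp hφ.tendsto_atTop
  overlap n F q a b hF ha hb := (h.overlap n F q a b hF ha hb).comp hφ.tendsto_atTop
  gadget Γ s n q l l' F hF hl hl' := (h.gadget Γ s n q l l' F hF hl hl').comp hφ.tendsto_atTop

/-- A limit of a sequence of array laws, tested on continuous functions. -/
structure Lim (ν : ℕ → Measure Arr) (μ : Measure Arr) : Prop where
  prob : IsProbabilityMeasure μ
  bdd : ∀ᵐ ω ∂μ, Bdd ω
  tendsto : ∀ f : Arr → ℝ, Continuous f →
    Tendsto (fun j => ∫ ω, f ω ∂ν j) atTop (nhds (∫ ω, f ω ∂μ))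
  diag : ∀ g, ∃ d : ℝ, ∀ a, Tendsto (fun j => ∫ ω, |ω.2 g a a - d| ∂ν j) atTop (nhds 0)
  magnetisation : ∃ o : ℝ, ∀ (n : ℕ) (F : List (Coord n)) (q a : ℕ), SitesBelow F q → a < n →
    Tendsto (fun j => (∫ ω, repMono F ω * spinProd [a] q ω ∂ν j) - o * ∫ ω, repMono F ω ∂ν j)
      atTop (nhds 0)

theorem exists_lim {ν : ℕ → Measure Arr} (h : IsApprox ν) :
    ∃ (φ : ℕ → ℕ) (μ : Measure Arr), StrictMono φ ∧ Lim (ν ∘ φ) μ := by
  choose d hd hdlim using h.diag
  obtain ⟨o, ho, holim⟩ := h.magnetisation
  have := h.prob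
  let ν' : ℕ → ProbabilityMeasure CArr := fun j =>
    ⟨(ν j).map toC, Measure.isProbabilityMeasure_map measurable_toC.aemeasurable⟩
  let x : ℕ → ProbabilityMeasure CArr × (ℕ → Set.Icc (-1 : ℝ) 1) × Set.Icc (-1 : ℝ) 1 := fun j =>
    (ν' j, fun g => ⟨d g j, abs_le.1 (hd g j)⟩, ⟨o j, abs_le.1 (ho j)⟩)
  obtain ⟨⟨μ', dlim, olim⟩, φ, hφ, hlim⟩ := CompactSpace.tendsto_subseq x
  rw [nhds_prod_eq, tendsto_prod_iff'] at hlim
  obtain ⟨hμ, hlim2⟩ := hlim
  rw [nhds_prod_eq, tendsto_prod_iff'] at hlim2
  obtain ⟨hdl, hol⟩ := hlim2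
  have hbddν : ∀ j, ∀ᵐ ω ∂ν j, Bdd ω := bdd_of_isApprox h
  have hprobμ : IsProbabilityMeasure ((μ' : Measure CArr).map ofC) :=
    Measure.isProbabilityMeasure_map measurable_ofC.aemeasurable
  have hbddμ : ∀ᵐ ω ∂(μ' : Measure CArr).map ofC, Bdd ω := by
    simp only [Bdd, ae_all_iff]
    intro g a b
    rw [ae_map_iff measurable_ofC.aemeasurable
      (measurableSet_le (measurable_kernel g a b).abs measurable_const)]
    exact Eventually.of_forall fun x => bdd_ofC x g a b
  have hdl' : ∀ g, Tendsto (fun j => d g (φ j)) atTop (nhds (dlim g : ℝ)) := fun g =>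
    (continuous_subtype_val.tendsto (dlim g)).comp (tendsto_pi_nhds.1 hdl g)
  have hol' : Tendsto (fun j => o (φ j)) atTop (nhds (olim : ℝ)) :=
    (continuous_subtype_val.tendsto olim).comp hol
  refine ⟨φ, (μ' : Measure CArr).map ofC, hφ, hprobμ, hbddμ, fun f hf => ?_, fun g => ?_, ?_⟩
  · let g : BoundedContinuousFunction CArr ℝ :=
      BoundedContinuousFunction.mkOfCompact ⟨fun x => f (ofC x), hf.comp continuous_ofC⟩
    have hmain := (ProbabilityMeasure.tendsto_iff_forall_integral_tendsto.1 hμ) g
    rw [integral_map measurable_ofC.aemeasurable hf.measurable.aestronglyMeasurable]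
    refine hmain.congr fun j => ?_
    show ∫ x, f (ofC x) ∂(ν (φ j)).map toC = ∫ ω, f ω ∂ν (φ j)
    have hfm : Measurable fun x => f (ofC x) := hf.measurable.comp measurable_ofC
    rw [integral_map measurable_toC.aemeasurable hfm.aestronglyMeasurable]
    refine integral_congr_ae ((hbddν (φ j)).mono fun ω hω => ?_)
    simp [ofC_toC hω]
  · refine ⟨(dlim g : ℝ), fun a => ?_⟩
    have h1 : Tendsto (fun j => ∫ ω, |ω.2 g a a - d g (φ j)| ∂ν (φ j) + |d g (φ j) - dlim g|)
        atTop (nhds 0) := by
      have := ((hdlim g a).comp hφ.tendsto_atTop).add ((hdl' g).sub_const (dlim g : ℝ)).abs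
      simpa using this
    refine squeeze_zero (fun j => integral_nonneg fun ω => abs_nonneg _) (fun j => ?_) h1
    have hi : ∀ c : ℝ, Integrable (fun ω : Arr => |ω.2 g a a - c|) (ν (φ j)) := fun c =>
      integrable_cont (hbddν _) ((continuous_kernel g a a).sub continuous_const).abs
    refine (integral_mono (hi _) ((hi _).add (integrable_const |d g (φ j) - dlim g|))
      fun ω => abs_sub_le _ _ _).trans_eq ?_
    simp only [Pi.add_apply]
    rw [integral_add (hi _) (integrable_const _)]
    simp
  · refine ⟨(olim : ℝ), fun n F q a hF ha => ?_⟩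
    have hb : ∀ j, |∫ ω, repMono F ω ∂ν (φ j)| ≤ 1 := fun j => by
      simpa using norm_integral_le_of_norm_le_const (μ := ν (φ j)) (C := 1)
        ((hbddν (φ j)).mono fun ω hω => (Real.norm_eq_abs _).trans_le (abs_repMono_le F hω))
    have h2 : Tendsto (fun j => (o (φ j) - olim) * ∫ ω, repMono F ω ∂ν (φ j)) atTop (nhds 0) := by
      refine squeeze_zero_norm (a := fun j => |o (φ j) - olim|) (fun j => ?_) ?_
      · rw [Real.norm_eq_abs, abs_mul]
        exact mul_le_of_le_one_right (abs_nonneg _) (hb j)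
      · simpa using (hol'.sub_const (olim : ℝ)).abs
    have := ((holim n F q a hF ha).comp hφ.tendsto_atTop).add h2
    simp only [Function.comp_def, add_zero] at this ⊢
    exact this.congr fun j => by ring

variable {ν : ℕ → Measure Arr} {μ : Measure Arr}

/-- Identities of integrals pass to the limit. -/
lemma Lim.eq_of_tendsto (hμ : Lim ν μ) {f : Arr → ℝ} (hf : Continuous f) {c : ℝ}
    (h : Tendsto (fun j => ∫ ω, f ω ∂ν j) atTop (nhds c)) : ∫ ω, f ω ∂μ = c :=
  tendsto_nhds_unique (hμ.tendsto f hf) h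

/-- A nonnegative continuous function with vanishing means vanishes in the limit. -/
lemma Lim.ae_zero (hμ : Lim ν μ) {f : Arr → ℝ} (hf : Continuous f) (h0 : ∀ ω, 0 ≤ f ω)
    (h : Tendsto (fun j => ∫ ω, f ω ∂ν j) atTop (nhds 0)) : ∀ᵐ ω ∂μ, f ω = 0 := by
  have := hμ.prob
  exact (integral_eq_zero_iff_of_nonneg h0 (integrable_cont hμ.bdd hf)).1 (hμ.eq_of_tendsto hf h)

lemma Lim.ae_zero' (hμ : Lim ν μ) {f : Arr → ℝ} (hf : Continuous f) (h0 : ∀ ω, 0 ≤ f ω)
    (h : ∀ j, ∀ᵐ ω ∂ν j, f ω = 0) : ∀ᵐ ω ∂μ, f ω = 0 := by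
  refine hμ.ae_zero hf h0 (Tendsto.congr (fun j => ?_) tendsto_const_nhds)
  exact ((integral_congr_ae (h j)).trans (integral_zero _ _)).symm

/-- Invariance under a continuous map passes to the limit. -/
lemma Lim.map_eq (hμ : Lim ν μ) {T : Arr → Arr} (hT : Continuous T)
    (h : ∀ j, (ν j).map T = ν j) : μ.map T = μ := by
  have := hμ.prob
  have : IsProbabilityMeasure (μ.map T) :=
    Measure.isProbabilityMeasure_map hT.measurable.aemeasurable
  refine ext_of_forall_integral_eq_of_IsFiniteMeasure fun f => ?_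
  rw [integral_map hT.measurable.aemeasurable f.continuous.measurable.aestronglyMeasurable]
  refine hμ.eq_of_tendsto (f.continuous.comp hT) ((hμ.tendsto _ f.continuous).congr fun j => ?_)
  conv_lhs => rw [← h j]
  exact integral_map hT.measurable.aemeasurable f.continuous.measurable.aestronglyMeasurable

end Vale.Agent.P168.Limit.ArrLim
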