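import Vale.Agent.P168.Limit.ArrayLimitBase

/-! Site averages of a limit array: convergence, and fresh sites as multi-overlaps. -/

open MeasureTheory ProbabilityTheory Filter
open scoped BigOperators NNReal ENNReal Topology

noncomputable section

namespace Vale.Agent.P168.Limit.ArrLim

open Vale.Agent.P168.Tree (measurable_kernel measurable_repData measurable_spinProd
  measurable_permSite measurable_permRep integrable_of_abs_le abs_spinProd siteAvg
  measurable_siteAvg abs_siteAvg_le spinProd_permSite)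

lemma rset_eq (L : List ℕ) :
    rset L = fun ω => limsup (fun k : ℕ => siteAvg L (4 ^ k) ω) atTop := by
  funext ω
  simp [rset, siteAvg]

lemma measurable_rset (L : List ℕ) : Measurable (rset L) := by
  rw [rset_eq]
  exact Measurable.limsup fun k => measurable_siteAvg L _

lemma abs_rset_le (L : List ℕ) (ω : Arr) : |rset L ω| ≤ 1 := by
  rw [rset_eq]
  have h : ∀ k : ℕ, -1 ≤ siteAvg L (4 ^ k) ω ∧ siteAvg L (4 ^ k) ω ≤ 1 := fun k =>
    abs_le.1 (abs_siteAvg_le L _ ω)
  have hlo : IsBoundedUnder (· ≥ ·) atTop fun k : ℕ => siteAvg L (4 ^ k) ω :=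
    isBoundedUnder_of ⟨-1, fun k => (h k).1⟩
  have hhi : IsBoundedUnder (· ≤ ·) atTop fun k : ℕ => siteAvg L (4 ^ k) ω :=
    isBoundedUnder_of ⟨1, fun k => (h k).2⟩
  exact abs_le.2 ⟨le_limsup_of_frequently_le (Frequently.of_forall fun k => (h k).1) hhi,
    limsup_le_of_le hlo.isCoboundedUnder_le (Eventually.of_forall fun k => (h k).2)⟩

/-- Multi-overlaps do not see a transposition of sites. -/
lemma rset_swap (L : List ℕ) (i j : ℕ) (ω : Arr) :
    rset L (permSite (Equiv.swap i j) ω) = rset L ω := by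
  rw [rset_eq]
  refine limsup_congr ?_
  filter_upwards [(tendsto_pow_atTop_atTop_of_one_lt (by norm_num : (1 : ℕ) < 4)).eventually
    (eventually_gt_atTop (max i j))] with k hk
  simp only [siteAvg, spinProd_permSite]
  congr 1
  refine Equiv.Perm.sum_comp (Equiv.swap i j) _ (fun x => spinProd L x ω) fun a ha => ?_
  rcases eq_or_ne a i with rfl | hi
  · exact Finset.mem_range.2 (lt_of_le_of_lt (le_max_left _ _) hk)
  · rcases eq_or_ne a j with rfl | hj
    · exact Finset.mem_range.2 (lt_of_le_of_lt (le_max_right _ _) hk)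
    · exact absurd (Equiv.swap_apply_of_ne_of_ne hi hj) ha

variable {ν : ℕ → Measure Arr} {μ : Measure Arr}

lemma Lim.exch_site (hμ : Lim ν μ) (hA : IsApprox ν) (π : Equiv.Perm ℕ) :
    μ.map (permSite π) = μ :=
  hμ.map_eq (continuous_permSite π) fun j => hA.exch_site j π

lemma Lim.integral_abs_step (hμ : Lim ν μ) (hA : IsApprox ν) (L : List ℕ) (k : ℕ) :
    ∫ ω, |siteAvg L (4 ^ (k + 1)) ω - siteAvg L (4 ^ k) ω| ∂μ ≤ 4 * (1 / 2) ^ k := by
  have := hμ.prob
  set f := fun ω => siteAvg L (4 ^ (k + 1)) ω - siteAvg L (4 ^ k) ω with hf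
  set t : ℝ := (1 / 2) ^ k with ht
  have ht0 : 0 < t := by positivity
  have hfc : Continuous f := (continuous_siteAvg L _).sub (continuous_siteAvg L _)
  have hsq : ∫ ω, f ω ^ 2 ∂μ ≤ 4 * t ^ 2 := by
    refine le_of_tendsto (hμ.tendsto _ (hfc.pow 2)) (Eventually.of_forall fun j => ?_)
    refine le_trans (hA.site_avg L j (4 ^ (k + 1)) (4 ^ k) (by positivity) (by positivity)) ?_
    have h4 : ((1 : ℝ) / ((4 ^ k : ℕ) : ℝ)) = t ^ 2 := by
      rw [ht, ← pow_mul, mul_comm k, pow_mul]
      norm_num [div_pow]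
    rw [← h4]
    push_cast
    rw [pow_succ]
    field_simp
    norm_num
  have hi := integrable_cont hμ.bdd hfc.abs
  have hi2 : Integrable (fun ω => f ω ^ 2) μ := integrable_cont hμ.bdd (hfc.pow 2)
  calc ∫ ω, |f ω| ∂μ ≤ ∫ ω, (f ω ^ 2 / (2 * t) + t / 2) ∂μ := by
        refine integral_mono hi ((hi2.div_const _).add (integrable_const _)) fun ω => ?_
        have h := sq_nonneg (|f ω| - t)
        rw [sub_sq, sq_abs] at h
        rw [div_add_div _ _ (by positivity) (by norm_num), le_div_iff₀ (by positivity)]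
        linarith
    _ = (∫ ω, f ω ^ 2 ∂μ) / (2 * t) + t / 2 := by
        rw [integral_add (hi2.div_const _) (integrable_const _), integral_div]
        simp
    _ ≤ 4 * t ^ 2 / (2 * t) + t / 2 := by gcongr
    _ ≤ 4 * t := by
        rw [show 4 * t ^ 2 / (2 * t) = 2 * t by field_simp; ring]
        linarith

lemma Lim.rset_tendsto (hμ : Lim ν μ) (hA : IsApprox ν) (L : List ℕ) :
    ∀ᵐ ω ∂μ, Tendsto (fun k : ℕ => siteAvg L (4 ^ k) ω) atTop (nhds (rset L ω)) := by
  have := hμ.prob
  set f : ℕ → Arr → ℝ := fun k ω => siteAvg L (4 ^ (k + 1)) ω - siteAvg L (4 ^ k) ω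
  have hfm : ∀ k, Measurable (f k) := fun k => (measurable_siteAvg L _).sub (measurable_siteAvg L _)
  have hint : ∀ k, Integrable (f k) μ := fun k => integrable_cont hμ.bdd
    ((continuous_siteAvg L _).sub (continuous_siteAvg L _))
  have hfin : ∀ᵐ ω ∂μ, Summable fun k => |f k ω| := by
    have h1 : ∫⁻ ω, ∑' k, ENNReal.ofReal |f k ω| ∂μ ≠ ⊤ := by
      rw [lintegral_tsum fun k => ((hfm k).abs.ennreal_ofReal).aemeasurable]
      simp only [← ofReal_integral_eq_lintegral_ofReal (hint _).abs
        (Eventually.of_forall fun ω => abs_nonneg _)]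
      refine ne_top_of_le_ne_top ?_ (ENNReal.tsum_le_tsum fun k =>
        ENNReal.ofReal_le_ofReal (hμ.integral_abs_step hA L k))
      rw [← ENNReal.ofReal_tsum_of_nonneg (fun k => by positivity)
        (summable_geometric_two.mul_left 4)]
      exact ENNReal.ofReal_ne_top
    filter_upwards [ae_lt_top (Measurable.ennreal_tsum fun k => (hfm k).abs.ennreal_ofReal) h1]
      with ω hω
    have := ENNReal.summable_toReal hω.ne
    simpa using this
  filter_upwards [hfin] with ω hω
  have hs : Summable fun k => f k ω := hω.of_abs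
  have h2 : Tendsto (fun k => siteAvg L (4 ^ k) ω) atTop
      (nhds (siteAvg L (4 ^ 0) ω + ∑' k, f k ω)) := by
    refine (hs.hasSum.tendsto_sum_nat.const_add (siteAvg L (4 ^ 0) ω)).congr fun k => ?_
    simp only [f]
    rw [Finset.sum_range_sub (fun k => siteAvg L (4 ^ k) ω)]
    ring
  rw [rset_eq]
  simp only
  rw [h2.limsup_eq]
  exact h2

/-- A function which does not see transpositions of sites from `q` on. -/
def SwapInv (q : ℕ) (G : Arr → ℝ) : Prop :=
  ∀ i j, q ≤ i → q ≤ j → ∀ ω, G (permSite (Equiv.swap i j) ω) = G ω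

/-- One fresh site becomes a multi-overlap. -/
lemma Lim.fresh_one (hμ : Lim ν μ) (hA : IsApprox ν) (L : List ℕ) {q : ℕ} {G : Arr → ℝ}
    (hG : Measurable G) {C : ℝ} (hGb : ∀ᵐ ω ∂μ, |G ω| ≤ C) (hinv : SwapInv q G) :
    ∫ ω, G ω * spinProd L q ω ∂μ = ∫ ω, G ω * rset L ω ∂μ := by
  have := hμ.prob
  set a := ∫ ω, G ω * spinProd L q ω ∂μ with ha
  have hterm : ∀ i, Measurable fun ω => G ω * spinProd L i ω := fun i =>
    hG.fun_mul (measurable_spinProd L i)
  have hb : ∀ i, ∀ᵐ ω ∂μ, ‖G ω * spinProd L i ω‖ ≤ C := fun i => hGb.mono fun ω hω => by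
    rwa [Real.norm_eq_abs, abs_mul, abs_spinProd, mul_one]
  have hi : ∀ i, Integrable (fun ω => G ω * spinProd L i ω) μ := fun i =>
    Integrable.of_bound (hterm i).aestronglyMeasurable C (hb i)
  have hC : 0 ≤ C := by
    obtain ⟨ω, hω⟩ := hGb.exists
    exact (abs_nonneg _).trans hω
  have habs : ∀ i, |∫ ω, G ω * spinProd L i ω ∂μ| ≤ C := fun i => by
    simpa using norm_integral_le_of_norm_le_const (μ := μ) (hb i)
  have hq : ∀ i, q ≤ i → ∫ ω, G ω * spinProd L i ω ∂μ = a := by
    intro i hi'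
    conv_lhs => rw [← hμ.exch_site hA (Equiv.swap q i)]
    rw [integral_map (measurable_permSite _).aemeasurable (hterm i).aestronglyMeasurable, ha]
    refine integral_congr_ae (Eventually.of_forall fun ω => ?_)
    simp [hinv q i le_rfl hi', spinProd_permSite]
  have hlim : Tendsto (fun k : ℕ => ∫ ω, G ω * siteAvg L (4 ^ k) ω ∂μ) atTop
      (nhds (∫ ω, G ω * rset L ω ∂μ)) := by
    refine tendsto_integral_of_dominated_convergence (fun _ => C)
      (fun k => (hG.fun_mul (measurable_siteAvg L _)).aestronglyMeasurable) (integrable_const _)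
      (fun k => hGb.mono fun ω hω => ?_) ?_
    · rw [Real.norm_eq_abs, abs_mul]
      exact (mul_le_of_le_one_right (abs_nonneg _) (abs_siteAvg_le L _ ω)).trans hω
    · filter_upwards [hμ.rset_tendsto hA L] with ω hω
      exact hω.const_mul (G ω)
  have hdiff : ∀ k : ℕ, |∫ ω, G ω * siteAvg L (4 ^ k) ω ∂μ - a| ≤
      2 * C * q * (1 / 4) ^ k := by
    intro k
    have hN : (0 : ℝ) < ((4 ^ k : ℕ) : ℝ) := by positivity
    have e : ∫ ω, G ω * siteAvg L (4 ^ k) ω ∂μ - a =
        (∑ i ∈ Finset.range (4 ^ k), ((∫ ω, G ω * spinProd L i ω ∂μ) - a)) /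
          ((4 ^ k : ℕ) : ℝ) := by
      simp only [siteAvg, ← mul_div_assoc, Finset.mul_sum, integral_div]
      rw [integral_finsetSum _ fun i _ => hi i, Finset.sum_sub_distrib, Finset.sum_const,
        Finset.card_range, nsmul_eq_mul, sub_div, mul_div_cancel_left₀ _ hN.ne']
    rw [e, abs_div, abs_of_pos hN, div_le_iff₀ hN]
    have h14 : (1 / 4 : ℝ) ^ k * ((4 ^ k : ℕ) : ℝ) = 1 := by
      push_cast
      rw [← mul_pow]
      norm_num
    rw [mul_assoc, h14, mul_one]
    refine (Finset.abs_sum_le_sum_abs _ _).trans ?_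
    calc ∑ i ∈ Finset.range (4 ^ k), |(∫ ω, G ω * spinProd L i ω ∂μ) - a|
        ≤ ∑ i ∈ Finset.range (4 ^ k), (if i < q then 2 * C else 0) := by
          refine Finset.sum_le_sum fun i _ => ?_
          split_ifs with h
          · refine (abs_sub _ _).trans ?_
            linarith [habs i, habs q]
          · rw [hq i (not_lt.1 h), sub_self, abs_zero]
      _ ≤ ∑ _i ∈ Finset.range q, 2 * C := by
          rw [← Finset.sum_filter]
          refine Finset.sum_le_sum_of_subset_of_nonneg (fun i hi => ?_) fun _ _ _ => by linarith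
          exact Finset.mem_range.2 (Finset.mem_filter.1 hi).2
      _ = 2 * C * q := by simp; ring
  have hzero : Tendsto (fun k : ℕ => 2 * C * q * (1 / 4 : ℝ) ^ k) atTop (nhds 0) := by
    simpa using (tendsto_pow_atTop_nhds_zero_of_lt_one (by norm_num : (0 : ℝ) ≤ 1 / 4)
      (by norm_num)).const_mul (2 * C * q)
  have hlim' : Tendsto (fun k : ℕ => ∫ ω, G ω * siteAvg L (4 ^ k) ω ∂μ) atTop (nhds a) := by
    rw [tendsto_iff_norm_sub_tendsto_zero]
    exact squeeze_zero (fun k => norm_nonneg _) (fun k => (Real.norm_eq_abs _).trans_le (hdiff k))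
      hzero
  exact tendsto_nhds_unique hlim' hlim

/-- Distinct fresh sites become multi-overlaps. -/
lemma Lim.fresh_prod (hμ : Lim ν μ) (hA : IsApprox ν) {q : ℕ} {C : ℝ} :
    ∀ {M : ℕ} (L : Fin M → List ℕ) {G : Arr → ℝ}, Measurable G → (∀ᵐ ω ∂μ, |G ω| ≤ C) →
      SwapInv q G →
      ∫ ω, G ω * ∏ i : Fin M, spinProd (L i) (q + i) ω ∂μ =
        ∫ ω, G ω * ∏ i : Fin M, rset (L i) ω ∂μ
  | 0, _, _, _, _, _ => by simp
  | M + 1, L, G, hG, hGb, hinv => by
    set G' : Arr → ℝ := fun ω => G ω * ∏ i : Fin M, spinProd (L i.castSucc) (q + i) ω with hG'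
    have h1 : ∫ ω, G' ω * spinProd (L (Fin.last M)) (q + M) ω ∂μ =
        ∫ ω, G' ω * rset (L (Fin.last M)) ω ∂μ := by
      refine hμ.fresh_one hA _ (C := C)
        (hG.fun_mul (Finset.measurable_prod _ fun i _ => measurable_spinProd _ _))
        (hGb.mono fun ω hω => ?_) fun i j hi hj ω => ?_
      · simpa [hG', abs_mul, Finset.abs_prod, abs_spinProd] using hω
      · simp only [hG']
        rw [hinv i j (by omega) (by omega)]
        congr 1
        refine Finset.prod_congr rfl fun x _ => ?_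
        have := x.isLt
        rw [spinProd_permSite, Equiv.swap_apply_of_ne_of_ne] <;> omega
    have h2 : ∫ ω, (G ω * rset (L (Fin.last M)) ω) *
          ∏ i : Fin M, spinProd (L i.castSucc) (q + i) ω ∂μ =
        ∫ ω, (G ω * rset (L (Fin.last M)) ω) * ∏ i : Fin M, rset (L i.castSucc) ω ∂μ := by
      refine fresh_prod (C := C) hμ hA (fun i => L i.castSucc) (hG.fun_mul (measurable_rset _))
        (hGb.mono fun ω hω => ?_) fun i j hi hj ω => ?_
      · rw [abs_mul]
        exact (mul_le_of_le_one_right (abs_nonneg _) (abs_rset_le _ _)).trans hω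
      · show G _ * rset _ _ = G ω * rset _ ω
        rw [hinv i j hi hj, rset_swap]
    calc ∫ ω, G ω * ∏ i : Fin (M + 1), spinProd (L i) (q + i) ω ∂μ
        = ∫ ω, G' ω * spinProd (L (Fin.last M)) (q + M) ω ∂μ := by
          simp [hG', Fin.prod_univ_castSucc, mul_assoc]
      _ = ∫ ω, (G ω * rset (L (Fin.last M)) ω) *
            ∏ i : Fin M, spinProd (L i.castSucc) (q + i) ω ∂μ := by
          rw [h1]
          refine integral_congr_ae (Eventually.of_forall fun ω => ?_)
          simp only [hG']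
          ring
      _ = _ := by
          rw [h2]
          refine integral_congr_ae (Eventually.of_forall fun ω => ?_)
          simp only [Fin.prod_univ_castSucc]
          ring

end Vale.Agent.P168.Limit.ArrLim
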