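import Vale.Agent.P168.Limit.Parts
import Vale.Agent.P168.Limit.Avg

/-! The array of the perturbed system: replicas of the Gibbs measure read at uniform sites. -/

open MeasureTheory ProbabilityTheory Filter
open scoped BigOperators NNReal ENNReal

noncomputable section

namespace Vale.Agent.P168.Limit

variable {K N : ℕ} (p : Params)

/-- The array of given sites and replicas. -/
def arrOf (e : Env p N) (s : ℕ → Fin N) (σ : ℕ → Fin N → Bool) : Arr :=
  (fun l i => σ l (s i), fun g a b => kval p e g (σ a) (σ b))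

theorem abs_slotPsi_le (g : ℕ) (z : Fin (arity g) → Bool) : |slotPsi g z| ≤ 1 := by
  unfold slotPsi
  split_ifs
  · rw [Finset.abs_prod]
    exact Finset.prod_le_one (fun i _ => abs_nonneg _) fun i _ => (States.abs_spin _).le
  · cases decodeKer g with
    | none => simp
    | some Γs =>
      obtain ⟨Γ, s⟩ := Γs
      have h1 : ∀ f : Fin (arity g) → Bool,
          |∏ i, if f i then spin (z i) else 1| ≤ 1 := fun f => by
        rw [Finset.abs_prod]
        refine Finset.prod_le_one (fun i _ => abs_nonneg _) fun i _ => ?_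
        split_ifs <;> simp [States.abs_spin]
      simp only [gadgetPsi]
      rw [abs_div, abs_two, div_le_one two_pos]
      refine (abs_add_le _ _).trans ?_
      rw [abs_mul, States.abs_spin, one_mul]
      linarith [h1 fun i => (edgeAt Γ i).2.1, h1 fun i => (edgeAt Γ i).2.2]

theorem abs_psiAt_le (e : Env p N) (g : Fin p.L) (u : Fin p.S) (σ : Fin N → Bool) :
    |psiAt p e g u σ| ≤ 1 := abs_slotPsi_le _ _

theorem abs_avgS_le {f : Fin p.S → ℝ} (h : ∀ u, |f u| ≤ 1) : |(∑ u, f u) / (p.S : ℝ)| ≤ 1 := by
  have : Nonempty (Fin p.S) := ⟨⟨0, p.S_pos⟩⟩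
  simpa [avg] using abs_avg_le h

theorem abs_kern_le (e : Env p N) (g : Fin p.L) (σ τ : Fin N → Bool) : |kern p e g σ τ| ≤ 1 :=
  abs_avgS_le p fun u => by
    rw [abs_mul]
    exact mul_le_one₀ (abs_psiAt_le p e g u σ) (abs_nonneg _) (abs_psiAt_le p e g u τ)

theorem abs_kval_le (e : Env p N) (g : ℕ) (σ τ : Fin N → Bool) : |kval p e g σ τ| ≤ 1 := by
  unfold kval
  split_ifs
  · exact abs_kern_le p e _ σ τ
  · simp

theorem kval_comm (e : Env p N) (g : ℕ) (σ τ : Fin N → Bool) :
    kval p e g σ τ = kval p e g τ σ := by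
  unfold kval
  split_ifs
  · simp only [kern, mul_comm]
  · rfl

theorem abs_magSlot_le (e : Env p N) (σ : Fin N → Bool) : |magSlot p e σ| ≤ 1 := by
  unfold magSlot
  by_cases hL : 0 < p.L
  · rw [Finset.sum_eq_single ⟨0, hL⟩ (fun g _ hg => if_neg fun h => hg (Fin.ext h))
      fun h => absurd (Finset.mem_univ _) h, if_pos rfl]
    exact abs_avgS_le p fun u => abs_psiAt_le p e _ u σ
  · have : IsEmpty (Fin p.L) := ⟨fun g => hL g.pos⟩
    simp

theorem abs_linObs_le (e : Env p N) (o : Option (Fin p.L)) (σ : Fin N → Bool) :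
    |linObs p e o σ| ≤ 1 := by
  cases o with
  | none => exact abs_magSlot_le p e σ
  | some g => exact abs_kern_le p e g σ σ

theorem measurable_gaussObs (e : Env p N) (a : Mono p.L) (σ : Fin N → Bool) :
    Measurable fun J : Feat p.L p.S → ℝ => gaussObs p e J a σ := by
  unfold gaussObs
  fun_prop

theorem measurable_theta_at (σ : Fin N → Bool) :
    Measurable fun t : Factor K × (Fin K → Fin N) => theta t.1 fun j => σ (t.2 j) :=
  measurable_from_prod_countable_left (f := fun t : Factor K × (Fin K → Fin N) =>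
    theta t.1 fun j => σ (t.2 j)) fun f =>
      Real.measurable_log.comp (States.measurable_factorWeight fun j => σ (f j))

theorem measurable_clauseSum (σ : Fin N → Bool) :
    Measurable fun q : (ℕ → Factor K × (Fin K → Fin N)) × ℕ =>
      ∑ k : Fin q.2, theta (q.1 k).1 fun j => σ ((q.1 k).2 j) := by
  refine measurable_from_prod_countable_left fun n => ?_
  change Measurable fun y : ℕ → Factor K × (Fin K → Fin N) =>
    ∑ k : Fin n, theta (y k).1 fun j => σ ((y k).2 j)
  have h : ∀ k : Fin n, Measurable fun y : ℕ → Factor K × (Fin K → Fin N) =>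
      theta (y k).1 fun j => σ ((y k).2 j) := fun k =>
    (measurable_theta_at σ).comp
      (measurable_pi_apply (X := fun _ : ℕ => Factor K × (Fin K → Fin N)) (k : ℕ))
  exact Finset.measurable_sum (f := fun (k : Fin n) (y : ℕ → Factor K × (Fin K → Fin N)) =>
    theta (y k).1 fun j => σ ((y k).2 j)) _ fun k _ => h k

theorem measurable_baseH (σ : Fin N → Bool) :
    Measurable fun b : Base K N =>
      hamiltonian (fun k : Fin b.1.1 => b.1.2 k) b.2 σ := by
  unfold hamiltonian
  refine Measurable.add ?_ ?_
  · exact (measurable_clauseSum σ).comp ((measurable_snd.comp measurable_fst).prodMk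
      (measurable_fst.comp measurable_fst))
  · exact Finset.measurable_sum _ fun i _ =>
      ((measurable_pi_apply i).comp measurable_snd).mul_const _

theorem measurable_pertH (x : Obs p.L → ℝ) (σ : Fin N → Bool) :
    Measurable fun q : (Feat p.L p.S → ℝ) × Env p N => pertH p x q.2 q.1 σ := by
  refine measurable_from_prod_countable_left fun e => ?_
  have h : Measurable fun J : Feat p.L p.S → ℝ =>
      ∑ a, x (Sum.inl a) * gaussObs p e J a σ :=
    Finset.measurable_sum _ fun a _ => (measurable_gaussObs p e a σ).const_mul _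
  have h2 := ((h.const_mul p.s).const_add (tiltPart p e σ)).add_const
    (p.s ^ 2 * ∑ o, x (Sum.inr o) * linObs p e o σ)
  exact h2

theorem measurable_totalH (x : Obs p.L → ℝ) (σ : Fin N → Bool) :
    Measurable fun d : Dis K p N => totalH p x d σ := by
  have hA : Measurable fun d : Dis K p N =>
      hamiltonian (fun k : Fin d.1.1.1 => d.1.1.2 k) d.1.2 σ :=
    Measurable.comp (g := fun b : Base K N => hamiltonian (fun k : Fin b.1.1 => b.1.2 k) b.2 σ)
      (f := fun d : Dis K p N => d.1) (measurable_baseH σ) measurable_fst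
  have hf : Measurable fun d : Dis K p N => (d.2.2, d.2.1) :=
    (measurable_snd.comp measurable_snd).prodMk (measurable_fst.comp measurable_snd)
  have hB : Measurable fun d : Dis K p N => pertH p x d.2.1 d.2.2 σ :=
    Measurable.comp (g := fun q : (Feat p.L p.S → ℝ) × Env p N => pertH p x q.2 q.1 σ)
      (f := fun d : Dis K p N => (d.2.2, d.2.1)) (measurable_pertH p x σ) hf
  exact hA.add hB

theorem measurable_gw_totalH (x : Obs p.L → ℝ) (σ : Fin N → Bool) :
    Measurable fun d : Dis K p N => gw (totalH p x d) σ := by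
  unfold gw
  exact (Real.measurable_exp.comp (measurable_totalH p x σ)).div
    (Finset.measurable_sum _ fun τ _ => Real.measurable_exp.comp (measurable_totalH p x τ))

/-- The replicas drawn from uniform variables. -/
def repSample (x : Obs p.L → ℝ) (d : Dis K p N) (u : ℕ → ℝ) : ℕ → Fin N → Bool :=
  fun l => samp (gw (totalH p x d)) (u l)

theorem measurable_repSample (x : Obs p.L → ℝ) (l : ℕ) :
    Measurable fun q : Dis K p N × (ℕ → ℝ) => repSample p x q.1 q.2 l := by
  have hg : Measurable fun q : Dis K p N × ℝ => samp (gw (totalH p x q.1)) q.2 :=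
    measurable_samp (w := fun d : Dis K p N => gw (totalH p x d)) (measurable_gw_totalH p x)
      fun d σ => gw_nonneg _ σ
  have hf : Measurable fun q : Dis K p N × (ℕ → ℝ) => (q.1, q.2 l) :=
    measurable_fst.prodMk ((measurable_pi_apply l).comp measurable_snd)
  exact Measurable.comp (g := fun q : Dis K p N × ℝ => samp (gw (totalH p x q.1)) q.2)
    (f := fun q : Dis K p N × (ℕ → ℝ) => (q.1, q.2 l)) hg hf

/-- The sample space of the array: disorder, sites and uniform variables for the replicas. -/
abbrev ArrSpace (K : ℕ) (p : Params) (N : ℕ) := Dis K p N × (ℕ → Fin N) × (ℕ → ℝ)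

/-- The array as a function on its sample space. -/
def arrMap (x : Obs p.L → ℝ) (q : ArrSpace K p N) : Arr :=
  arrOf p q.1.2.1 q.2.1 (repSample p x q.1 q.2.2)

theorem measurable_arrMap (x : Obs p.L → ℝ) : Measurable (arrMap (K := K) (N := N) p x) := by
  have hr : ∀ l, Measurable fun q : ArrSpace K p N => repSample p x q.1 q.2.2 l := fun l =>
    Measurable.comp (g := fun q : Dis K p N × (ℕ → ℝ) => repSample p x q.1 q.2 l)
      (f := fun q : ArrSpace K p N => (q.1, q.2.2)) (measurable_repSample p x l)
      (measurable_fst.prodMk (measurable_snd.comp measurable_snd))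
  have hspin : ∀ l i, Measurable fun q : ArrSpace K p N => repSample p x q.1 q.2.2 l (q.2.1 i) :=
    fun l i => Measurable.comp (g := fun t : (Fin N → Bool) × Fin N => t.1 t.2)
      (f := fun q : ArrSpace K p N => (repSample p x q.1 q.2.2 l, q.2.1 i)) (measurable_of_finite _)
      ((hr l).prodMk ((measurable_pi_apply i).comp (measurable_fst.comp measurable_snd)))
  have hker : ∀ g a b, Measurable fun q : ArrSpace K p N =>
      kval p q.1.2.1 g (repSample p x q.1 q.2.2 a) (repSample p x q.1 q.2.2 b) :=
    fun g a b => Measurable.comp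
      (g := fun t : Env p N × (Fin N → Bool) × (Fin N → Bool) => kval p t.1 g t.2.1 t.2.2)
      (f := fun q : ArrSpace K p N =>
        (q.1.2.1, repSample p x q.1 q.2.2 a, repSample p x q.1 q.2.2 b)) (measurable_of_finite _)
      ((measurable_fst.comp (measurable_snd.comp measurable_fst)).prodMk ((hr a).prodMk (hr b)))
  exact Measurable.prodMk (measurable_pi_lambda _ fun l => measurable_pi_lambda _ fun i => hspin l i)
    (measurable_pi_lambda _ fun g => measurable_pi_lambda _ fun a =>
      measurable_pi_lambda _ fun b => hker g a b)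

/-- The law on the sample space of the array. -/
def arrLaw {K : ℕ} (p : Params) (N : ℕ) (P : Measure (Factor K)) (Q : Measure ℝ) (μ : ℝ≥0) :
    Measure (ArrSpace K p N) :=
  (disLaw p N P Q μ).prod ((Measure.infinitePi fun _ : ℕ => unifFin (Fin N)).prod
    (Measure.infinitePi fun _ : ℕ => unif))

/-- The law of the array. -/
def sysArr {K : ℕ} (p : Params) (N : ℕ) (P : Measure (Factor K)) (Q : Measure ℝ) (μ : ℝ≥0)
    (x : Obs p.L → ℝ) : Measure Arr := (arrLaw p N P Q μ).map (arrMap p x)

variable (P : Measure (Factor K)) (Q : Measure ℝ) (μ : ℝ≥0)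
variable [NeZero N] [IsProbabilityMeasure P] [IsProbabilityMeasure Q]

instance nonempty_env : Nonempty (Env p N) :=
  ⟨⟨fun _ _ _ => 0, fun _ _ _ => 0, fun _ => ⟨0, p.Q_pos⟩⟩⟩

instance isProb_baseLaw : IsProbabilityMeasure (baseLaw N P Q μ) := by
  unfold baseLaw
  have : Nonempty (Fin K → Fin N) := ⟨fun _ => 0⟩
  infer_instance

instance isProb_disLaw : IsProbabilityMeasure (disLaw p N P Q μ) := by
  unfold disLaw
  have : IsProbabilityMeasure (unifFin (Env p N)) := States.isProb_unifFin
  have : IsProbabilityMeasure ((unifFin (Env p N)).prod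
    (Measure.pi fun _ : Feat p.L p.S => gaussianReal 0 1)) := Measure.prod.instIsProbabilityMeasure _ _
  exact Measure.prod.instIsProbabilityMeasure _ _

instance isProb_arrLaw : IsProbabilityMeasure (arrLaw p N P Q μ) := by
  unfold arrLaw
  infer_instance

instance isProb_sysArr (x : Obs p.L → ℝ) : IsProbabilityMeasure (sysArr p N P Q μ x) :=
  Measure.isProbabilityMeasure_map (measurable_arrMap p x).aemeasurable

omit [NeZero N] [IsProbabilityMeasure P] [IsProbabilityMeasure Q] in
/-- A property of all arrays of the form `arrOf` holds almost surely. -/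
theorem ae_sysArr (x : Obs p.L → ℝ) {pr : Arr → Prop} (hm : MeasurableSet {ω | pr ω})
    (h : ∀ (e : Env p N) s σ, pr (arrOf p e s σ)) : ∀ᵐ ω ∂sysArr p N P Q μ x, pr ω :=
  (ae_map_iff (measurable_arrMap p x).aemeasurable hm).2 (ae_of_all _ fun q => h _ _ _)

/-- A bounded function of the first `n` replicas. -/
theorem integral_sysArr (x : Obs p.L → ℝ) {G : Arr → ℝ} (hG : Measurable G) {B : ℝ}
    (hB : ∀ (e : Env p N) s σ, |G (arrOf p e s σ)| ≤ B) (n : ℕ)
    (hn : ∀ (e : Env p N) (s : ℕ → Fin N) (σ τ : ℕ → Fin N → Bool), (∀ l < n, σ l = τ l) →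
      G (arrOf p e s σ) = G (arrOf p e s τ)) :
    ∫ ω, G ω ∂sysArr p N P Q μ x = ∫ d, ∫ s, nav n (totalH p x d)
        (fun σ => G (arrOf p d.2.1 s σ))
      ∂Measure.infinitePi (fun _ : ℕ => unifFin (Fin N)) ∂disLaw p N P Q μ := by
  have hm := measurable_arrMap (K := K) (N := N) p x
  rw [sysArr, integral_map hm.aemeasurable hG.aestronglyMeasurable, arrLaw]
  have hi : Integrable (fun q : ArrSpace K p N => G (arrMap p x q))
      (arrLaw p N P Q μ) :=
    Integrable.of_bound (hG.comp hm).aestronglyMeasurable B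
      (ae_of_all _ fun q => (Real.norm_eq_abs _).trans_le (hB _ _ _))
  rw [integral_prod _ hi]
  refine integral_congr_ae (ae_of_all _ fun d => ?_)
  dsimp only
  have hi2 : Integrable (fun q : (ℕ → Fin N) × (ℕ → ℝ) => G (arrMap p x (d, q)))
      ((Measure.infinitePi fun _ : ℕ => unifFin (Fin N)).prod
        (Measure.infinitePi fun _ : ℕ => unif)) :=
    Integrable.of_bound ((hG.comp hm).comp measurable_prodMk_left).aestronglyMeasurable B
      (ae_of_all _ fun q => (Real.norm_eq_abs _).trans_le (hB _ _ _))
  rw [integral_prod _ hi2]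
  refine integral_congr_ae (ae_of_all _ fun s => ?_)
  exact integral_samp n (totalH p x d) (fun σ => G (arrOf p d.2.1 s σ)) (hn d.2.1 s)

/-- Sites continued by `0`. -/
def extSites {q : ℕ} (a : Fin q → Fin N) (i : ℕ) : Fin N := if h : i < q then a ⟨i, h⟩ else 0

/-- A bounded function of finitely many replicas and sites. -/
theorem integral_sysArr_fin (x : Obs p.L → ℝ) {G : Arr → ℝ} (hG : Measurable G) {B : ℝ}
    (hB : ∀ (e : Env p N) s σ, |G (arrOf p e s σ)| ≤ B) (n q : ℕ)
    (hn : ∀ (e : Env p N) (s : ℕ → Fin N) (σ τ : ℕ → Fin N → Bool), (∀ l < n, σ l = τ l) →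
      G (arrOf p e s σ) = G (arrOf p e s τ))
    (hq : ∀ (e : Env p N) (s t : ℕ → Fin N) σ, (∀ i < q, s i = t i) →
      G (arrOf p e s σ) = G (arrOf p e t σ)) :
    ∫ ω, G ω ∂sysArr p N P Q μ x = ∫ d, avg (fun a : Fin q → Fin N =>
        nav n (totalH p x d) fun σ => G (arrOf p d.2.1 (extSites a) σ)) ∂disLaw p N P Q μ := by
  rw [integral_sysArr p P Q μ x hG hB n hn]
  refine integral_congr_ae (ae_of_all _ fun d => ?_)
  dsimp only
  rw [← integral_sites q]
  refine integral_congr_ae (ae_of_all _ fun s => nav_congr _ fun σ => ?_)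
  exact hq _ _ _ _ fun i hi => by simp [extSites, hi]

omit [NeZero N] [IsProbabilityMeasure P] [IsProbabilityMeasure Q] in
theorem permRep_arrMap (π : Equiv.Perm ℕ) (x : Obs p.L → ℝ) (q : ArrSpace K p N) :
    permRep π (arrMap p x q) = arrMap p x (q.1, q.2.1, fun l => q.2.2 (π l)) := rfl

omit [NeZero N] [IsProbabilityMeasure P] [IsProbabilityMeasure Q] in
theorem permSite_arrMap (π : Equiv.Perm ℕ) (x : Obs p.L → ℝ) (q : ArrSpace K p N) :
    permSite π (arrMap p x q) = arrMap p x (q.1, fun i => q.2.1 (π i), q.2.2) := rfl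

theorem sysArr_exch_rep (x : Obs p.L → ℝ) (π : Equiv.Perm ℕ) :
    (sysArr p N P Q μ x).map (permRep π) = sysArr p N P Q μ x := by
  have hp : Measurable (permRep π) := by unfold permRep; fun_prop
  have hu : MeasurePreserving (fun u : ℕ → ℝ => fun l => u (π l))
      (Measure.infinitePi fun _ : ℕ => unif) (Measure.infinitePi fun _ : ℕ => unif) :=
    ⟨by fun_prop,
      Measure.map_infinitePi_infinitePi_of_inj (P := fun _ : ℕ => unif) π.injective⟩
  have h := (MeasurePreserving.id (disLaw p N P Q μ)).prod
    ((MeasurePreserving.id (Measure.infinitePi fun _ : ℕ => unifFin (Fin N))).prod hu)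
  have hm := measurable_arrMap (K := K) (N := N) p x
  rw [sysArr, Measure.map_map hp hm]
  conv_rhs => rw [arrLaw, ← h.map_eq, Measure.map_map hm h.measurable]
  rfl

theorem sysArr_exch_site (x : Obs p.L → ℝ) (π : Equiv.Perm ℕ) :
    (sysArr p N P Q μ x).map (permSite π) = sysArr p N P Q μ x := by
  have hp : Measurable (permSite π) := by unfold permSite; fun_prop
  have hs : MeasurePreserving (fun u : ℕ → Fin N => fun l => u (π l))
      (Measure.infinitePi fun _ : ℕ => unifFin (Fin N))
      (Measure.infinitePi fun _ : ℕ => unifFin (Fin N)) :=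
    ⟨by fun_prop,
      Measure.map_infinitePi_infinitePi_of_inj (P := fun _ : ℕ => unifFin (Fin N)) π.injective⟩
  have h := (MeasurePreserving.id (disLaw p N P Q μ)).prod
    (hs.prod (MeasurePreserving.id (Measure.infinitePi fun _ : ℕ => unif)))
  have hm := measurable_arrMap (K := K) (N := N) p x
  rw [sysArr, Measure.map_map hp hm]
  conv_rhs => rw [arrLaw, ← h.map_eq, Measure.map_map hm h.measurable]
  rfl

theorem sysArr_symm (x : Obs p.L → ℝ) (g a b : ℕ) :
    ∀ᵐ ω ∂sysArr p N P Q μ x, ω.2 g a b = ω.2 g b a :=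
  ae_sysArr p P Q μ x (measurableSet_eq_fun (by fun_prop) (by fun_prop))
    fun e _ σ => kval_comm p e g (σ a) (σ b)

theorem sysArr_bound (x : Obs p.L → ℝ) (g a b : ℕ) :
    ∀ᵐ ω ∂sysArr p N P Q μ x, |ω.2 g a b| ≤ 1 :=
  ae_sysArr p P Q μ x (measurableSet_le (by fun_prop) measurable_const)
    fun e _ σ => abs_kval_le p e g (σ a) (σ b)

theorem sysArr_psd (x : Obs p.L → ℝ) (g n : ℕ) (c : Fin n → ℝ) :
    ∀ᵐ ω ∂sysArr p N P Q μ x, 0 ≤ ∑ a, ∑ b, c a * c b * ω.2 g a b := by
  refine ae_sysArr p P Q μ x (measurableSet_le measurable_const (by fun_prop)) fun e s σ => ?_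
  simp only [arrOf, kval]
  split_ifs with hg
  · have e1 : ∀ a b : Fin n, c a * c b * kern p e ⟨g, hg⟩ (σ a) (σ b)
        = ∑ u, c a * psiAt p e ⟨g, hg⟩ u (σ a) * (c b * psiAt p e ⟨g, hg⟩ u (σ b)) / p.S := by
      intro a b
      rw [kern, Finset.sum_div, Finset.mul_sum]
      exact Finset.sum_congr rfl fun u _ => by ring
    simp only [e1]
    rw [Finset.sum_congr rfl fun a _ => Finset.sum_comm, Finset.sum_comm]
    refine Finset.sum_nonneg fun u _ => ?_
    simp only [← Finset.sum_div, ← Finset.mul_sum, ← Finset.sum_mul]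
    exact div_nonneg (mul_self_nonneg _) (Nat.cast_nonneg _)
  · simp

omit [NeZero N] [IsProbabilityMeasure P] [IsProbabilityMeasure Q] in
theorem decodeKer_eq_none {g : ℕ} (hun : ∀ (Γ : Gadget) (s : Bool), kidx Γ s ≠ g) :
    decodeKer g = none := by
  cases g with
  | zero => rfl
  | succ g =>
    cases h : decodeKer (g + 1) with
    | none => rfl
    | some Γs =>
      exact absurd (congrArg (· + 1) (Encodable.decode₂_eq_some.1 h)) (hun Γs.1 Γs.2)

theorem sysArr_unused (x : Obs p.L → ℝ) (g : ℕ) (hg : g ≠ 0)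
    (hun : ∀ (Γ : Gadget) (s : Bool), kidx Γ s ≠ g) (a b : ℕ) :
    ∀ᵐ ω ∂sysArr p N P Q μ x, ω.2 g a b = 0 := by
  refine ae_sysArr p P Q μ x (measurableSet_eq_fun (by fun_prop) measurable_const) fun e s σ => ?_
  simp only [arrOf, kval]
  split_ifs with hgL
  · simp [kern, psiAt, slotPsi, hg, decodeKer_eq_none hun]
  · rfl

/-! Monomials and site averages. -/

theorem measurable_spinProd (L : List ℕ) (i : ℕ) : Measurable fun ω : Arr => spinProd L i ω := by
  induction L with
  | nil =>
    change Measurable fun _ : Arr => (1 : ℝ)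
    exact measurable_const
  | cons l L ih =>
    change Measurable fun ω : Arr => spin (ω.1 l i) * spinProd L i ω
    exact ((measurable_of_finite spin).comp
      ((measurable_pi_apply i).comp ((measurable_pi_apply l).comp measurable_fst))).mul ih

theorem abs_spinProd_le (L : List ℕ) (i : ℕ) (ω : Arr) : |spinProd L i ω| ≤ 1 := by
  induction L with
  | nil => simp [spinProd]
  | cons l L ih =>
    rw [spinProd, List.map_cons, List.prod_cons, abs_mul, States.abs_spin, one_mul]
    exact ih

theorem measurable_coordVal {n : ℕ} (c : Coord n) :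
    Measurable fun ω : Arr => coordVal c (repData n ω) := by
  rcases c with ⟨l, i⟩ | ⟨g, a, b⟩
  · exact (measurable_of_finite spin).comp
      ((measurable_pi_apply i).comp ((measurable_pi_apply (l : ℕ)).comp measurable_fst))
  · exact (measurable_pi_apply (b : ℕ)).comp ((measurable_pi_apply (a : ℕ)).comp
      ((measurable_pi_apply g).comp measurable_snd))

theorem measurable_repMono {n : ℕ} (F : List (Coord n)) : Measurable (repMono F) := by
  induction F with
  | nil =>
    change Measurable fun _ : Arr => (1 : ℝ)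
    exact measurable_const
  | cons c F ih =>
    change Measurable fun ω : Arr => coordVal c (repData n ω) * repMono F ω
    exact (measurable_coordVal c).mul ih

theorem abs_repMono_arrOf_le {n : ℕ} (F : List (Coord n)) (e : Env p N) (s : ℕ → Fin N)
    (σ : ℕ → Fin N → Bool) : |repMono F (arrOf p e s σ)| ≤ 1 := by
  induction F with
  | nil => simp [repMono]
  | cons c F ih =>
    rw [repMono, List.map_cons, List.prod_cons, abs_mul]
    refine mul_le_one₀ ?_ (abs_nonneg _) ih
    rcases c with ⟨l, i⟩ | ⟨g, a, b⟩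
    · exact (States.abs_spin _).le
    · exact abs_kval_le p e g _ _

theorem repMono_congr_rep {n : ℕ} (F : List (Coord n)) (e : Env p N) (s : ℕ → Fin N)
    {σ τ : ℕ → Fin N → Bool} (h : ∀ l < n, σ l = τ l) :
    repMono F (arrOf p e s σ) = repMono F (arrOf p e s τ) := by
  refine congrArg List.prod (List.map_congr_left fun c _ => ?_)
  rcases c with ⟨l, i⟩ | ⟨g, a, b⟩
  · simp [coordVal, repData, arrOf, h l l.isLt]
  · simp [coordVal, repData, arrOf, h a a.isLt, h b b.isLt]

theorem repMono_congr_site {n q : ℕ} {F : List (Coord n)} (hF : SitesBelow F q) (e : Env p N)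
    {s t : ℕ → Fin N} (σ : ℕ → Fin N → Bool) (h : ∀ i < q, s i = t i) :
    repMono F (arrOf p e s σ) = repMono F (arrOf p e t σ) := by
  refine congrArg List.prod (List.map_congr_left fun c hc => ?_)
  rcases c with ⟨l, i⟩ | ⟨g, a, b⟩
  · simp [coordVal, repData, arrOf, h i (hF l i hc)]
  · rfl

theorem avg_sq_sum {α : Type*} [Fintype α] [Nonempty α] (z : α → ℝ) (hz : avg z = 0) :
    ∀ k : ℕ, avg (fun a : Fin k → α => (∑ i, z (a i)) ^ 2) = k * avg fun y => z y ^ 2
  | 0 => by simp [avg]
  | k + 1 => by
    rw [← avg_equiv (Fin.consEquiv fun _ : Fin (k + 1) => α), avg_prod]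
    simp only [Fin.consEquiv_apply, Fin.sum_univ_succ, Fin.cons_zero, Fin.cons_succ, add_sq,
      avg_add, avg_const, avg_const_mul, avg_sq_sum z hz k]
    rw [show (avg fun x => 2 * z x * avg fun a : Fin k → α => ∑ i, z (a i))
        = avg fun x => (2 * avg fun a : Fin k → α => ∑ i, z (a i)) * z x from
      avg_congr fun x => by ring, avg_const_mul, hz]
    push_cast
    ring

theorem sysArr_site_avg (x : Obs p.L → ℝ) (L : List ℕ) (k k' : ℕ) (hk : 0 < k) (hk' : 0 < k') :
    ∫ ω, ((∑ i ∈ Finset.range k, spinProd L i ω) / k -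
      (∑ i ∈ Finset.range k', spinProd L i ω) / k') ^ 2 ∂sysArr p N P Q μ x ≤ 2 / k + 2 / k' := by
  have hs : ∀ (m : ℕ) (ω : Arr), 0 < m → |(∑ i ∈ Finset.range m, spinProd L i ω) / m| ≤ 1 := by
    intro m ω hm
    rw [abs_div, Nat.abs_cast, div_le_one (by exact_mod_cast hm)]
    refine (Finset.abs_sum_le_sum_abs _ _).trans ?_
    calc ∑ i ∈ Finset.range m, |spinProd L i ω| ≤ ∑ _i ∈ Finset.range m, (1 : ℝ) :=
          Finset.sum_le_sum fun i _ => abs_spinProd_le L i ω
      _ = m := by simp
  set G : Arr → ℝ := fun ω => ((∑ i ∈ Finset.range k, spinProd L i ω) / k -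
      (∑ i ∈ Finset.range k', spinProd L i ω) / k') ^ 2
  have hGm : Measurable G := by
    have := measurable_spinProd L
    fun_prop
  have hGb : ∀ (e : Env p N) s σ, |G (arrOf p e s σ)| ≤ 4 := fun e s σ => by
    simp only [G]
    rw [abs_pow, show (4 : ℝ) = 2 ^ 2 by norm_num]
    gcongr
    exact (abs_sub _ _).trans (by linarith [hs k (arrOf p e s σ) hk, hs k' (arrOf p e s σ) hk'])
  rw [integral_sysArr p P Q μ x hGm hGb (L.sum + 1) fun e s σ τ h => ?_]
  swap
  · have : ∀ i, spinProd L i (arrOf p e s σ) = spinProd L i (arrOf p e s τ) := fun i =>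
      congrArg List.prod (List.map_congr_left fun l hl => by
        simp [arrOf, h l (Nat.lt_succ_of_le (List.le_sum_of_mem hl))])
    simp only [G, this]
  refine (integral_mono_of_nonneg (ae_of_all _ fun d => integral_nonneg fun s => ?_)
    (integrable_const (2 / (k : ℝ) + 2 / k')) (ae_of_all _ fun d => ?_)).trans (by simp)
  · exact Finset.sum_nonneg fun σ _ =>
      mul_nonneg (Finset.prod_nonneg fun l _ => gw_nonneg _ _) (sq_nonneg _)
  dsimp only
  unfold nav rav
  rw [integral_finsetSum _ fun σ _ => Integrable.of_bound (by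
      have : ∀ i, Measurable fun s : ℕ → Fin N => spinProd L i (arrOf p d.2.1 s fun l =>
          if h : l < L.sum + 1 then σ ⟨l, h⟩ else default) := fun i =>
        (measurable_of_finite fun t : Fin N => (L.map fun l => spin
          ((if h : l < L.sum + 1 then σ ⟨l, h⟩ else default) t)).prod).comp (measurable_pi_apply i)
      simp only [G]
      exact (((((Finset.measurable_sum _ fun i _ => this i).div_const _).sub
        ((Finset.measurable_sum _ fun i _ => this i).div_const _)).pow_const 2).const_mul
          _).aestronglyMeasurable)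
    ((∏ l, gw (totalH p x d) (σ l)) * 4) (ae_of_all _ fun s => by
      rw [Real.norm_eq_abs, abs_mul, abs_of_nonneg (Finset.prod_nonneg fun l _ => gw_nonneg _ _)]
      exact mul_le_mul_of_nonneg_left (hGb _ _ _) (Finset.prod_nonneg fun l _ => gw_nonneg _ _))]
  calc _ ≤ ∑ σ : Fin (L.sum + 1) → Fin N → Bool,
        (∏ l, gw (totalH p x d) (σ l)) * (2 / (k : ℝ) + 2 / k') := by
        refine Finset.sum_le_sum fun σ _ => ?_
        rw [integral_const_mul]
        refine mul_le_mul_of_nonneg_left ?_ (Finset.prod_nonneg fun l _ => gw_nonneg _ _)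
        set y : Fin N → ℝ := fun t => (L.map fun l => spin
          ((if h : l < L.sum + 1 then σ ⟨l, h⟩ else default) t)).prod
        set m := avg y
        have hy : ∀ t, |y t| ≤ 1 := fun t => abs_spinProd_le L 0
          (arrOf p d.2.1 (fun _ => t) fun l => if h : l < L.sum + 1 then σ ⟨l, h⟩ else default)
        have hd : ∀ j : ℕ, 0 < j → ∀ s : ℕ → Fin N,
            (∑ i ∈ Finset.range j, y (s i)) / j - m = (∑ i : Fin j, (y (s i) - m)) / j := by
          intro j hj s
          rw [Finset.sum_sub_distrib, ← Finset.sum_range fun i => y (s i)]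
          have : (j : ℝ) ≠ 0 := by exact_mod_cast hj.ne'
          simp [Finset.sum_const]
          field_simp
        have hv : avg (fun t => (y t - m) ^ 2) ≤ 1 := by
          have e : (fun t => (y t - m) ^ 2) = fun t => (y t ^ 2 - (2 * m) * y t) + m ^ 2 :=
            funext fun t => by ring
          rw [e, avg_add, avg_sub, avg_const_mul, avg_const]
          have h2 : avg (fun t => y t ^ 2) ≤ 1 :=
            (avg_mono fun t => (sq_le_one_iff_abs_le_one _).2 (hy t)).trans_eq (avg_const 1)
          nlinarith [sq_nonneg m]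
        have hone : ∀ j : ℕ, 0 < j → ∫ s : ℕ → Fin N,
            ((∑ i ∈ Finset.range j, y (s i)) / j - m) ^ 2
              ∂Measure.infinitePi (fun _ => unifFin (Fin N)) ≤ 1 / j := by
          intro j hj
          simp only [hd j hj, div_pow]
          rw [integral_sites j fun a : Fin j → Fin N => (∑ i, (y (a i) - m)) ^ 2 / (j : ℝ) ^ 2]
          have e : (fun a : Fin j → Fin N => (∑ i, (y (a i) - m)) ^ 2 / (j : ℝ) ^ 2)
              = fun a => ((j : ℝ) ^ 2)⁻¹ * (∑ i, (y (a i) - m)) ^ 2 := funext fun a => by ring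
          have hz : avg (fun t => y t - m) = 0 := by rw [avg_sub, avg_const, sub_self]
          rw [e, avg_const_mul, avg_sq_sum (fun t => y t - m) hz j]
          have hj0 : (0 : ℝ) < j := by exact_mod_cast hj
          rw [show ((j : ℝ) ^ 2)⁻¹ * (j * avg fun t => (y t - m) ^ 2)
              = (avg fun t => (y t - m) ^ 2) / j by field_simp]
          exact div_le_div_of_nonneg_right hv hj0.le
        have hint : ∀ j : ℕ, Integrable (fun s : ℕ → Fin N =>
            ((∑ i ∈ Finset.range j, y (s i)) / j - m) ^ 2)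
              (Measure.infinitePi fun _ => unifFin (Fin N)) := by
          intro j
          refine Integrable.of_bound (Measurable.aestronglyMeasurable (((Finset.measurable_sum _
            fun i _ => (measurable_of_finite y).comp (measurable_pi_apply i)).div_const _).sub_const
              _ |>.pow_const 2)) ((1 + |m|) ^ 2) (ae_of_all _ fun s => ?_)
          rw [Real.norm_eq_abs, abs_pow]
          refine pow_le_pow_left₀ (abs_nonneg _) ((abs_sub _ _).trans (add_le_add_left ?_ _)) 2
          rcases Nat.eq_zero_or_pos j with rfl | hj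
          · simp
          rw [abs_div, Nat.abs_cast, div_le_one (by exact_mod_cast hj)]
          exact (Finset.abs_sum_le_sum_abs _ _).trans
            ((Finset.sum_le_sum fun i _ => hy (s i)).trans_eq (by simp))
        refine (integral_mono_of_nonneg (ae_of_all _ fun s => sq_nonneg _)
          (((hint k).add (hint k')).const_mul 2) (ae_of_all _ fun s => ?_)).trans ?_
        · change ((∑ i ∈ Finset.range k, y (s i)) / k - (∑ i ∈ Finset.range k', y (s i)) / k') ^ 2
            ≤ _
          simp only [Pi.add_apply]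
          nlinarith [sq_nonneg ((∑ i ∈ Finset.range k, y (s i)) / k - m +
            ((∑ i ∈ Finset.range k', y (s i)) / k' - m))]
        · rw [integral_const_mul]
          simp only [Pi.add_apply]
          rw [integral_add (hint k) (hint k')]
          linarith [hone k hk, hone k' hk', mul_one_div (2 : ℝ) k, mul_one_div (2 : ℝ) k']
    _ = _ := rav_const _ _ _

end Vale.Agent.P168.Limit
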