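import Vale.Agent.P168.Limit.Parts
import Vale.Agent.P168.Limit.SysArray
import Vale.Agent.P168.Limit.SelfAverage

/-!
Selection of the size and the tuning parameters: small fluctuations and a cavity value at most the
lower limit of the pressure.
-/

open MeasureTheory ProbabilityTheory Filter
open scoped BigOperators NNReal ENNReal Topology

noncomputable section

namespace Vale.Agent.P168.Limit

variable {K : ℕ} {lam : ℝ} {P : Measure (Factor K)} {Q : Measure ℝ}

/-- The state of the perturbed system is a random state in the required sense. -/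
lemma sysState_good {N : ℕ} [NeZero N] [IsProbabilityMeasure P] [IsProbabilityMeasure Q]
    (p : Params) (μ : ℝ≥0) (x : Obs p.L → ℝ) : (sysState p N P Q μ x).IsGood where
  prob := by
    show IsProbabilityMeasure ((disLaw p N P Q μ).prod
      (Measure.infinitePi fun _ : ℕ => unifFin (Fin N)))
    infer_instance
  meas_w a := (measurable_gw_totalH p x a).comp measurable_fst
  meas_mag a i :=
    (measurable_of_finite fun k : Fin N => spin (a k)).comp
      ((measurable_pi_apply i).comp measurable_snd)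
  nonneg ω a := gw_nonneg (X := Fin N → Bool) (totalH p x ω.1) a
  sum_one ω := sum_gw (X := Fin N → Bool) (totalH p x ω.1)
  bounded _ a i := (States.abs_spin _).le

lemma cavRate_le (hK : 1 ≤ K) (hl : 0 ≤ lam) (N : ℕ) : (cavRate K lam N : ℝ) ≤ lam * N := by
  have h1 : (0 : ℝ) ≤ (N : ℝ) / (N + 1) := by positivity
  have h2 : (N : ℝ) / (N + 1) ≤ 1 := (div_le_one (by positivity)).2 (by linarith)
  have h3 : ((N : ℝ) / (N + 1)) ^ K ≤ (N : ℝ) / (N + 1) := pow_le_of_le_one h1 h2 (by omega)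
  rw [cavRate, Real.coe_toNNReal']
  refine max_le ((mul_le_mul_of_nonneg_left h3 (by positivity)).trans_eq ?_) (by positivity)
  field_simp

lemma fluct_nonneg {N : ℕ} {p : Params} (hs : 0 ≤ p.s) (μ : ℝ≥0) (x : Obs p.L → ℝ) :
    0 ≤ fluct p N P Q μ x := by
  unfold fluct
  refine add_nonneg (div_nonneg (Finset.sum_nonneg fun a _ => ?_) hs)
    (Finset.sum_nonneg fun o _ => ?_) <;>
    exact integral_nonneg fun d => Finset.sum_nonneg fun σ _ =>
      mul_nonneg (gw_nonneg _ σ) (abs_nonneg _)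

lemma integrable_fluct {c H : ℝ} (hB : Bounded K lam P Q c H) {N : ℕ} [NeZero N] (p : Params)
    (hs : 0 < p.s) (μ : ℝ≥0) : Integrable (fluct p N P Q μ) (xLaw p.L) := by
  have := hB.model.prob_factor
  have := hB.model.prob_field
  obtain ⟨hb, hP⟩ := SelfAvg.theta_bound hB.model
  have hQ : ∀ᵐ h ∂Q, |h| ≤ |H| := hB.model.h_le.mono fun h hh => hh.trans (le_abs_self H)
  have hi := fun o => (SelfAvg.integral_devC_le (p := p) (N := N) (μ := μ) hb (abs_nonneg H) hP hQ
    hs one_pos one_pos le_rfl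
    (fun x hx => SelfAvg.phiC_variance hb (abs_nonneg H) hx μ P Q) o).1
  have h : fluct p N P Q μ =
      fun x => (∑ o, SelfAvg.devC p P Q μ N o x) / p.s ^ 2 :=
    funext fun x => SelfAvg.fluct_eq x hs
  rw [h]
  exact (integrable_finsetSum _ fun o _ => hi o).div_const _

lemma ae_xLaw (L : ℕ) : ∀ᵐ x ∂xLaw L, ∀ o, x o ∈ Set.Icc (1 : ℝ) 2 := by
  have : IsProbabilityMeasure (volume.restrict (Set.Icc (1 : ℝ) 2)) := ⟨by simp; norm_num⟩
  refine ae_all_iff.2 fun o => ?_
  unfold xLaw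
  exact (measurePreserving_eval (fun _ : Obs L => volume.restrict (Set.Icc (1 : ℝ) 2)) o
    ).quasiMeasurePreserving.ae (p := fun t => t ∈ Set.Icc (1 : ℝ) 2)
      (ae_restrict_mem measurableSet_Icc)

/-- One step of the selection. -/
lemma select_one {c H C ε l : ℝ} (hB : Bounded K lam P Q c H) (L M : ℕ) (hM : 2 ≤ M) (hε : 0 < ε)
    (hcav : ∀ S : RandomState, S.IsGood → |S.cav lam P Q| ≤ C)
    (hSA : ∀ N : ℕ, M ≤ 2 * N → N ≤ M → ∀ μ : ℝ≥0, (μ : ℝ) ≤ lam * M →
      ∫ x, fluct (horizonParams L M) N P Q μ x ∂xLaw (horizonParams L M).L ≤ ε)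
    (hCM : ∀ N : ℕ, M ≤ 2 * N → N ≤ M →
      ∀ x : Obs (horizonParams L M).L → ℝ, (∀ o, |x o| ≤ 2) →
        |pertLogZ (horizonParams L M) (N + 1) P Q (lam * (N + 1)).toNNReal x -
            pertLogZ (horizonParams L M) N P Q (lam * N).toNNReal x -
            (sysState (horizonParams L M) N P Q (cavRate K lam N) x).cav lam P Q| ≤ ε ∧
        |pertLogZ (horizonParams L M) N P Q (lam * N).toNNReal x - N * pressure lam P Q N| ≤ ε * M)
    (hup : pressure lam P Q M ≤ l + ε) (hlo : l - ε ≤ pressure lam P Q ((M + 1) / 2)) :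
    ∃ (N : ℕ) (x : Obs (horizonParams L M).L → ℝ), M ≤ 2 * N ∧ N ≤ M ∧ 0 < N ∧
      (∀ o, x o ∈ Set.Icc (1 : ℝ) 2) ∧
      (sysState (horizonParams L M) N P Q (cavRate K lam N) x).cav lam P Q ≤
        l + 12 * ε + Real.sqrt ε ∧
      fluct (horizonParams L M) N P Q (cavRate K lam N) x ≤
        Real.sqrt ε * (l + 12 * ε + Real.sqrt ε + C) := by
  have := hB.model.prob_factor
  have := hB.model.prob_field
  set p := horizonParams L M
  have hs : 0 < p.s := Real.rpow_pos_of_pos (by exact_mod_cast (show 0 < M by omega)) _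
  set A := (M + 1) / 2 with hA
  have hA1 : M ≤ 2 * A := by omega
  have hA2 : A < M := by omega
  have hne : (Finset.Ico A M).Nonempty := Finset.nonempty_Ico.2 hA2
  have hmem : ∀ N ∈ Finset.Ico A M, M ≤ 2 * N ∧ N ≤ M ∧ 0 < N := fun N hN => by
    rw [Finset.mem_Ico] at hN
    omega
  have hrate : ∀ N ∈ Finset.Ico A M, (cavRate K lam N : ℝ) ≤ lam * M := fun N hN =>
    (cavRate_le (le_trans one_le_two hB.two_le) hB.lam_pos.le N).trans
      (mul_le_mul_of_nonneg_left (Nat.cast_le.2 (hmem N hN).2.1) hB.lam_pos.le)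
  have hint : ∀ N ∈ Finset.Ico A M, Integrable (fluct p N P Q (cavRate K lam N)) (xLaw p.L) := by
    intro N hN
    have : NeZero N := ⟨(hmem N hN).2.2.ne'⟩
    exact integrable_fluct hB p hs _
  have hI : IsProbabilityMeasure (volume.restrict (Set.Icc (1 : ℝ) 2)) := ⟨by simp; norm_num⟩
  have : IsProbabilityMeasure (xLaw p.L) := by unfold xLaw; infer_instance
  obtain ⟨x, hx, hxle⟩ := exists_notMem_null_le_integral (integrable_finsetSum _ hint)
    (ae_iff.1 (ae_xLaw p.L))
  simp only [Set.mem_ofPred_eq, not_not] at hx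
  rw [integral_finsetSum _ hint] at hxle
  have hfl : ∑ N ∈ Finset.Ico A M, fluct p N P Q (cavRate K lam N) x ≤
      ∑ _N ∈ Finset.Ico A M, ε :=
    hxle.trans (Finset.sum_le_sum fun N hN => hSA N (hmem N hN).1 (hmem N hN).2.1 _ (hrate N hN))
  have hx2 : ∀ o, |x o| ≤ 2 := fun o =>
    abs_le.2 ⟨by linarith [(hx o).1], (hx o).2⟩
  set a : ℕ → ℝ := fun N => pertLogZ p N P Q (lam * N).toNNReal x with ha
  have hstep : ∀ N ∈ Finset.Ico A M,
      (sysState p N P Q (cavRate K lam N) x).cav lam P Q ≤ (a (N + 1) - a N) + ε := by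
    intro N hN
    have h := (abs_le.1 (hCM N (hmem N hN).1 (hmem N hN).2.1 x hx2).1).1
    simp only [ha, Nat.cast_add, Nat.cast_one]
    linarith
  have hM' := abs_le.1 (hCM M (by omega) le_rfl x hx2).2
  have hA' := abs_le.1 (hCM A hA1 hA2.le x hx2).2
  have htot : ∑ N ∈ Finset.Ico A M, (sysState p N P Q (cavRate K lam N) x).cav lam P Q ≤
      ∑ _N ∈ Finset.Ico A M, (l + 12 * ε) := by
    refine (Finset.sum_le_sum hstep).trans ?_
    rw [Finset.sum_add_distrib, Finset.sum_Ico_sub a hA2.le]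
    simp only [Finset.sum_const, Nat.card_Ico, nsmul_eq_mul, Nat.cast_sub hA2.le]
    have q1 := mul_le_mul_of_nonneg_left hup (Nat.cast_nonneg (α := ℝ) M)
    have q2 := mul_le_mul_of_nonneg_left hlo (Nat.cast_nonneg (α := ℝ) A)
    have q3 : (A : ℝ) ≤ M := Nat.cast_le.2 hA2.le
    have q4 : (3 : ℝ) * A ≤ 2 * M := by exact_mod_cast (show 3 * A ≤ 2 * M by omega)
    have q5 := mul_le_mul_of_nonneg_left q4 hε.le
    have q6 := mul_le_mul_of_nonneg_left q3 hε.le
    simp only [ha]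
    linarith [hM'.2, hA'.1]
  have hsq : 0 < Real.sqrt ε := Real.sqrt_pos.2 hε
  obtain ⟨N, hN, hle⟩ := Finset.exists_le_of_sum_le hne
    (show ∑ N ∈ Finset.Ico A M, ((sysState p N P Q (cavRate K lam N) x).cav lam P Q +
        fluct p N P Q (cavRate K lam N) x / Real.sqrt ε) ≤
      ∑ _N ∈ Finset.Ico A M, (l + 12 * ε + Real.sqrt ε) by
      rw [Finset.sum_add_distrib, ← Finset.sum_div,
        Finset.sum_add_distrib (f := fun _ => l + 12 * ε) (g := fun _ => Real.sqrt ε)]
      refine add_le_add htot ((div_le_iff₀ hsq).2 (hfl.trans_eq ?_))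
      rw [Finset.sum_mul, Real.mul_self_sqrt hε.le])
  obtain ⟨h1, h2, h3⟩ := hmem N hN
  have : NeZero N := ⟨h3.ne'⟩
  have h0 := fluct_nonneg (P := P) (Q := Q) (N := N) hs.le (cavRate K lam N) x
  have h4 := (abs_le.1 (hcav _ (sysState_good (P := P) (Q := Q) (N := N) p (cavRate K lam N) x))).1
  refine ⟨N, x, h1, h2, h3, hx, ?_, ?_⟩
  · linarith [div_nonneg h0 hsq.le]
  · rw [mul_comm, ← div_le_iff₀ hsq]
    linarith

/-- Sizes and tuning parameters with small fluctuations and a small cavity value. -/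
theorem select (hS : SelfAverageStmt) (hC : CavityStmt) {K : ℕ} {lam : ℝ}
    {P : Measure (Factor K)} {Q : Measure ℝ} {c H : ℝ} (hB : Bounded K lam P Q c H)
    (f : ℕ → ℕ) :
    ∃ (M N : ℕ → ℕ) (x : (j : ℕ) → Obs (horizonParams j (M j)).L → ℝ),
      (∀ j, f j ≤ M j ∧ M j ≤ 2 * N j ∧ N j ≤ M j ∧ 0 < N j) ∧
      (∀ j o, x j o ∈ Set.Icc (1:ℝ) 2) ∧
      Tendsto (fun j => fluct (horizonParams j (M j)) (N j) P Q (cavRate K lam (N j)) (x j)) atTop
        (nhds 0) ∧
      ∀ δ > 0, ∀ᶠ j in atTop, ∀ᶠ n in atTop,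
        (sysState (horizonParams j (M j)) (N j) P Q (cavRate K lam (N j)) (x j)).cav lam P Q ≤
          pressure lam P Q (n + 1) + δ := by
  obtain ⟨⟨C, hcav⟩, ⟨Cp, hp⟩, hmain⟩ := hC K lam P Q c H hB
  set u : ℕ → ℝ := fun n => pressure lam P Q n with hu
  have hb : IsBoundedUnder (· ≥ ·) atTop u :=
    isBoundedUnder_of ⟨-Cp, fun n => (abs_le.1 (hp n)).1⟩
  have hco : IsCoboundedUnder (· ≥ ·) atTop u :=
    (isBoundedUnder_of ⟨Cp, fun n => (abs_le.1 (hp n)).2⟩ :
      IsBoundedUnder (· ≤ ·) atTop u).isCoboundedUnder_ge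
  set l := liminf u atTop with hl
  have hlo : ∀ ε > 0, ∀ᶠ n in atTop, l - ε < u n := fun ε hε =>
    eventually_lt_of_lt_liminf (by linarith) hb
  have hup : ∀ ε > 0, ∃ᶠ n in atTop, u n < l + ε := fun ε hε =>
    frequently_lt_of_liminf_lt hco (by linarith)
  set e : ℕ → ℝ := fun j => 1 / ((j : ℝ) + 1) with he
  have he0 : ∀ j, 0 < e j := fun j => by positivity
  have hstep : ∀ j, ∃ (M N : ℕ) (x : Obs (horizonParams j M).L → ℝ),
      (f j ≤ M ∧ M ≤ 2 * N ∧ N ≤ M ∧ 0 < N) ∧ (∀ o, x o ∈ Set.Icc (1 : ℝ) 2) ∧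
      (sysState (horizonParams j M) N P Q (cavRate K lam N) x).cav lam P Q ≤
        l + 12 * e j + Real.sqrt (e j) ∧
      fluct (horizonParams j M) N P Q (cavRate K lam N) x ≤
        Real.sqrt (e j) * (l + 12 * e j + Real.sqrt (e j) + C) := by
    intro j
    have hhalf : Tendsto (fun M : ℕ => (M + 1) / 2) atTop atTop :=
      tendsto_atTop_atTop.2 fun b => ⟨2 * b, fun a ha => by omega⟩
    have ev : ∀ᶠ M in atTop, (2 ≤ M ∧ f j ≤ M) ∧ (l - e j < u ((M + 1) / 2) ∧
        ((∀ N : ℕ, M ≤ 2 * N → N ≤ M → ∀ μ : ℝ≥0, (μ : ℝ) ≤ lam * M →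
          ∫ x, fluct (horizonParams j M) N P Q μ x ∂xLaw (horizonParams j M).L ≤ e j) ∧ _)) :=
      ((eventually_ge_atTop 2).and (eventually_ge_atTop (f j))).and
        ((hhalf.eventually (hlo (e j) (he0 j))).and
          ((hS K lam P Q c H hB j (e j) (he0 j)).and (hmain j (e j) (he0 j))))
    obtain ⟨M, hMu, ⟨hM2, hMf⟩, hMl, hSA, hCM⟩ := ((hup (e j) (he0 j)).and_eventually ev).exists
    obtain ⟨N, x, h1, h2, h3, h4, h5, h6⟩ :=
      select_one hB j M hM2 (he0 j) hcav hSA hCM hMu.le hMl.le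
    exact ⟨M, N, x, ⟨hMf, h1, h2, h3⟩, h4, h5, h6⟩
  choose M N x hMN hx hcv hfl using hstep
  have te : Tendsto e atTop (𝓝 0) := tendsto_one_div_add_atTop_nhds_zero_nat
  have ts : Tendsto (fun j => Real.sqrt (e j)) atTop (𝓝 0) := by
    simpa using te.sqrt
  refine ⟨M, N, x, hMN, hx, ?_, fun δ hδ => ?_⟩
  · have hlim : Tendsto (fun j => Real.sqrt (e j) * (l + 12 * e j + Real.sqrt (e j) + C)) atTop
        (𝓝 0) := by
      simpa using ts.mul (((te.const_mul 12).const_add l).add ts |>.add_const C)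
    exact squeeze_zero (fun j => fluct_nonneg (Real.rpow_nonneg (Nat.cast_nonneg _) _) _ _)
      hfl hlim
  · have hev : ∀ᶠ j in atTop, 12 * e j + Real.sqrt (e j) < δ / 2 := by
      have h := (te.const_mul 12).add ts
      simp only [mul_zero, add_zero] at h
      exact h.eventually_lt_const (by linarith)
    refine hev.mono fun j hj => ?_
    refine ((tendsto_add_atTop_nat 1).eventually (hlo (δ / 2) (by linarith))).mono fun n hn => ?_
    have := hcv j
    simp only [hu] at hn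
    linarith

end Vale.Agent.P168.Limit
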