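import Vale.Agent.P168.Limit.SlotId
import Vale.Agent.P168.Limit.Select

/-! Two facts for the assembly of the limit module: moments of the system and vanishing errors. -/

open MeasureTheory ProbabilityTheory Filter
open scoped BigOperators NNReal ENNReal Topology

noncomputable section

namespace Vale.Agent.P168.Limit

/-- The moments of the Gibbs state are those of its array. -/
theorem sysState_moment {K N : ℕ} [NeZero N] (p : Params) (P : Measure (Factor K)) (Q : Measure ℝ)
    [IsProbabilityMeasure P] [IsProbabilityMeasure Q] (μ : ℝ≥0) (x : Obs p.L → ℝ) {M n : ℕ}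
    (A : Fin M → Finset (Fin n)) :
    (sysState p N P Q μ x).moment A = arrayMoment (sysArr p N P Q μ x) A := by
  classical
  set G : Arr → ℝ := fun ω => ∏ i : Fin M, ∏ l ∈ A i, spin (ω.1 l i) with hG
  have hGm : Measurable G := Finset.measurable_prod _ fun i _ => Finset.measurable_prod _
    fun l _ => (measurable_of_finite spin).comp
      ((measurable_pi_apply (i : ℕ)).comp ((measurable_pi_apply (l : ℕ)).comp measurable_fst))
  have hGb : ∀ (e : Env p N) s σ, |G (arrOf p e s σ)| ≤ 1 := fun e s σ => by
    simp only [hG, Finset.abs_prod, States.abs_spin, Finset.prod_const_one, le_refl]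
  set f : Dis K p N × (ℕ → Fin N) → ℝ := fun q => ∏ l : Fin n,
    gav (totalH p x q.1) fun a => ∏ i : Fin M, if l ∈ A i then spin (a (q.2 i)) else 1 with hf
  have hnav : ∀ (d : Dis K p N) (s : ℕ → Fin N),
      nav n (totalH p x d) (fun σ => G (arrOf p d.2.1 s σ)) = f (d, s) := by
    intro d s
    rw [nav, hf]
    dsimp only
    rw [← rav_eq_prod]
    congr 1
    funext σ
    rw [Finset.prod_comm (t := Finset.univ (α := Fin M))]
    refine Finset.prod_congr rfl fun i _ => ?_
    rw [Finset.prod_ite_mem, Finset.univ_inter]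
    exact Finset.prod_congr rfl fun l _ => by simp [arrOf]
  have hfm : Measurable f := Finset.measurable_prod _ fun l _ => Finset.measurable_sum _ fun a _ =>
    ((measurable_gw_totalH p x a).comp measurable_fst).mul (Finset.measurable_prod _ fun i _ =>
      (measurable_of_finite fun k : Fin N => if l ∈ A i then spin (a k) else 1).comp
        ((measurable_pi_apply (i : ℕ)).comp measurable_snd))
  have hfb : ∀ q, |f q| ≤ 1 := fun q => by
    rw [hf, Finset.abs_prod]
    refine Finset.prod_le_one (fun l _ => abs_nonneg _) fun l _ => abs_gav_le_of_le _ fun a => ?_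
    rw [Finset.abs_prod]
    refine Finset.prod_le_one (fun i _ => abs_nonneg _) fun i _ => ?_
    split_ifs <;> simp [States.abs_spin]
  have hfi : Integrable f ((disLaw p N P Q μ).prod (Measure.infinitePi fun _ : ℕ => unifFin (Fin N))) :=
    Integrable.of_bound hfm.aestronglyMeasurable 1
      (ae_of_all _ fun q => (Real.norm_eq_abs _).trans_le (hfb q))
  rw [arrayMoment, integral_sysArr p P Q μ x hGm hGb n fun e s σ τ h => by
    simp only [hG, arrOf]
    exact Finset.prod_congr rfl fun i _ => Finset.prod_congr rfl fun l _ => by rw [h l l.isLt]]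
  simp only [hnav]
  show ∫ q, f q ∂((disLaw p N P Q μ).prod (Measure.infinitePi fun _ : ℕ => unifFin (Fin N))) = _
  exact integral_prod _ hfi

/-- The errors of the slot identity vanish as the horizon grows. -/
theorem slotErr_eventually : ∀ L : ℕ, ∀ eps > 0, ∀ᶠ M in atTop,
    tiltErr (slotVar (horizonParams L M) 2) (slotShift (horizonParams L M) 2) ≤ eps ∧
      1 / ((horizonParams L M).Q : ℝ) ≤ eps ∧ 1 / ((horizonParams L M).S : ℝ) ≤ eps ∧
      0 < (horizonParams L M).s := by
  intro L eps heps
  set t : ℕ → ℝ := fun M => (horizonParams L M).s ^ 2 / (horizonParams L M).S with ht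
  have hpow : ∀ a : ℝ, 0 < a → Tendsto (fun M : ℕ => (M : ℝ) ^ a) atTop atTop := fun a ha =>
    (tendsto_rpow_atTop ha).comp tendsto_natCast_atTop_atTop
  have hS : ∀ M : ℕ, (M : ℝ) ^ (17 / 20 : ℝ) ≤ (horizonParams L M).S := fun M => by
    have := Nat.le_ceil ((M : ℝ) ^ (17 / 20 : ℝ))
    simp only [horizonParams, Nat.cast_add, Nat.cast_one]
    linarith
  have h0 : Tendsto t atTop (𝓝 0) := by
    refine squeeze_zero' (Eventually.of_forall fun M => by positivity)
      ((eventually_ge_atTop 1).mono fun M hM => ?_)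
      ((tendsto_const_nhds (x := (1 : ℝ))).div_atTop (hpow (3 / 20) (by norm_num)))
    have hM0 : (0 : ℝ) < M := by exact_mod_cast hM
    have e : (M : ℝ) ^ (17 / 20 : ℝ) =
        (horizonParams L M).s ^ 2 * (M : ℝ) ^ (3 / 20 : ℝ) := by
      simp only [horizonParams]
      rw [← Real.rpow_natCast, ← Real.rpow_mul hM0.le, ← Real.rpow_add hM0]
      norm_num
    simp only [ht]
    rw [div_le_div_iff₀ (by exact_mod_cast (horizonParams L M).S_pos) (Real.rpow_pos_of_pos hM0 _),
      one_mul, ← e]
    exact hS M
  set c₁ : ℝ := 4 * ((Fintype.card (Mono (L + 1)) : ℝ) * ((L + 1 : ℕ) : ℝ)) with hc₁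
  set c₂ : ℝ := 4 * (Fintype.card (Option (Fin (L + 1))) : ℝ) with hc₂
  have herr : Tendsto (fun M => tiltErr (slotVar (horizonParams L M) 2)
      (slotShift (horizonParams L M) 2)) atTop (𝓝 0) := by
    have hF : Tendsto (fun u => tiltErr (c₁ * u) (c₂ * u)) (𝓝 0) (𝓝 0) := by
      have hc : Continuous fun u => tiltErr (c₁ * u) (c₂ * u) := by
        unfold tiltErr
        fun_prop
      have e0 : tiltErr (c₁ * 0) (c₂ * 0) = 0 := by norm_num [tiltErr]
      have h := hc.tendsto 0
      rwa [e0] at h
    refine (hF.comp h0).congr fun M => congrArg₂ tiltErr ?_ ?_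
    · rw [hc₁, ← show (horizonParams L M).L = L + 1 from rfl]
      simp only [slotVar, ht]
      ring
    · rw [hc₂, ← show (horizonParams L M).L = L + 1 from rfl]
      simp only [slotShift, ht]
      ring
  have hQ : Tendsto (fun M => 1 / ((horizonParams L M).Q : ℝ)) atTop (𝓝 0) := by
    refine (tendsto_const_nhds (x := (1 : ℝ))).div_atTop (tendsto_natCast_atTop_atTop.comp ?_)
    exact tendsto_atTop_atTop.2 fun b => ⟨b * b, fun a ha =>
      (Nat.le_sqrt.2 ha).trans (Nat.le_succ _)⟩
  have hS' : Tendsto (fun M => 1 / ((horizonParams L M).S : ℝ)) atTop (𝓝 0) :=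
    (tendsto_const_nhds (x := (1 : ℝ))).div_atTop
      (tendsto_atTop_mono hS (hpow (17 / 20) (by norm_num)))
  filter_upwards [herr.eventually (eventually_le_nhds heps),
    hQ.eventually (eventually_le_nhds heps), hS'.eventually (eventually_le_nhds heps),
    eventually_ge_atTop 1] with M h1 h2 h3 h4
  exact ⟨h1, h2, h3, Real.rpow_pos_of_pos (by exact_mod_cast h4) _⟩

end Vale.Agent.P168.Limit
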