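import Vale.Agent.P168.Limit.Approx
import Vale.Agent.P168.Limit.MainAux
import Vale.Agent.P168.Limit.ArrayLimit

/-! The limit module, given the cavity computation. -/

open MeasureTheory ProbabilityTheory Filter
open scoped BigOperators NNReal ENNReal Topology

noncomputable section

namespace Vale.Agent.P168.Limit

/-- The limit module follows from the cavity computation. -/
theorem limit_stmt_of (hC : CavityStmt) : LimitStmt := by
  intro K lam P Q c H hB
  have := hB.model.prob_factor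
  have := hB.model.prob_field
  have hth : ∀ j : ℕ, ∃ T : ℕ, ∀ M ≥ T,
      tiltErr (slotVar (horizonParams j M) 2) (slotShift (horizonParams j M) 2) ≤ 1 / ((j : ℝ) + 1) ∧
      1 / ((horizonParams j M).Q : ℝ) ≤ 1 / ((j : ℝ) + 1) ∧
      1 / ((horizonParams j M).S : ℝ) ≤ 1 / ((j : ℝ) + 1) ∧ 0 < (horizonParams j M).s := fun j =>
    eventually_atTop.1 (slotErr_eventually j (1 / ((j : ℝ) + 1)) (by positivity))
  choose T hT using hth
  obtain ⟨M, N, x, hMN, hx, hfl, hcav⟩ := select self_average hC hB T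
  set C : Choice := ⟨M, N, fun j => cavRate K lam (N j), x⟩
  have hgood : C.IsGood P Q :=
    ⟨fun j => (hMN j).2.2.2, hx, fun j => (hT j _ (hMN j).1).1, fun j => (hT j _ (hMN j).1).2.1,
      fun j => (hT j _ (hMN j).1).2.2.1, fun j => (hT j _ (hMN j).1).2.2.2, hfl⟩
  obtain ⟨ν, φ, hφ, hν, hmom⟩ := array_limit_stmt _ hgood.isApprox
  refine ⟨ν, hν, fun M₀ n₀ δ hδ => ?_⟩
  have hclose : ∀ᶠ j in atTop, ∀ q : (Σ m : Fin (M₀ + 1), Σ n : Fin (n₀ + 1),
      (Fin m.val → Finset (Fin n.val))),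
      |arrayMoment (C.arr P Q (φ j)) q.2.2 - arrayMoment ν q.2.2| ≤ δ := by
    refine eventually_all.2 fun q => ?_
    filter_upwards [Metric.tendsto_nhds.1 (hmom _ _ q.2.2) δ hδ] with j hj
    rw [Real.dist_eq] at hj
    exact hj.le
  obtain ⟨j, hj, hjc⟩ := (hclose.and (hφ.tendsto_atTop.eventually (hcav δ hδ))).exists
  have hN : NeZero (N (φ j)) := ⟨(hMN (φ j)).2.2.2.ne'⟩
  refine ⟨sysState (horizonParams (φ j) (M (φ j))) (N (φ j)) P Q (cavRate K lam (N (φ j))) (x (φ j)),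
    sysState_good _ _ _, fun m n hm hn A => ?_, hjc⟩
  dsimp only
  rw [sysState_moment]
  exact hj ⟨⟨m, Nat.lt_succ_of_le hm⟩, ⟨n, Nat.lt_succ_of_le hn⟩, A⟩

end Vale.Agent.P168.Limit
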