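import Vale.Agent.P168.Limit.CavityCav

/-! The cavity computation. -/

open MeasureTheory ProbabilityTheory Filter
open scoped BigOperators NNReal ENNReal Topology

noncomputable section

namespace Vale.Agent.P168.Limit.Cavity

open Toolkit

variable {K N : ℕ} {P : Measure (Factor K)} {Q : Measure ℝ} {c H lam : ℝ}

theorem abs_integral_le_ae {Y : Type*} [MeasurableSpace Y] {μ : Measure Y} [IsProbabilityMeasure μ]
    {f : Y → ℝ} {C : ℝ} (h : ∀ᵐ y ∂μ, |f y| ≤ C) : |∫ y, f y ∂μ| ≤ C := by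
  have h2 := norm_integral_le_of_norm_le_const (μ := μ) (f := f) (C := C)
    (by filter_upwards [h] with y hy; rwa [Real.norm_eq_abs])
  simpa using h2

theorem abs_poisson_integral_le (r : ℝ≥0) {f : ℕ → ℝ} {A B : ℝ} (h : ∀ n, |f n| ≤ A + B * n) :
    |∫ n, f n ∂poissonMeasure r| ≤ A + B * r := by
  have hi : Integrable (fun n : ℕ => A + B * (n : ℝ)) (poissonMeasure r) :=
    (integrable_const _).add ((Toolkit.integrable_count r).const_mul B)
  refine (abs_integral_le_integral_abs.trans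
    (integral_mono (integrable_poisson_of_linear r h).abs hi h)).trans_eq ?_
  rw [integral_add (integrable_const _) ((Toolkit.integrable_count r).const_mul B),
    integral_const_mul, Toolkit.integral_count]
  simp

theorem sum_pos_part {σy : Fin K → ℝ} (ℓ : Fin K) (ε : Bool) :
    ∑ σ : Fin K → Bool, (if σ ℓ = ε then
      ∏ j ∈ Finset.univ.erase ℓ, (1 + σy j * spin (σ j)) / 2 else 0) = 1 := by
  have h : ∀ σ : Fin K → Bool, (if σ ℓ = ε then
      ∏ j ∈ Finset.univ.erase ℓ, (1 + σy j * spin (σ j)) / 2 else 0) =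
      ∏ j, (if j = ℓ then (if σ j = ε then 1 else 0) else (1 + σy j * spin (σ j)) / 2) := by
    intro σ
    rw [← Finset.mul_prod_erase Finset.univ _ (Finset.mem_univ ℓ), if_pos rfl]
    split_ifs with hσ
    · rw [one_mul]
      exact Finset.prod_congr rfl fun j hj => (if_neg (Finset.ne_of_mem_erase hj)).symm
    · rw [zero_mul]
  simp only [h]
  rw [← Fintype.prod_sum fun j (s : Bool) =>
    if j = ℓ then (if s = ε then (1 : ℝ) else 0) else (1 + σy j * spin s) / 2]
  refine Finset.prod_eq_one fun j _ => ?_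
  by_cases hj : j = ℓ
  · subst hj; cases ε <;> simp
  · simp [hj, spin]; ring

theorem sum_all {σy : Fin K → ℝ} :
    ∑ σ : Fin K → Bool, ∏ j, (1 + σy j * spin (σ j)) / 2 = 1 := by
  rw [← Fintype.prod_sum fun j (s : Bool) => (1 + σy j * spin s) / 2]
  refine Finset.prod_eq_one fun j _ => ?_
  simp [spin]; ring

theorem weighted_mem {α : Type*} [Fintype α] {w f : α → ℝ} {lo hi : ℝ} (hw : ∀ a, 0 ≤ w a)
    (hs : ∑ a, w a = 1) (hf : ∀ a, lo ≤ f a ∧ f a ≤ hi) :
    lo ≤ ∑ a, w a * f a ∧ ∑ a, w a * f a ≤ hi := by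
  constructor
  · calc lo = ∑ a, w a * lo := by rw [← Finset.sum_mul, hs, one_mul]
      _ ≤ _ := Finset.sum_le_sum fun a _ => mul_le_mul_of_nonneg_left (hf a).1 (hw a)
  · calc ∑ a, w a * f a ≤ ∑ a, w a * hi :=
        Finset.sum_le_sum fun a _ => mul_le_mul_of_nonneg_left (hf a).2 (hw a)
      _ = hi := by rw [← Finset.sum_mul, hs, one_mul]

theorem factor_mem {θ : Factor K} (hc : c < 1) (hc0 : 0 ≤ c)
    (h : ∀ σ, 1 - c ≤ factorWeight θ σ ∧ factorWeight θ σ ≤ 1 + c) (σ : Fin K → Bool) :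
    Real.exp (-clauseBd c) ≤ factorWeight θ σ ∧ factorWeight θ σ ≤ Real.exp (clauseBd c) := by
  have hpos : (0 : ℝ) < 1 - c := by linarith
  constructor
  · rw [clauseBd, neg_neg, Real.exp_log hpos]; exact (h σ).1
  · rw [clauseBd, Real.exp_neg, Real.exp_log hpos]
    refine (h σ).2.trans ?_
    rw [inv_eq_one_div, le_div_iff₀ hpos]
    nlinarith

theorem prod_mem {n : ℕ} {f : Fin n → ℝ} {B : ℝ}
    (h : ∀ k, Real.exp (-B) ≤ f k ∧ f k ≤ Real.exp B) :
    Real.exp (-(B * n)) ≤ ∏ k, f k ∧ ∏ k, f k ≤ Real.exp (B * n) := by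
  constructor
  · calc Real.exp (-(B * n)) = ∏ _k : Fin n, Real.exp (-B) := by
          rw [← Real.exp_sum]; simp; ring
      _ ≤ _ := Finset.prod_le_prod (fun _ _ => (Real.exp_pos _).le) fun k _ => (h k).1
  · calc ∏ k, f k ≤ ∏ _k : Fin n, Real.exp B :=
          Finset.prod_le_prod (fun k _ => (Real.exp_pos _).le.trans (h k).1) fun k _ => (h k).2
      _ = _ := by rw [← Real.exp_sum]; simp; ring

/-- The cavity functional is bounded on good states. -/
theorem cav_bound [NeZero K] (hM : IsBoundedModel P Q c H) (lam : ℝ) (S : RandomState) (hS : S.IsGood) :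
    |S.cav lam P Q| ≤ Real.log 2 + H + clauseBd c * ((K : ℝ) * lam).toNNReal +
      clauseBd c * (((K : ℝ) - 1) * lam).toNNReal := by
  have := hM.prob_factor
  have := hM.prob_field
  have := hS.prob
  have hB := IsBoundedModel.clauseBd_nonneg hM
  have hc0 := IsBoundedModel.c_nonneg hM
  set B := clauseBd c
  have hmix : ∀ (θ : Factor K) (g : (Fin K → Bool) → ℝ),
      (∀ σ, 1 - c ≤ factorWeight θ σ ∧ factorWeight θ σ ≤ 1 + c) → (∀ σ, 0 ≤ g σ) →
      ∑ σ, g σ = 1 → Real.exp (-B) ≤ ∑ σ, g σ * factorWeight θ σ ∧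
        ∑ σ, g σ * factorWeight θ σ ≤ Real.exp B :=
    fun θ g h hg hs => weighted_mem hg hs (factor_mem hM.c_lt hc0 h)
  have hfac : ∀ y s : ℝ, |y| ≤ 1 → |s| = 1 → 0 ≤ (1 + y * s) / 2 := fun y s hy hs => by
    have := (abs_le.1 (show |y * s| ≤ 1 by rw [abs_mul, hs, mul_one]; exact hy)).1
    linarith
  have hU : |S.cavU lam P Q| ≤ Real.log 2 + H + B * ((K : ℝ) * lam).toNNReal := by
    refine abs_poisson_integral_le _ fun n => ?_
    have := prob_unifFin (α := Fin K)
    refine abs_integral_le_ae (μ := Measure.pi fun _ : Fin n => P.prod (unifFin (Fin K))) ?_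
    have hg : ∀ᵐ c₁ : Fin n → Factor K × Fin K ∂Measure.pi fun _ => P.prod (unifFin (Fin K)),
        ∀ k σ, 1 - c ≤ factorWeight (c₁ k).1 σ ∧ factorWeight (c₁ k).1 σ ≤ 1 + c :=
      ae_all_iff.2 fun k => (measurePreserving_eval
        (fun _ : Fin n => P.prod (unifFin (Fin K))) k).quasiMeasurePreserving.ae
        (measurePreserving_fst.quasiMeasurePreserving.ae (IsBoundedModel.weight_ae hM))
    filter_upwards [hg] with c₁ hc₁
    refine abs_integral_le_ae ?_
    filter_upwards [hM.h_le] with h hh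
    refine abs_integral_le_ae (ae_of_all _ fun ω => ?_)
    have key : ∀ a, 2 * (Real.exp (-H) * Real.exp (-(B * n))) ≤
        siteTerm c₁ h (fun i => S.mag ω a (msgSite i)) ∧
        siteTerm c₁ h (fun i => S.mag ω a (msgSite i)) ≤ 2 * (Real.exp H * Real.exp (B * n)) := by
      intro a
      have hterm : ∀ ε : Bool, Real.exp (-H) * Real.exp (-(B * n)) ≤
          Real.exp (h * spin ε) * ∏ k, ∑ σ : Fin K → Bool, (if σ (c₁ k).2 = ε then
            factorWeight (c₁ k).1 σ * ∏ j ∈ Finset.univ.erase (c₁ k).2,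
              (1 + S.mag ω a (msgSite (k, j)) * spin (σ j)) / 2 else 0) ∧
          Real.exp (h * spin ε) * ∏ k, ∑ σ : Fin K → Bool, (if σ (c₁ k).2 = ε then
            factorWeight (c₁ k).1 σ * ∏ j ∈ Finset.univ.erase (c₁ k).2,
              (1 + S.mag ω a (msgSite (k, j)) * spin (σ j)) / 2 else 0) ≤
            Real.exp H * Real.exp (B * n) := by
        intro ε
        have hp := prod_mem (B := B) (f := fun k => ∑ σ : Fin K → Bool, (if σ (c₁ k).2 = ε then
            factorWeight (c₁ k).1 σ * ∏ j ∈ Finset.univ.erase (c₁ k).2,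
              (1 + S.mag ω a (msgSite (k, j)) * spin (σ j)) / 2 else 0)) fun k => by
          have e : ∀ σ : Fin K → Bool, (if σ (c₁ k).2 = ε then
              factorWeight (c₁ k).1 σ * ∏ j ∈ Finset.univ.erase (c₁ k).2,
                (1 + S.mag ω a (msgSite (k, j)) * spin (σ j)) / 2 else 0) =
              (if σ (c₁ k).2 = ε then ∏ j ∈ Finset.univ.erase (c₁ k).2,
                (1 + S.mag ω a (msgSite (k, j)) * spin (σ j)) / 2 else 0) *
                factorWeight (c₁ k).1 σ := fun σ => by split_ifs <;> ring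
          simp only [e]
          refine hmix _ _ (hc₁ k) (fun σ => ?_)
            (sum_pos_part (σy := fun j => S.mag ω a (msgSite (k, j))) _ ε)
          split_ifs
          · exact Finset.prod_nonneg fun j _ => hfac _ _ (hS.bounded ω a _) (abs_spin _)
          · exact le_rfl
        have hh2 : |h * spin ε| ≤ H := by rw [abs_mul, abs_spin, mul_one]; exact hh
        rw [abs_le] at hh2
        exact ⟨mul_le_mul (Real.exp_le_exp.2 hh2.1) hp.1 (Real.exp_pos _).le (Real.exp_pos _).le,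
          mul_le_mul (Real.exp_le_exp.2 hh2.2) hp.2 ((Real.exp_pos _).le.trans hp.1)
            (Real.exp_pos _).le⟩
      simp only [siteTerm, Fintype.sum_bool]
      have := hterm true
      have := hterm false
      constructor <;> linarith
    obtain ⟨w1, w2⟩ := weighted_mem (hS.nonneg ω) (hS.sum_one ω) key
    have hlo : (0 : ℝ) < 2 * (Real.exp (-H) * Real.exp (-(B * n))) := by positivity
    have l2 := Real.log_nonneg one_le_two
    have hH := IsBoundedModel.H_nonneg hM
    have hBn : 0 ≤ B * n := by positivity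
    have g1 := Real.log_le_log hlo w1
    have g2 := Real.log_le_log (hlo.trans_le w1) w2
    rw [Real.log_mul two_ne_zero (by positivity), ← Real.exp_add, Real.log_exp] at g1 g2
    rw [abs_le]
    constructor <;> linarith
  have hV : |S.cavV lam P| ≤ B * (((K : ℝ) - 1) * lam).toNNReal := by
    rw [← zero_add (B * _)]
    refine abs_poisson_integral_le _ fun n => ?_
    refine abs_integral_le_ae (μ := Measure.pi fun _ : Fin n => P) ?_
    have hg : ∀ᵐ c₁ : Fin n → Factor K ∂Measure.pi fun _ => P,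
        ∀ k σ, 1 - c ≤ factorWeight (c₁ k) σ ∧ factorWeight (c₁ k) σ ≤ 1 + c :=
      ae_all_iff.2 fun k => (measurePreserving_eval
        (fun _ : Fin n => P) k).quasiMeasurePreserving.ae (IsBoundedModel.weight_ae hM)
    filter_upwards [hg] with c₁ hc₁
    refine abs_integral_le_ae (ae_of_all _ fun ω => ?_)
    have key : ∀ a, Real.exp (-(B * n)) ≤ edgeTerm c₁ (fun i => S.mag ω a (msgSite i)) ∧
        edgeTerm c₁ (fun i => S.mag ω a (msgSite i)) ≤ Real.exp (B * n) := fun a => by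
      refine prod_mem fun k => ?_
      simp only [mul_comm (factorWeight (c₁ k) _)]
      exact hmix _ _ (hc₁ k)
        (fun σ => Finset.prod_nonneg fun j _ => hfac _ _ (hS.bounded ω a _) (abs_spin _))
        (sum_all (σy := fun j => S.mag ω a (msgSite (k, j))))
    obtain ⟨w1, w2⟩ := weighted_mem (hS.nonneg ω) (hS.sum_one ω) key
    have g1 := Real.log_le_log (Real.exp_pos _) w1
    have g2 := Real.log_le_log ((Real.exp_pos _).trans_le w1) w2
    rw [Real.log_exp] at g1 g2
    rw [abs_le, zero_add]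
    exact ⟨g1, g2⟩
  rw [RandomState.cav]
  have := abs_sub (S.cavU lam P Q) (S.cavV lam P)
  linarith

/-- The pressure is bounded. -/
theorem pressure_bound (hM : IsBoundedModel P Q c H) (hlam : 0 ≤ lam) (N : ℕ) :
    |pressure lam P Q N| ≤ Real.log 2 + H + clauseBd c * lam := by
  have hB := IsBoundedModel.clauseBd_nonneg hM
  have hH := IsBoundedModel.H_nonneg hM
  have := hM.prob_factor
  have := hM.prob_field
  have l2 := Real.log_nonneg one_le_two
  rcases Nat.eq_zero_or_pos N with rfl | hN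
  · simp [pressure]
    positivity
  have : NeZero N := ⟨hN.ne'⟩
  have := prob_markLaw P (N := N)
  have hN' : (0 : ℝ) < N := Nat.cast_pos.2 hN
  have h2 : |(N : ℝ) * pressure lam P Q N| ≤
      (N * Real.log 2 + H * N) + clauseBd c * (lam * N).toNNReal := by
    rw [pressure_eq hM lam]
    refine abs_poisson_integral_le _ fun n => abs_integral_le_const fun cl =>
      abs_integral_le_const fun h => ?_
    have := abs_logZ_ham hB hH cl h
    linarith
  rw [abs_mul, abs_of_pos hN', Real.coe_toNNReal _ (by positivity)] at h2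
  refine le_of_mul_le_mul_left (h2.trans (le_of_eq ?_)) hN'
  ring

theorem mix_exists {X : Type*} [MeasurableSpace X] (α β : Measure X) [IsProbabilityMeasure α]
    [IsProbabilityMeasure β] {a b : ℝ≥0} (hab : 0 < a + b) :
    ∃ η : Measure X, IsProbabilityMeasure η ∧
      ((a + b : ℝ≥0) : ℝ≥0∞) • η = (a : ℝ≥0∞) • α + (b : ℝ≥0∞) • β := by
  refine ⟨((a + b : ℝ≥0) : ℝ≥0∞)⁻¹ • ((a : ℝ≥0∞) • α + (b : ℝ≥0∞) • β), ⟨?_⟩, ?_⟩
  · simp only [Measure.smul_apply, Measure.add_apply, measure_univ, smul_eq_mul, mul_one,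
      ← ENNReal.coe_add]
    exact ENNReal.inv_mul_cancel (ENNReal.coe_ne_zero.2 hab.ne') ENNReal.coe_ne_top
  · rw [smul_smul, ENNReal.mul_inv_cancel (ENNReal.coe_ne_zero.2 hab.ne') ENNReal.coe_ne_top,
      one_smul]

/-- The constant in the cavity error. -/
def errC (L K : ℕ) (c lam : ℝ) : ℝ :=
  inflC L * arTot L + 3 * clauseBd c * lam * (K : ℝ) ^ 2

theorem cavRate_coe (hlam : 0 ≤ lam) (K N : ℕ) :
    (cavRate K lam N : ℝ) = lam * (N + 1) * ((N : ℝ) / (N + 1)) ^ K := by
  rw [cavRate, Real.coe_toNNReal _ (by positivity)]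

theorem hitRate_le (hK : 1 ≤ K) (N : ℕ) : ((N : ℝ) + 1) * pOne K N ≤ K := by
  obtain ⟨j, rfl⟩ : ∃ j, K = j + 1 := ⟨K - 1, by omega⟩
  simp only [pOne, add_tsub_cancel_right, NNReal.coe_mul, NNReal.coe_div, NNReal.coe_pow,
    NNReal.coe_add, NNReal.coe_natCast, NNReal.coe_one, pow_succ ((N : ℝ) + 1) j]
  have h1 : (N : ℝ) ^ j / ((N : ℝ) + 1) ^ j ≤ 1 := by
    rw [div_le_one (by positivity)]
    exact pow_le_pow_left₀ (Nat.cast_nonneg _) (by linarith) _
  have := mul_le_mul_of_nonneg_left h1 (show (0 : ℝ) ≤ ((j + 1 : ℕ) : ℝ) by positivity)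
  rw [mul_one] at this
  refine le_trans (le_of_eq ?_) this
  field_simp

/-- The clause law on `N + 1` sites, sorted by hits. -/
theorem markLaw_decomp [NeZero N] (hK : 2 ≤ K) (P : Measure (Factor K)) [IsProbabilityMeasure P] :
    ∃ (γ : Measure (Mark K (N + 1))) (ce : ℝ≥0), IsProbabilityMeasure γ ∧
      pZero K N + pOne K N + ce = 1 ∧
      markLaw P (N + 1) = (pZero K N : ℝ≥0∞) • liftLaw P N + (pOne K N : ℝ≥0∞) • hitLaw P N +
        (ce : ℝ≥0∞) • γ := by
  have : NeZero K := ⟨by omega⟩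
  have := prob_unifFin (α := Fin K → Fin N)
  have := prob_unifFin (α := Fin K × (Fin K → Fin N))
  obtain ⟨γ, ce, hγ, hsum, hdec⟩ := sites_decomp (K := K) (N := N) hK
  refine ⟨P.prod γ, ce, inferInstance, hsum, ?_⟩
  have : IsProbabilityMeasure ((unifFin (Fin K → Fin N)).map fun v => fun j => (v j).castSucc) :=
    Measure.isProbabilityMeasure_map Measurable.of_discrete.aemeasurable
  have : IsProbabilityMeasure
      ((unifFin (Fin K × (Fin K → Fin N))).map (hitTuple (K := K) (N := N))) :=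
    Measure.isProbabilityMeasure_map Measurable.of_discrete.aemeasurable
  have hf : ∀ (r : ℝ≥0) (m : Measure (Fin K → Fin (N + 1))) [IsFiniteMeasure m],
      IsFiniteMeasure ((r : ℝ≥0∞) • m) := fun r m _ => Measure.smul_finite m ENNReal.coe_ne_top
  have := hf (pZero K N) ((unifFin (Fin K → Fin N)).map fun v => fun j => (v j).castSucc)
  have := hf (pOne K N) ((unifFin (Fin K × (Fin K → Fin N))).map (hitTuple (K := K) (N := N)))
  have := hf ce γ
  show P.prod (unifFin (Fin K → Fin (N + 1))) = _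
  rw [hdec, Measure.prod_add, Measure.prod_add, prod_smul_coe, prod_smul_coe, prod_smul_coe,
    ← liftLaw_eq, ← hitLaw_eq]

/-- The system with `N + 1` sites against the site part of the cavity functional. -/
theorem cavity_site [NeZero N] (hlam : 0 < lam) (hK : 2 ≤ K) [IsProbabilityMeasure P]
    {B : ℝ} (hB : 0 ≤ B) {F G : (n : ℕ) → (Fin n → Mark K (N + 1)) → ℝ} (hF : ClauseFun B F)
    (hG : ClauseFun B G) {ε : ℝ} (hε : ∀ n cl, |F n cl - G n cl| ≤ ε) :
    |epoi (markLaw P (N + 1)) (lam * (N + 1)).toNNReal F -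
        ∫ l, levelMean (liftLaw P N) (hitLaw P N) (cavRate K lam N) G l
          ∂poissonMeasure ((K : ℝ) * lam).toNNReal| ≤
      ε + 2 * (B * (lam * (K : ℝ) ^ 2 / (N + 1))) := by
  have : NeZero K := ⟨by omega⟩
  have := prob_markLaw P (N := N + 1)
  have := prob_liftLaw P (N := N)
  have := prob_hitLaw P (N := N)
  obtain ⟨γ, ce, hγ, hsum, hdec⟩ := markLaw_decomp (N := N) hK P
  obtain ⟨hce, hq2⟩ := two_hits_le hK hsum
  set a : ℝ≥0 := cavRate K lam N with ha
  set r₁ : ℝ≥0 := (lam * (N + 1)).toNNReal with hr₁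
  set b : ℝ≥0 := r₁ * pOne K N with hb
  set e : ℝ≥0 := r₁ * ce with he
  set kl : ℝ≥0 := ((K : ℝ) * lam).toNNReal with hkl
  have hNp : (0 : ℝ) < (N : ℝ) + 1 := by positivity
  have cr : (r₁ : ℝ) = lam * (N + 1) := Real.coe_toNNReal _ (by positivity)
  have ckl : (kl : ℝ) = K * lam := Real.coe_toNNReal _ (by positivity)
  have ca : (a : ℝ) = lam * (N + 1) * ((N : ℝ) / (N + 1)) ^ K := cavRate_coe hlam.le K N
  have hap : a = r₁ * pZero K N := by
    apply NNReal.eq
    rw [ca, NNReal.coe_mul, cr, pZero]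
    push_cast
    rfl
  have hr : r₁ = a + b + e := by rw [hap, hb, he, ← mul_add, ← mul_add, hsum, mul_one]
  have cb : (b : ℝ) = lam * (((N : ℝ) + 1) * pOne K N) := by rw [hb, NNReal.coe_mul, cr]; ring
  have hbk : b ≤ kl := by
    rw [← NNReal.coe_le_coe, cb, ckl, mul_comm (K : ℝ)]
    exact mul_le_mul_of_nonneg_left (hitRate_le (by omega) N) hlam.le
  obtain ⟨d, hd⟩ := exists_add_of_le hbk
  have hNz : (0 : ℝ) < N := Nat.cast_pos.2 (Nat.pos_of_ne_zero (NeZero.ne N))
  have hapos : 0 < a := by rw [← NNReal.coe_pos, ca]; positivity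
  obtain ⟨η, hη, hηe⟩ := mix_exists (liftLaw P N) (hitLaw P N) (a := a) (b := b)
    (add_pos_of_pos_of_nonneg hapos zero_le)
  obtain ⟨μ₂, hμ₂, hμ₂e⟩ := mix_exists (liftLaw P N) (hitLaw P N) (a := a) (b := kl)
    (add_pos_of_pos_of_nonneg hapos zero_le)
  have h1 : ((a + b + e : ℝ≥0) : ℝ≥0∞) • markLaw P (N + 1) =
      ((a + b : ℝ≥0) : ℝ≥0∞) • η + (e : ℝ≥0∞) • γ := by
    rw [hηe, ← hr, hdec, smul_add, smul_add, smul_smul, smul_smul, smul_smul, ← ENNReal.coe_mul,
      ← ENNReal.coe_mul, ← ENNReal.coe_mul, ← hap, ← hb, ← he]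
  have h2 : ((a + b + d : ℝ≥0) : ℝ≥0∞) • μ₂ =
      ((a + b : ℝ≥0) : ℝ≥0∞) • η + (d : ℝ≥0∞) • hitLaw P N := by
    rw [add_assoc a b d, ← hd, hμ₂e, hηe, hd, ENNReal.coe_add, add_smul, add_assoc]
  have b1 := epoi_near (μ := markLaw P (N + 1)) hF hG r₁ hε
  have b2 := epoi_extra hG (a + b) e (by positivity) h1
  have b3 := epoi_extra hG (a + b) d (by positivity) h2
  have hW : epoi μ₂ (a + kl) G =
      ∫ l, levelMean (liftLaw P N) (hitLaw P N) a G l ∂poissonMeasure kl :=
    epoi_split hG a kl (by positivity) hμ₂e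
  rw [← hr] at b2
  rw [add_assoc a b d, ← hd, hW] at b3
  have ge : (e : ℝ) ≤ lam * (K : ℝ) ^ 2 / (N + 1) := by
    rw [he, NNReal.coe_mul, cr]
    refine (mul_le_mul_of_nonneg_left hce (by positivity)).trans (le_of_eq ?_)
    field_simp
  have gd : (d : ℝ) ≤ lam * (K : ℝ) ^ 2 / (N + 1) := by
    have : (kl : ℝ) = b + d := by exact_mod_cast hd
    rw [ckl, cb] at this
    have := mul_le_mul_of_nonneg_left hq2 hlam.le
    rw [mul_div_assoc]
    linarith
  have m1 := mul_le_mul_of_nonneg_left ge hB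
  have m2 := mul_le_mul_of_nonneg_left gd hB
  rw [abs_le] at b1 b2 b3 ⊢
  constructor <;> linarith

/-- The system with `N` sites against the clause part of the cavity functional. -/
theorem cavity_old [NeZero N] (hlam : 0 < lam) (hK : 2 ≤ K) [IsProbabilityMeasure P]
    {B : ℝ} (hB : 0 ≤ B) {F : (n : ℕ) → (Fin n → Mark K N) → ℝ} (hF : ClauseFun B F) :
    |(∫ l, levelMean (markLaw P N) (markLaw P N) (cavRate K lam N) F l
          ∂poissonMeasure (((K : ℝ) - 1) * lam).toNNReal) -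
        epoi (markLaw P N) (lam * N).toNNReal F| ≤ B * (lam * (K : ℝ) ^ 2 / (N + 1)) := by
  have := prob_markLaw P (N := N)
  obtain ⟨γ, ce, hγ, hsum, -⟩ := sites_decomp (K := K) (N := N) hK
  obtain ⟨-, hq2⟩ := two_hits_le hK hsum
  set a : ℝ≥0 := cavRate K lam N with ha
  set vl : ℝ≥0 := (((K : ℝ) - 1) * lam).toNNReal with hvl
  set r₀ : ℝ≥0 := (lam * N).toNNReal with hr₀
  have hK2 : (2 : ℝ) ≤ K := by exact_mod_cast hK
  have hNp : (0 : ℝ) < (N : ℝ) + 1 := by positivity
  have ca : (a : ℝ) = lam * (N + 1) * ((N : ℝ) / (N + 1)) ^ K := cavRate_coe hlam.le K N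
  have cvl : (vl : ℝ) = ((K : ℝ) - 1) * lam := Real.coe_toNNReal _ (by nlinarith)
  have cr0 : (r₀ : ℝ) = lam * N := Real.coe_toNNReal _ (by positivity)
  have hNz : (0 : ℝ) < N := Nat.cast_pos.2 (Nat.pos_of_ne_zero (NeZero.ne N))
  have hapos : 0 < a := by rw [← NNReal.coe_pos, ca]; positivity
  have hV : epoi (markLaw P N) (a + vl) F =
      ∫ l, levelMean (markLaw P N) (markLaw P N) a F l ∂poissonMeasure vl :=
    epoi_split hF a vl (by positivity) (by rw [ENNReal.coe_add, add_smul])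
  have hs : ((pZero K N : ℝ≥0) : ℝ) + pOne K N + ce = 1 := by exact_mod_cast hsum
  have hp0 : ((pZero K N : ℝ≥0) : ℝ) = ((N : ℝ) / (N + 1)) ^ K := by simp [pZero]
  have hbern : 1 - (K : ℝ) / (N + 1) ≤ ((N : ℝ) / (N + 1)) ^ K := by
    have := one_add_mul_le_pow (a := -(1 / ((N : ℝ) + 1)))
      (by have : 1 / ((N : ℝ) + 1) ≤ 1 := (div_le_one hNp).2 (by linarith); linarith) K
    rw [show (1 : ℝ) + -(1 / ((N : ℝ) + 1)) = N / (N + 1) by field_simp; ring] at this
    refine le_trans (le_of_eq ?_) this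
    ring
  have hle0 : r₀ ≤ a + vl := by
    rw [← NNReal.coe_le_coe, NNReal.coe_add, cr0, ca, cvl]
    have := mul_le_mul_of_nonneg_left hbern (show (0 : ℝ) ≤ lam * (N + 1) by positivity)
    have e0 : lam * ((N : ℝ) + 1) * (1 - (K : ℝ) / (N + 1)) = lam * ((N : ℝ) + 1 - K) := by
      field_simp
    linarith
  obtain ⟨g, hg⟩ := exists_add_of_le hle0
  have b4 : |epoi (markLaw P N) (a + vl) F - epoi (markLaw P N) r₀ F| ≤ B * g := by
    have hr0pos : 0 < r₀ + g := by rw [← hg]; positivity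
    rw [hg]
    exact epoi_extra hF r₀ g hr0pos (by rw [ENNReal.coe_add, add_smul])
  rw [hV] at b4
  refine b4.trans (mul_le_mul_of_nonneg_left ?_ hB)
  have h5 : (a : ℝ) + vl = r₀ + g := by exact_mod_cast hg
  rw [ca, cvl, cr0, ← hp0] at h5
  have := mul_le_mul_of_nonneg_left hq2 hlam.le
  have hcen : 0 ≤ lam * ((N : ℝ) + 1) * ce := by positivity
  have hs2 := congrArg (fun z : ℝ => lam * ((N : ℝ) + 1) * z) hs
  rw [mul_div_assoc]
  linarith

theorem cavity_main [NeZero N] (hlam : 0 < lam) (hK : 2 ≤ K) (hM : IsBoundedModel P Q c H)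
    (p : Params) {x : Obs p.L → ℝ} (hx : ∀ o, |x o| ≤ 2) :
    |pertLogZ p (N + 1) P Q (lam * (N + 1)).toNNReal x -
        pertLogZ p N P Q (lam * N).toNNReal x -
        (sysState p N P Q (cavRate K lam N) x).cav lam P Q| ≤
      errC p.L K c lam * (p.S + p.Q + p.s ^ 2 + 1) / (N + 1) := by
  have : NeZero K := ⟨by omega⟩
  have := hM.prob_factor
  have := hM.prob_field
  have hB := IsBoundedModel.clauseBd_nonneg hM
  have hH := IsBoundedModel.H_nonneg hM
  have b1 := cavity_site (N := N) hlam hK (P := P) hB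
    (F := famP (K := K) (N := N + 1) p (clauseBd c) H Q x)
    (G := famC (K := K) (N := N) p (clauseBd c) H Q x) (clauseFun_famP hB hH hx)
    (clauseFun_famC hB hH hx) (fun n cl => famP_sub_famC hB hH hx n cl)
  have b2 := cavity_old (N := N) hlam hK (P := P) hB
    (F := famP (K := K) (N := N) p (clauseBd c) H Q x) (clauseFun_famP hB hH hx)
  rw [RandomState.cav, cavU_eq p hM hx lam, cavV_eq p hM hx lam,
    pertLogZ_eq p hM _ hx, pertLogZ_eq p hM _ hx]
  set B := clauseBd c with hBdef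
  have he1 : inflC p.L * arTot p.L * (p.S + p.Q + p.s ^ 2) / (N + 1) +
      3 * (B * (lam * (K : ℝ) ^ 2 / (N + 1))) ≤
      errC p.L K c lam * (p.S + p.Q + p.s ^ 2 + 1) / (N + 1) := by
    rw [show 3 * (B * (lam * (K : ℝ) ^ 2 / (N + 1))) =
      3 * B * lam * (K : ℝ) ^ 2 / (N + 1) by ring, ← add_div]
    refine div_le_div_of_nonneg_right ?_ (by positivity)
    have h1 : 0 ≤ inflC p.L * arTot p.L := mul_nonneg (inflC_nonneg _) (arTot_nonneg _)
    have h2 : 0 ≤ 3 * B * lam * (K : ℝ) ^ 2 := by positivity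
    have h3 : (0 : ℝ) ≤ p.S + p.Q + p.s ^ 2 := by positivity
    simp only [errC, ← hBdef]
    nlinarith
  rw [abs_le] at b1 b2 ⊢
  constructor <;> linarith

theorem tendsto_size (L : ℕ) : Tendsto (fun M : ℕ =>
    (((horizonParams L M).S : ℝ) + (horizonParams L M).Q + (horizonParams L M).s ^ 2 + 1) / M)
    atTop (𝓝 0) := by
  have h0 : Tendsto (fun M : ℕ => 7 * (M : ℝ) ^ (-(3 / 20) : ℝ)) atTop (𝓝 0) := by
    simpa using ((tendsto_rpow_neg_atTop (by norm_num : (0 : ℝ) < 3 / 20)).comp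
      tendsto_natCast_atTop_atTop).const_mul (7 : ℝ)
  refine squeeze_zero' (Eventually.of_forall fun M => by positivity) ?_ h0
  filter_upwards [eventually_ge_atTop 1] with M hM
  have hM' : (1 : ℝ) ≤ M := by exact_mod_cast hM
  have hp : 1 ≤ (M : ℝ) ^ (17 / 20 : ℝ) := Real.one_le_rpow hM' (by norm_num)
  have hS : ((horizonParams L M).S : ℝ) ≤ (M : ℝ) ^ (17 / 20 : ℝ) + 2 := by
    have := Nat.ceil_lt_add_one (show (0 : ℝ) ≤ (M : ℝ) ^ (17 / 20 : ℝ) by positivity)
    simp only [horizonParams, Nat.cast_add, Nat.cast_one]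
    linarith
  have hQ : ((horizonParams L M).Q : ℝ) ≤ (M : ℝ) ^ (17 / 20 : ℝ) + 1 := by
    simp only [horizonParams, Nat.cast_add, Nat.cast_one]
    have h1 : (Nat.sqrt M : ℝ) ≤ Real.sqrt M := Real.nat_sqrt_le_real_sqrt
    rw [Real.sqrt_eq_rpow] at h1
    have := Real.rpow_le_rpow_of_exponent_le hM' (by norm_num : (1 / 2 : ℝ) ≤ 17 / 20)
    linarith
  have hs : (horizonParams L M).s ^ 2 ≤ (M : ℝ) ^ (17 / 20 : ℝ) := by
    simp only [horizonParams]
    rw [← Real.rpow_natCast, ← Real.rpow_mul (by positivity)]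
    exact Real.rpow_le_rpow_of_exponent_le hM' (by norm_num)
  have e : (M : ℝ) ^ (-(3 / 20) : ℝ) = (M : ℝ) ^ (17 / 20 : ℝ) / M := by
    rw [show (-(3 / 20) : ℝ) = 17 / 20 - 1 by norm_num, Real.rpow_sub_one (by positivity)]
  rw [e, ← mul_div_assoc]
  gcongr
  linarith

end Vale.Agent.P168.Limit.Cavity

namespace Vale.Agent.P168.Limit

open Cavity

/-- The cavity computation. -/
theorem cavity_stmt : CavityStmt := by
  intro K lam P Q c H hb
  have hM := hb.model
  have hlam := hb.lam_pos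
  have : NeZero K := ⟨by have := hb.two_le; omega⟩
  refine ⟨⟨_, fun S hS => cav_bound hM lam S hS⟩, ⟨_, fun N => pressure_bound hM hlam.le N⟩,
    fun L ε hε => ?_⟩
  have hB := IsBoundedModel.clauseBd_nonneg hM
  set C₁ := errC (L + 1) K c lam
  set C₂ := totC (L + 1)
  have h1 := (tendsto_size L).const_mul (2 * C₁ + C₂)
  rw [mul_zero] at h1
  filter_upwards [h1.eventually_le_const hε, eventually_ge_atTop 1] with M hM1 hM0 N hN2 hNM x hx
  have hN0 : NeZero N := ⟨by omega⟩
  have := hM.prob_factor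
  have := hM.prob_field
  have := prob_markLaw P (N := N)
  have hC1 : 0 ≤ C₁ := by
    have := inflC_nonneg (L + 1)
    have := arTot_nonneg (L + 1)
    simp only [C₁, errC]
    positivity
  have hC2 : 0 ≤ C₂ := by
    have := tiltTot_nonneg (L + 1)
    have := monTot_nonneg (L + 1)
    simp only [C₂, totC]
    positivity
  set p := horizonParams L M with hp
  set z : ℝ := (p.S : ℝ) + p.Q + p.s ^ 2 + 1 with hz
  have hMr : (0 : ℝ) < M := by exact_mod_cast hM0
  have hz0 : 0 ≤ z := by positivity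
  have hzM : (2 * C₁ + C₂) * (z / M) ≤ ε := hM1
  have hC2z : 0 ≤ C₂ * (z / M) := by positivity
  have hC1z : 0 ≤ C₁ * (z / M) := by positivity
  refine ⟨?_, ?_⟩
  · refine (cavity_main hlam hb.two_le hM p hx).trans ?_
    have hN' : (M : ℝ) ≤ 2 * ((N : ℝ) + 1) := by
      have : (M : ℝ) ≤ 2 * N := by exact_mod_cast hN2
      linarith
    have h2 : C₁ * z / ((N : ℝ) + 1) ≤ 2 * C₁ * (z / M) := by
      rw [mul_div_assoc', div_le_div_iff₀ (by positivity) hMr]
      nlinarith [mul_nonneg hC1 hz0]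
    show C₁ * z / ((N : ℝ) + 1) ≤ ε
    linarith
  · rw [pertLogZ_eq p hM _ hx, pressure_eq hM lam]
    refine (epoi_near (clauseFun_famP hB (IsBoundedModel.H_nonneg hM) hx)
      (clauseFun_fam0 hB (IsBoundedModel.H_nonneg hM)) _
      (fun n cl => famP_sub_fam0 hB (IsBoundedModel.H_nonneg hM) hx n cl)).trans ?_
    have h3 : C₂ * z ≤ ε * M := by
      have h4 : C₂ * (z / M) ≤ ε := by linarith
      rw [mul_div_assoc', div_le_iff₀ hMr] at h4
      exact h4
    show C₂ * (p.S + p.Q + p.s ^ 2) ≤ ε * M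
    nlinarith

end Vale.Agent.P168.Limit
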