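import Vale.Agent.P168.Limit.CavityPert

/-! Averaging over the sites of the slots: one site more is not felt. -/

open MeasureTheory ProbabilityTheory Filter
open scoped BigOperators NNReal ENNReal Topology

noncomputable section

namespace Vale.Agent.P168.Limit.Cavity

variable (p : Params) {N : ℕ}

/-- The uniform average over environments. -/
def envAvg (Ψ : Env p N → ℝ) : ℝ := (Fintype.card (Env p N) : ℝ)⁻¹ * ∑ e, Ψ e

theorem nonempty_env [NeZero N] : Nonempty (Env p N) :=
  ⟨(fun _ _ _ => 0, fun _ _ _ => 0, fun _ => ⟨0, p.Q_pos⟩)⟩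

theorem card_env_pos [NeZero N] : (0 : ℝ) < (Fintype.card (Env p N) : ℝ) :=
  Nat.cast_pos.2 (Fintype.card_pos_iff.2 (nonempty_env p))

/-- Trade a pair (site among `N + 1`, spare site) for a pair (site among `N`, spare site). -/
def siteSwap : Fin (N + 1) × Fin N ≃ Fin N × Fin (N + 1) where
  toFun q := Fin.lastCases (q.2, Fin.last N) (fun i => (i, q.2.castSucc)) q.1
  invFun q := Fin.lastCases (Fin.last N, q.1) (fun j => (q.1.castSucc, j)) q.2
  left_inv := fun ⟨v, w⟩ => by
    induction v using Fin.lastCases with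
    | last => simp
    | cast i => simp
  right_inv := fun ⟨a, b⟩ => by
    induction b using Fin.lastCases with
    | last => simp
    | cast j => simp

theorem siteSwap_fst {v : Fin (N + 1)} (hv : v ≠ Fin.last N) (w : Fin N) :
    (siteSwap (v, w)).1.castSucc = v := by
  induction v using Fin.lastCases with
  | last => exact absurd rfl hv
  | cast i => simp [siteSwap]

/-- The same trade for whole environments. -/
def envSwap : Env p (N + 1) × Env p N ≃ Env p N × Env p (N + 1) where
  toFun q :=
    ((fun g u i => (siteSwap (q.1.1 g u i, q.2.1 g u i)).1,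
        fun g j i => (siteSwap (q.1.2.1 g j i, q.2.2.1 g j i)).1, q.1.2.2),
      (fun g u i => (siteSwap (q.1.1 g u i, q.2.1 g u i)).2,
        fun g j i => (siteSwap (q.1.2.1 g j i, q.2.2.1 g j i)).2, q.2.2.2))
  invFun q :=
    ((fun g u i => (siteSwap.symm (q.1.1 g u i, q.2.1 g u i)).1,
        fun g j i => (siteSwap.symm (q.1.2.1 g j i, q.2.2.1 g j i)).1, q.1.2.2),
      (fun g u i => (siteSwap.symm (q.1.1 g u i, q.2.1 g u i)).2,
        fun g j i => (siteSwap.symm (q.1.2.1 g j i, q.2.2.1 g j i)).2, q.2.2.2))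
  left_inv q := by simp
  right_inv q := by simp

/-- The slots that read the new site. -/
def hitD (e : Env p (N + 1)) (g : Fin p.L) : Finset (Fin p.S) :=
  Finset.univ.filter fun u => ∃ i, e.1 g u i = Fin.last N

/-- The further tilts that read the new site. -/
def hitD' (e : Env p (N + 1)) (g : Fin p.L) : Finset (Fin p.Q) :=
  Finset.univ.filter fun j => ∃ i, e.2.1 g j i = Fin.last N

theorem sameOff_swap (e : Env p (N + 1)) (e' : Env p N) :
    SameOff p e (mapEnv p Fin.castSucc (envSwap p (e, e')).1) (hitD p e) (hitD' p e) := by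
  refine ⟨fun g u hu => ?_, fun g j hj => ?_, rfl⟩
  · simp only [hitD, Finset.mem_filter, Finset.mem_univ, true_and, not_exists] at hu
    funext i
    exact (siteSwap_fst (hu i) _).symm
  · simp only [hitD', Finset.mem_filter, Finset.mem_univ, true_and, not_exists] at hj
    funext i
    exact (siteSwap_fst (hj i) _).symm

/-- Move the sites of an environment by a bijection. -/
def envPerm (π : Equiv.Perm (Fin N)) : Env p N ≃ Env p N where
  toFun := mapEnv p π
  invFun := mapEnv p π.symm
  left_inv e := by simp [mapEnv]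
  right_inv e := by simp [mapEnv]

theorem sum_site_eq (f : Env p (N + 1) → Fin (N + 1))
    (hf : ∀ (π : Equiv.Perm (Fin (N + 1))) e, f (mapEnv p π e) = π (f e)) :
    ((N : ℝ) + 1) * ∑ e, (if f e = Fin.last N then (1 : ℝ) else 0) =
      (Fintype.card (Env p (N + 1)) : ℝ) := by
  have := nonempty_env p (N := N + 1)
  have h : ∀ v, ∑ e, (if f e = v then (1 : ℝ) else 0) =
      ∑ e, (if f e = Fin.last N then (1 : ℝ) else 0) := by
    intro v
    refine Fintype.sum_equiv (envPerm p (Equiv.swap v (Fin.last N))) _ _ fun e => ?_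
    simp only [envPerm, Equiv.coe_fn_mk, hf]
    refine if_congr ?_ rfl rfl
    exact ⟨fun h => by rw [h, Equiv.swap_apply_left],
      fun h => (Equiv.swap v (Fin.last N)).injective (by rw [h, Equiv.swap_apply_left])⟩
  have h2 : ∑ v, ∑ e, (if f e = v then (1 : ℝ) else 0) =
      (Fintype.card (Env p (N + 1)) : ℝ) := by
    rw [Finset.sum_comm]; simp
  rw [← h2, Finset.sum_congr rfl fun v _ => h v]
  simp

theorem avg_hit {n : ℕ} (r : Env p (N + 1) → (g : Fin p.L) → Fin n → Fin (arity g) → Fin (N + 1))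
    (hr : ∀ (π : Equiv.Perm (Fin (N + 1))) e g u i, r (mapEnv p π e) g u i = π (r e g u i)) :
    envAvg p (fun e => numSlots fun g =>
        Finset.univ.filter fun u => ∃ i, r e g u i = Fin.last N) ≤
      n * arTot p.L / (N + 1) := by
  classical
  have := nonempty_env p (N := N + 1)
  have hc := card_env_pos p (N := N + 1)
  have key : ∀ g : Fin p.L,
      ∑ e, ((Finset.univ.filter fun u => ∃ i, r e g u i = Fin.last N).card : ℝ) ≤
        n * (arity g : ℝ) * ((Fintype.card (Env p (N + 1)) : ℝ) / (N + 1)) := by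
    intro g
    have h1 : ∀ e, ((Finset.univ.filter fun u => ∃ i, r e g u i = Fin.last N).card : ℝ) ≤
        ∑ u, ∑ i, if r e g u i = Fin.last N then (1 : ℝ) else 0 := by
      intro e
      rw [← Finset.sum_boole]
      refine Finset.sum_le_sum fun u _ => ?_
      split_ifs with h
      · obtain ⟨i, hi⟩ := h
        refine le_trans (le_of_eq (by simp [hi])) (Finset.single_le_sum
          (f := fun i => if r e g u i = Fin.last N then (1 : ℝ) else 0)
          (fun j _ => by positivity) (Finset.mem_univ i))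
      · exact Finset.sum_nonneg fun j _ => by positivity
    refine (Finset.sum_le_sum fun e _ => h1 e).trans (le_of_eq ?_)
    rw [Finset.sum_comm, Finset.sum_congr rfl fun u _ => Finset.sum_comm]
    have h2 : ∀ u i, ∑ e, (if r e g u i = Fin.last N then (1 : ℝ) else 0) =
        (Fintype.card (Env p (N + 1)) : ℝ) / (N + 1) := fun u i => by
      rw [eq_div_iff (by positivity), mul_comm]
      exact sum_site_eq p (fun e => r e g u i) fun π e => hr π e g u i
    simp only [h2, Finset.sum_const, Finset.card_univ, Fintype.card_fin, nsmul_eq_mul]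
    ring
  simp only [envAvg, numSlots]
  rw [Finset.sum_comm, inv_mul_le_iff₀ hc]
  refine (Finset.sum_le_sum fun g _ => key g).trans_eq ?_
  simp only [arTot, ← Finset.sum_mul, ← Finset.mul_sum]
  ring

theorem inflC_nonneg (L : ℕ) : 0 ≤ inflC L := by
  have := tiltTot_nonneg L
  have := monTot_nonneg L
  unfold inflC
  positivity

theorem avg_pair {α β : Type*} [Fintype α] [Fintype β] [Nonempty α] [Nonempty β] (f : α → ℝ)
    (g : β → ℝ) (F : α × β → ℝ)
    (hF : ∑ q, F q = (Fintype.card α : ℝ) * ∑ e, g e) :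
    (Fintype.card α : ℝ)⁻¹ * ∑ e, f e - (Fintype.card β : ℝ)⁻¹ * ∑ e, g e =
      ((Fintype.card α : ℝ) * Fintype.card β)⁻¹ * ∑ q : α × β, (f q.1 - F q) := by
  rw [Finset.sum_sub_distrib, hF, Fintype.sum_prod_type]
  have h1 : (0 : ℝ) < Fintype.card α := Nat.cast_pos.2 Fintype.card_pos
  have h2 : (0 : ℝ) < Fintype.card β := Nat.cast_pos.2 Fintype.card_pos
  simp only [Finset.sum_const, Finset.card_univ, nsmul_eq_mul, ← Finset.mul_sum]
  field_simp

theorem avg_fst {α β : Type*} [Fintype α] [Fintype β] [Nonempty β] (f : α → ℝ) :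
    ((Fintype.card α : ℝ) * Fintype.card β)⁻¹ * ∑ q : α × β, f q.1 =
      (Fintype.card α : ℝ)⁻¹ * ∑ e, f e := by
  have h2 : (0 : ℝ) < Fintype.card β := Nat.cast_pos.2 Fintype.card_pos
  rw [Fintype.sum_prod_type]
  simp only [Finset.sum_const, Finset.card_univ, nsmul_eq_mul, ← Finset.mul_sum]
  field_simp

/-- One site more is not felt by the perturbation. -/
theorem env_avg [NeZero N] (A : (Fin (N + 1) → Bool) → ℝ) (x : Obs p.L → ℝ)
    (hx : ∀ o, |x o| ≤ 2) :
    |envAvg p (fun e : Env p (N + 1) => pertE p A x e) -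
        envAvg p (fun e : Env p N => pertE p A x (mapEnv p Fin.castSucc e))| ≤
      inflC p.L * arTot p.L * (p.S + p.Q + p.s ^ 2) / (N + 1) := by
  have := nonempty_env p (N := N)
  have := nonempty_env p (N := N + 1)
  set Ψ := fun e : Env p (N + 1) => pertE p A x e
  set c₁ := (Fintype.card (Env p (N + 1)) : ℝ)
  set c₀ := (Fintype.card (Env p N) : ℝ)
  have hc₁ : 0 < c₁ := card_env_pos p
  have hc₀ : 0 < c₀ := card_env_pos p
  set b := fun e : Env p (N + 1) => inflC p.L *
    (numSlots (hitD p e) + numSlots (hitD' p e) + p.s ^ 2 * (numSlots (hitD p e) / p.S))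
  have hsum : ∑ q : Env p (N + 1) × Env p N, Ψ (mapEnv p Fin.castSucc (envSwap p q).1) =
      c₁ * ∑ e : Env p N, Ψ (mapEnv p Fin.castSucc e) := by
    rw [(envSwap p).sum_comp fun q => Ψ (mapEnv p Fin.castSucc q.1), Fintype.sum_prod_type,
      Finset.mul_sum]
    simp [c₁]
  have hdiff : envAvg p Ψ - envAvg p (fun e : Env p N => Ψ (mapEnv p Fin.castSucc e)) =
      (c₁ * c₀)⁻¹ * ∑ q : Env p (N + 1) × Env p N,
        (Ψ q.1 - Ψ (mapEnv p Fin.castSucc (envSwap p q).1)) := by
    exact avg_pair _ _ _ hsum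
  change |envAvg p Ψ - envAvg p (fun e : Env p N => Ψ (mapEnv p Fin.castSucc e))| ≤ _
  rw [hdiff, abs_mul, abs_of_pos (inv_pos.2 (mul_pos hc₁ hc₀))]
  have hb : ∀ q : Env p (N + 1) × Env p N,
      |Ψ q.1 - Ψ (mapEnv p Fin.castSucc (envSwap p q).1)| ≤ b q.1 :=
    fun q => (sameOff_swap p q.1 q.2).pertE_le A x hx
  refine (mul_le_mul_of_nonneg_left ((Finset.abs_sum_le_sum_abs _ _).trans
    (Finset.sum_le_sum fun q _ => hb q)) (by positivity)).trans ?_
  have e1 : (c₁ * c₀)⁻¹ * ∑ q : Env p (N + 1) × Env p N, b q.1 = envAvg p b := avg_fst b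
  rw [e1]
  have a1 := avg_hit p (N := N) (fun e => e.1) fun π e g u i => rfl
  have a2 := avg_hit p (N := N) (fun e => e.2.1) fun π e g u i => rfl
  have e2 : envAvg p b = inflC p.L * ((1 + p.s ^ 2 / p.S) * envAvg p (fun e : Env p (N + 1) => numSlots (hitD p e)) +
      envAvg p (fun e : Env p (N + 1) => numSlots (hitD' p e))) := by
    simp only [envAvg, b, ← Finset.mul_sum, Finset.sum_add_distrib]
    simp only [← Finset.sum_div, ← Finset.mul_sum]
    ring
  rw [e2, mul_assoc (inflC p.L), mul_div_assoc]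
  refine mul_le_mul_of_nonneg_left ?_ (inflC_nonneg _)
  refine (add_le_add (mul_le_mul_of_nonneg_left a1 (by positivity)) a2).trans_eq ?_
  have := S_pos' p
  field_simp
  ring

end Vale.Agent.P168.Limit.Cavity
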