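import Vale.Agent.P168.Limit.System
import Vale.Agent.P168.Statements

/-! The statements of the parts of the limit module, as propositions. -/

open MeasureTheory ProbabilityTheory Filter
open scoped BigOperators NNReal ENNReal

noncomputable section

namespace Vale.Agent.P168.Limit

/-- A coordinate of the data of `n` replicas. -/
abbrev Coord (n : ℕ) := (Fin n × ℕ) ⊕ (ℕ × Fin n × Fin n)

/-- The value of a coordinate. -/
def coordVal {n : ℕ} : Coord n → RepData n → ℝ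
  | Sum.inl (l, i), z => spin (z.1 l i)
  | Sum.inr (g, a, b), z => z.2 g a b

/-- A monomial in the data of `n` replicas. -/
def repMono {n : ℕ} (F : List (Coord n)) (ω : Arr) : ℝ :=
  (F.map fun c => coordVal c (repData n ω)).prod

/-- A monomial in a vector of kernels. -/
def kMono (w : List ℕ) (a b : ℕ) (ω : Arr) : ℝ := (w.map fun g => ω.2 g a b).prod

/-- All spins read by the monomial sit at sites below `q`. -/
def SitesBelow {n : ℕ} (F : List (Coord n)) (q : ℕ) : Prop :=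
  ∀ l i, Sum.inl (l, i) ∈ F → i < q

/-- A gadget read at the fresh sites `q, q + 1, …`. -/
def freshValue (Γ : Gadget) (s : Bool) {J : ℕ} (a : Fin J → Fin Γ.1) (l l' q : ℕ)
    (g : Fin J → ℕ) (ω : Arr) : ℝ :=
  (1 / 4) * ∑ u : Bool, ∑ v : Bool,
    (if u then spin s else 1) * (if v then spin s else 1) *
      ∏ i : Fin Γ.2.1.length, spinProd (edgeReps (edgeAt Γ i) a l l' u v g) (q + i) ω

/-- A sequence of laws whose limit points are gadget arrays. -/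
structure IsApprox (ν : ℕ → Measure Arr) : Prop where
  prob : ∀ j, IsProbabilityMeasure (ν j)
  exch_rep : ∀ j, ∀ π : Equiv.Perm ℕ, (ν j).map (permRep π) = ν j
  exch_site : ∀ j, ∀ π : Equiv.Perm ℕ, (ν j).map (permSite π) = ν j
  symm : ∀ j g a b, ∀ᵐ ω ∂ν j, ω.2 g a b = ω.2 g b a
  bound : ∀ j g a b, ∀ᵐ ω ∂ν j, |ω.2 g a b| ≤ 1
  psd : ∀ j g n, ∀ c : Fin n → ℝ, ∀ᵐ ω ∂ν j, 0 ≤ ∑ a, ∑ b, c a * c b * ω.2 g a b
  unused : ∀ g, g ≠ 0 → (∀ (Γ : Gadget) (s : Bool), kidx Γ s ≠ g) →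
    ∀ j a b, ∀ᵐ ω ∂ν j, ω.2 g a b = 0
  site_avg : ∀ (L : List ℕ) (j k k' : ℕ), 0 < k → 0 < k' →
    ∫ ω, ((∑ i ∈ Finset.range k, spinProd L i ω) / k -
      (∑ i ∈ Finset.range k', spinProd L i ω) / k') ^ 2 ∂ν j ≤ 2 / k + 2 / k'
  diag : ∀ g, ∃ d : ℕ → ℝ, (∀ j, |d j| ≤ 1) ∧
    ∀ a, Tendsto (fun j => ∫ ω, |ω.2 g a a - d j| ∂ν j) atTop (nhds 0)
  magnetisation : ∃ o : ℕ → ℝ, (∀ j, |o j| ≤ 1) ∧
    ∀ (n : ℕ) (F : List (Coord n)) (q a : ℕ), SitesBelow F q → a < n →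
      Tendsto (fun j => (∫ ω, repMono F ω * spinProd [a] q ω ∂ν j) - o j * ∫ ω, repMono F ω ∂ν j)
        atTop (nhds 0)
  gg : ∀ n : ℕ, 1 ≤ n → ∀ (F : List (Coord n)) (w : List ℕ),
    Tendsto (fun j => (n : ℝ) * (∫ ω, repMono F ω * kMono w 0 n ω ∂ν j) -
      ((∫ ω, repMono F ω ∂ν j) * (∫ ω, kMono w 0 1 ω ∂ν j) +
        ∑ l ∈ Finset.Ico 1 n, ∫ ω, repMono F ω * kMono w 0 l ω ∂ν j)) atTop (nhds 0)
  overlap : ∀ (n : ℕ) (F : List (Coord n)) (q a b : ℕ), SitesBelow F q → a < n → b < n →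
    Tendsto (fun j => (∫ ω, repMono F ω * ω.2 0 a b ∂ν j) -
      ∫ ω, repMono F ω * spinProd [a, b] q ω ∂ν j) atTop (nhds 0)
  gadget : ∀ (Γ : Gadget) (s : Bool) (n q l l' : ℕ) (F : List (Coord n)), SitesBelow F q →
    l < n → l' < n →
    Tendsto (fun j => (∫ ω, repMono F ω * ω.2 (kidx Γ s) l l' ∂ν j) -
      ∑' J : ℕ, ((J.factorial : ℝ))⁻¹ * ∑ a : Fin J → Fin Γ.1, (∏ i, Γ.tilt (a i)) *
        ∫ ω, repMono F ω * ins J n (fun g => freshValue Γ s a l l' q g ω) ∂ν j) atTop (nhds 0)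

/-- Compactness: a limit point of an approximating sequence is a gadget array. -/
def ArrayLimitStmt : Prop :=
  ∀ ν : ℕ → Measure Arr, IsApprox ν → ∃ (νlim : Measure Arr) (φ : ℕ → ℕ),
    StrictMono φ ∧ IsGadgetArray νlim ∧ ∀ (M n : ℕ) (A : Fin M → Finset (Fin n)),
      Tendsto (fun j => arrayMoment (ν (φ j)) A) atTop (nhds (arrayMoment νlim A))

/-- Self-averaging: the fluctuations are small for most tuning parameters. -/
def SelfAverageStmt : Prop :=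
  ∀ (K : ℕ) (lam : ℝ) (P : Measure (Factor K)) (Q : Measure ℝ) (c H : ℝ),
    Bounded K lam P Q c H → ∀ L : ℕ, ∀ ε > 0, ∀ᶠ M in atTop,
      ∀ N : ℕ, M ≤ 2 * N → N ≤ M → ∀ μ : ℝ≥0, (μ : ℝ) ≤ lam * M →
        ∫ x, fluct (horizonParams L M) N P Q μ x ∂xLaw (horizonParams L M).L ≤ ε

/-- The Gibbs state of the perturbed system, read at uniformly sampled sites. -/
def sysState {K : ℕ} (p : Params) (N : ℕ) (P : Measure (Factor K)) (Q : Measure ℝ) (μ : ℝ≥0)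
    (x : Obs p.L → ℝ) : RandomState where
  Ω := Dis K p N × (ℕ → Fin N)
  α := Fin N → Bool
  mΩ := inferInstance
  fα := inferInstance
  law := (disLaw p N P Q μ).prod (Measure.infinitePi fun _ : ℕ => unifFin (Fin N))
  w ω a := gw (totalH p x ω.1) a
  mag ω a i := spin (a (ω.2 i))

/-- The cavity computation. -/
def CavityStmt : Prop :=
  ∀ (K : ℕ) (lam : ℝ) (P : Measure (Factor K)) (Q : Measure ℝ) (c H : ℝ),
    Bounded K lam P Q c H →
    (∃ C : ℝ, ∀ S : RandomState, S.IsGood → |S.cav lam P Q| ≤ C) ∧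
    (∃ C : ℝ, ∀ N : ℕ, |pressure lam P Q N| ≤ C) ∧
    ∀ L : ℕ, ∀ ε > 0, ∀ᶠ M in atTop, ∀ N : ℕ, M ≤ 2 * N → N ≤ M →
      ∀ x : Obs (horizonParams L M).L → ℝ, (∀ o, |x o| ≤ 2) →
        |pertLogZ (horizonParams L M) (N + 1) P Q (lam * (N + 1)).toNNReal x -
            pertLogZ (horizonParams L M) N P Q (lam * N).toNNReal x -
            (sysState (horizonParams L M) N P Q (cavRate K lam N) x).cav lam P Q| ≤ ε ∧
        |pertLogZ (horizonParams L M) N P Q (lam * N).toNNReal x - N * pressure lam P Q N| ≤ ε * M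

end Vale.Agent.P168.Limit
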