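import Vale.Agent.P168.Limit.CavityPoisson
import Vale.Agent.P168.Limit.CavityEnv
import Vale.Agent.P168.Limit.Parts

/-!
The mean log partition functions of the cavity computation as families over Poisson clauses.
The clause energies and fields are clipped, which changes nothing almost surely.
-/

open MeasureTheory ProbabilityTheory Filter
open scoped BigOperators NNReal ENNReal Topology

noncomputable section

namespace Vale.Agent.P168.Limit.Cavity

open Toolkit

variable {K N : ℕ}

/-- A clause with its sites. -/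
abbrev Mark (K N : ℕ) := Factor K × (Fin K → Fin N)

/-- Clipping to `[-B, B]`. -/
def clipR (B x : ℝ) : ℝ := max (-B) (min B x)

theorem abs_clipR {B : ℝ} (hB : 0 ≤ B) (x : ℝ) : |clipR B x| ≤ B :=
  abs_le.2 ⟨le_max_left _ _, max_le (by linarith) (min_le_left _ _)⟩

theorem clipR_eq {B x : ℝ} (h : |x| ≤ B) : clipR B x = x := by
  rw [abs_le] at h
  rw [clipR, min_eq_right h.2, max_eq_right h.1]

theorem measurable_clipR (B : ℝ) : Measurable (clipR B) :=
  measurable_const.max (measurable_const.min measurable_id)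

/-- The clipped energy of a clause. -/
def clauseE (B : ℝ) (m : Mark K N) (σ : Fin N → Bool) : ℝ :=
  clipR B (theta m.1 fun j => σ (m.2 j))

/-- The clipped energy of the fields. -/
def fieldE (H : ℝ) (h : Fin N → ℝ) (σ : Fin N → Bool) : ℝ := ∑ i, clipR H (h i) * spin (σ i)

/-- The clipped Hamiltonian. -/
def ham (B H : ℝ) {n : ℕ} (c : Fin n → Mark K N) (h : Fin N → ℝ) (σ : Fin N → Bool) : ℝ :=
  (∑ k, clauseE B (c k) σ) + fieldE H h σ

theorem measurable_theta (σ : Fin K → Bool) : Measurable fun θ : Factor K => theta θ σ := by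
  unfold theta factorWeight
  fun_prop

theorem measurable_clauseE (B : ℝ) (σ : Fin N → Bool) :
    Measurable fun m : Mark K N => clauseE B m σ := by
  have h : Measurable fun m : Mark K N => theta m.1 fun j => σ (m.2 j) :=
    measurable_from_prod_countable_left fun v => measurable_theta fun j => σ (v j)
  exact (measurable_clipR B).comp h

theorem measurable_ham (B H : ℝ) (n : ℕ) (σ : Fin N → Bool) :
    Measurable fun q : (Fin n → Mark K N) × (Fin N → ℝ) => ham B H q.1 q.2 σ := by
  refine Measurable.add (Finset.measurable_sum _ fun k _ => ?_)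
    (Finset.measurable_sum _ fun i _ => ?_)
  · exact (measurable_clauseE B σ).comp ((measurable_pi_apply k).comp measurable_fst)
  · exact ((measurable_clipR H).comp ((measurable_pi_apply i).comp measurable_snd)).mul_const _

theorem ham_append (B H : ℝ) {k l : ℕ} (c : Fin k → Mark K N) (d : Fin l → Mark K N)
    (h : Fin N → ℝ) (σ : Fin N → Bool) :
    ham B H (Fin.append c d) h σ = ham B H c h σ + ∑ i, clauseE B (d i) σ := by
  simp only [ham, Fin.sum_univ_add, Fin.append_left, Fin.append_right]
  ring

theorem ham_comp (B H : ℝ) {n m : ℕ} (e : Fin n ≃ Fin m) (c : Fin m → Mark K N) (h : Fin N → ℝ) :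
    ham B H (c ∘ e) h = ham B H c h := by
  funext σ
  simp only [ham, Function.comp_apply]
  rw [e.sum_comp fun k => clauseE B (c k) σ]

theorem abs_clauses_le {B : ℝ} (hB : 0 ≤ B) {n : ℕ} (c : Fin n → Mark K N) (σ : Fin N → Bool) :
    |∑ k, clauseE B (c k) σ| ≤ B * n :=
  (Finset.abs_sum_le_sum_abs _ _).trans ((Finset.sum_le_sum fun k _ => abs_clipR hB _).trans_eq
    (by simp [mul_comm]))

theorem abs_fieldE_le {H : ℝ} (hH : 0 ≤ H) (h : Fin N → ℝ) (σ : Fin N → Bool) :
    |fieldE H h σ| ≤ H * N :=
  (Finset.abs_sum_le_sum_abs _ _).trans ((Finset.sum_le_sum fun i _ =>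
    (by rw [abs_mul, abs_spin, mul_one]; exact abs_clipR hH _ :
      |clipR H (h i) * spin (σ i)| ≤ H)).trans_eq (by simp [mul_comm]))

theorem measurable_logZ_ham (B H : ℝ) (n : ℕ) :
    Measurable fun q : (Fin n → Mark K N) × (Fin N → ℝ) => logZ (ham B H q.1 q.2) := by
  have h : ∀ σ : Fin N → Bool,
      Measurable fun q : (Fin n → Mark K N) × (Fin N → ℝ) => Real.exp (ham B H q.1 q.2 σ) :=
    fun σ => Measurable.exp (measurable_ham B H n σ)
  simp only [logZ]
  exact Measurable.log (Finset.measurable_sum _ fun σ _ => h σ)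

theorem abs_logZ_ham {B H : ℝ} (hB : 0 ≤ B) (hH : 0 ≤ H) {n : ℕ} (c : Fin n → Mark K N)
    (h : Fin N → ℝ) : |logZ (ham B H c h)| ≤ N * Real.log 2 + (B * n + H * N) := by
  have h0 : logZ (fun _ : Fin N → Bool => (0 : ℝ)) = N * Real.log 2 := by
    simp [logZ, Real.log_pow]
  have := abs_logZ_sub_le (fun _ : Fin N → Bool => (0 : ℝ)) (ham B H c h) (c := B * n + H * N)
    fun σ => (abs_add_le _ _).trans (add_le_add (abs_clauses_le hB c σ) (abs_fieldE_le hH h σ))
  simp only [zero_add, h0] at this
  have hl : (0 : ℝ) ≤ N * Real.log 2 := by positivity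
  rw [abs_le] at this ⊢
  constructor <;> linarith

variable (p : Params)

theorem pertE_mono {A A' : (Fin N → Bool) → ℝ} (x : Obs p.L → ℝ) (e : Env p N) {C : ℝ}
    (h : ∀ σ, |A σ - A' σ| ≤ C) : |pertE p A x e - pertE p A' x e| ≤ C := by
  unfold pertE elogZ
  refine abs_integral_sub_le (integrable_logZ_lin _ _) (integrable_logZ_lin _ _) fun z => ?_
  have e1 : (fun σ => A σ + detPart p x e σ + ∑ f, coefF p x e f σ * z f) =
      fun σ => A' σ + detPart p x e σ + ∑ f, coefF p x e f σ * z f + (A σ - A' σ) :=
    funext fun σ => by ring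
  rw [e1]
  exact abs_logZ_sub_le _ _ h

theorem measurable_pertE (B H : ℝ) (x : Obs p.L → ℝ) (e : Env p N) (n : ℕ) :
    Measurable fun q : (Fin n → Mark K N) × (Fin N → ℝ) => pertE p (ham B H q.1 q.2) x e := by
  simp only [pertE_eq]
  refine (StronglyMeasurable.integral_prod_right' (f := fun z : ((Fin n → Mark K N) × (Fin N → ℝ)) ×
    (Feat p.L p.S → ℝ) => logZ fun σ => ham B H z.1.1 z.1.2 σ + pertH p x e z.2 σ) ?_).measurable
  simp only [pertH_eq, logZ]
  refine (Measurable.log (Finset.measurable_sum _ fun σ _ => Measurable.exp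
    (((measurable_ham B H n σ).comp measurable_fst).add ?_))).stronglyMeasurable
  fun_prop

variable (B H : ℝ) (Q : Measure ℝ) (x : Obs p.L → ℝ)

/-- The mean over fields and Gaussian variables, for given clauses and environment. -/
def phiE (e : Env p N) (n : ℕ) (c : Fin n → Mark K N) : ℝ :=
  ∫ h, pertE p (ham B H c h) x e ∂(Measure.pi fun _ => Q)

/-- The perturbed system. -/
def famP (n : ℕ) (c : Fin n → Mark K N) : ℝ := envAvg p fun e => phiE p B H Q x e n c

/-- The system with one site more whose slots avoid the new site. -/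
def famC (n : ℕ) (c : Fin n → Mark K (N + 1)) : ℝ :=
  envAvg p fun e : Env p N => phiE p B H Q x (mapEnv p Fin.castSucc e) n c

/-- The system without perturbation. -/
def fam0 (n : ℕ) (c : Fin n → Mark K N) : ℝ :=
  ∫ h, logZ (ham B H c h) ∂(Measure.pi fun _ => Q)

variable {p B H Q x} [IsProbabilityMeasure Q] (hB : 0 ≤ B) (hH : 0 ≤ H) (hx : ∀ o, |x o| ≤ 2)

/-- A bound on the perturbed log partition functions with `n` clauses. -/
def logBd (p : Params) (B H : ℝ) (N n : ℕ) : ℝ :=
  totC p.L * (p.S + p.Q + p.s ^ 2) + (N * Real.log 2 + (B * n + H * N))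

include hB hH hx in
theorem abs_pertE_ham (e : Env p N) {n : ℕ} (c : Fin n → Mark K N) (h : Fin N → ℝ) :
    |pertE p (ham B H c h) x e| ≤ logBd p B H N n := by
  have h1 := abs_pertE_sub (ham B H c h) x hx e
  have h2 := abs_logZ_ham hB hH c h
  have h3 := abs_sub_abs_le_abs_sub (pertE p (ham B H c h) x e) (logZ (ham B H c h))
  unfold logBd
  linarith

include hB hH hx in
theorem integrable_pertE (e : Env p N) {n : ℕ} (c : Fin n → Mark K N) :
    Integrable (fun h => pertE p (ham B H c h) x e) (Measure.pi fun _ => Q) :=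
  .of_bound ((measurable_pertE p B H x e n).comp
    (measurable_const.prodMk measurable_id)).aestronglyMeasurable _
    (ae_of_all _ fun h => abs_pertE_ham hB hH hx e c h)

include hB hH hx in
theorem clauseFun_phiE (e : Env p N) : ClauseFun B (phiE (K := K) p B H Q x e) where
  meas n := ((measurable_pertE p B H x e n).stronglyMeasurable.integral_prod_right').measurable
  inv n m eq c := by simp only [phiE, ham_comp]
  lip k l c d := abs_integral_sub_le (integrable_pertE hB hH hx e _)
    (integrable_pertE hB hH hx e c) fun h => pertE_mono p x e fun σ => by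
      rw [ham_append, add_sub_cancel_left]
      exact abs_clauses_le hB d σ

theorem ClauseFun.avg {X : Type*} [MeasurableSpace X] {ι : Type*} [Fintype ι] [Nonempty ι]
    {B : ℝ} {F : ι → (n : ℕ) → (Fin n → X) → ℝ} (hF : ∀ i, ClauseFun B (F i)) :
    ClauseFun B fun n c => (Fintype.card ι : ℝ)⁻¹ * ∑ i, F i n c where
  meas n := (Finset.measurable_sum _ fun i _ => (hF i).meas n).const_mul _
  inv n m e c := by
    simp only
    congr 1
    exact Finset.sum_congr rfl fun i _ => (hF i).inv n m e c
  lip k l c d := by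
    have hpos : (0 : ℝ) < Fintype.card ι := Nat.cast_pos.2 Fintype.card_pos
    rw [← mul_sub, ← Finset.sum_sub_distrib, abs_mul, abs_of_pos (inv_pos.2 hpos),
      inv_mul_le_iff₀ hpos]
    exact (Finset.abs_sum_le_sum_abs _ _).trans
      ((Finset.sum_le_sum fun i _ => (hF i).lip k l c d).trans_eq (by simp))

include hB hH hx in
theorem clauseFun_famP [NeZero N] : ClauseFun B (famP (K := K) (N := N) p B H Q x) := by
  have := nonempty_env p (N := N)
  exact ClauseFun.avg fun e => clauseFun_phiE hB hH hx e

include hB hH hx in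
theorem clauseFun_famC [NeZero N] : ClauseFun B (famC (K := K) (N := N) p B H Q x) := by
  have := nonempty_env p (N := N)
  exact ClauseFun.avg fun e : Env p N => clauseFun_phiE hB hH hx (mapEnv p Fin.castSucc e)

include hB hH in
theorem integrable_logZ_ham {n : ℕ} (c : Fin n → Mark K N) :
    Integrable (fun h => logZ (ham B H c h)) (Measure.pi fun _ : Fin N => Q) := by
  have hm : Measurable fun h : Fin N → ℝ => logZ (ham B H c h) :=
    Measurable.comp (g := fun q : (Fin n → Mark K N) × (Fin N → ℝ) => logZ (ham B H q.1 q.2))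
      (f := fun h : Fin N → ℝ => (c, h)) (measurable_logZ_ham B H n)
      (measurable_const.prodMk measurable_id)
  exact .of_bound hm.aestronglyMeasurable _ (ae_of_all _ fun h => abs_logZ_ham hB hH c h)

include hB hH in
theorem clauseFun_fam0 : ClauseFun B (fam0 (K := K) (N := N) B H Q) where
  meas n := (StronglyMeasurable.integral_prod_right' (f := fun q : (Fin n → Mark K N) ×
    (Fin N → ℝ) => logZ (ham B H q.1 q.2)) (measurable_logZ_ham B H n).stronglyMeasurable).measurable
  inv n m eq c := by simp only [fam0, ham_comp]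
  lip k l c d := abs_integral_sub_le (integrable_logZ_ham hB hH _) (integrable_logZ_ham hB hH c)
    fun h => by
      have e : ham B H (Fin.append c d) h = fun σ => ham B H c h σ + ∑ i, clauseE B (d i) σ :=
        funext fun σ => ham_append B H c d h σ
      rw [e]
      exact abs_logZ_sub_le _ _ fun σ => abs_clauses_le hB d σ

include hB hH hx in
theorem famP_sub_fam0 [NeZero N] (n : ℕ) (c : Fin n → Mark K N) :
    |famP p B H Q x n c - fam0 B H Q n c| ≤ totC p.L * (p.S + p.Q + p.s ^ 2) := by
  have := nonempty_env p (N := N)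
  have hpos := card_env_pos p (N := N)
  have e : famP p B H Q x n c - fam0 B H Q n c =
      envAvg p fun e : Env p N => phiE p B H Q x e n c - fam0 B H Q n c := by
    simp only [famP, envAvg, Finset.sum_sub_distrib, Finset.sum_const, Finset.card_univ,
      nsmul_eq_mul]
    field_simp
  rw [e, envAvg, abs_mul, abs_of_pos (inv_pos.2 hpos), inv_mul_le_iff₀ hpos]
  refine (Finset.abs_sum_le_sum_abs _ _).trans ((Finset.sum_le_sum fun e _ =>
    abs_integral_sub_le (integrable_pertE hB hH hx e c) (integrable_logZ_ham hB hH c) fun h =>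
      abs_pertE_sub _ x hx e).trans_eq (by simp))

include hB hH hx in
theorem famP_sub_famC [NeZero N] (n : ℕ) (c : Fin n → Mark K (N + 1)) :
    |famP p B H Q x n c - famC p B H Q x n c| ≤
      inflC p.L * arTot p.L * (p.S + p.Q + p.s ^ 2) / (N + 1) := by
  have sw : ∀ (ι : Type) [Fintype ι] (f : ι → Env p (N + 1)),
      (Fintype.card ι : ℝ)⁻¹ * ∑ i, phiE p B H Q x (f i) n c =
        ∫ h, (Fintype.card ι : ℝ)⁻¹ * ∑ i, pertE p (ham B H c h) x (f i)
          ∂(Measure.pi fun _ => Q) := by
    intro ι _ f
    rw [integral_const_mul, integral_finsetSum _ fun i _ => integrable_pertE hB hH hx _ c]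
    rfl
  simp only [famP, famC, envAvg]
  rw [sw (Env p (N + 1)) fun e => e, sw (Env p N) fun e => mapEnv p Fin.castSucc e]
  exact abs_integral_sub_le
    ((integrable_finsetSum _ fun e _ => integrable_pertE hB hH hx e c).const_mul _)
    ((integrable_finsetSum _ fun e _ => integrable_pertE hB hH hx _ c).const_mul _)
    fun h => env_avg p _ x hx

end Vale.Agent.P168.Limit.Cavity
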