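import Vale.Agent.P168.Limit.CavityU

/-! The cavity functional of the perturbed system as two Poisson families. -/

open MeasureTheory ProbabilityTheory Filter
open scoped BigOperators NNReal ENNReal Topology

noncomputable section

namespace Vale.Agent.P168.Limit.Cavity

open Toolkit

variable {X : Type*} [MeasurableSpace X] {B : ℝ} {F : (n : ℕ) → (Fin n → X) → ℝ}
  {α β : Measure X} [IsProbabilityMeasure α] [IsProbabilityMeasure β]

/-- The mean of `k ~ Poisson(a)` marks `α` next to `l` marks `β`. -/
def levelMean (α β : Measure X) (a : ℝ≥0) (F : (n : ℕ) → (Fin n → X) → ℝ) (l : ℕ) : ℝ :=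
  ∫ d : Fin l → X, ∫ k, shiftMean α F k d ∂poissonMeasure a ∂(Measure.pi fun _ => β)

theorem ClauseFun.abs_level (hF : ClauseFun B F) (a : ℝ≥0) {l : ℕ} (d : Fin l → X) :
    |∫ k, shiftMean α F k d ∂poissonMeasure a| ≤ |base0 F| + B * a + B * l := by
  have hi : Integrable (fun k : ℕ => |base0 F| + B * l + B * (k : ℝ)) (poissonMeasure a) :=
    (integrable_const _).add ((Toolkit.integrable_count a).const_mul B)
  refine (abs_integral_le_integral_abs.trans (integral_mono (hF.integrable_shiftMean d a).abs hi
    fun k => by linarith [hF.abs_shiftMean (α := α) k d])).trans_eq ?_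
  rw [integral_add (integrable_const _) ((Toolkit.integrable_count a).const_mul B),
    integral_const_mul, Toolkit.integral_count]
  simp
  ring

theorem ClauseFun.integrable_level (hF : ClauseFun B F) (a : ℝ≥0) (l : ℕ) :
    Integrable (fun d : Fin l → X => ∫ k, shiftMean α F k d ∂poissonMeasure a)
      (Measure.pi fun _ => β) := by
  have hm : Measurable fun d : Fin l → X => ∫ k, shiftMean α F k d ∂poissonMeasure a :=
    ((measurable_from_prod_countable_left (f := fun z : (Fin l → X) × ℕ =>
      shiftMean α F z.2 z.1) fun k => hF.measurable_shiftMean k l).stronglyMeasurable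
      |>.integral_prod_right').measurable
  exact .of_bound hm.aestronglyMeasurable _ (ae_of_all _ fun d => hF.abs_level a d)

theorem ClauseFun.integrable_levelMean (hF : ClauseFun B F) (a b : ℝ≥0) :
    Integrable (levelMean α β a F) (poissonMeasure b) :=
  integrable_poisson_of_linear b fun _ => abs_integral_le_const fun d => hF.abs_level a d

theorem integral_pi_map {Y : Type*} [MeasurableSpace Y] {k : ℕ} (μ : Measure X)
    [IsProbabilityMeasure μ] {f : X → Y} (hf : Measurable f) {G : (Fin k → Y) → ℝ}
    (hG : Measurable G) :
    ∫ c, G c ∂(Measure.pi fun _ => μ.map f) = ∫ c, G (fun i => f (c i)) ∂(Measure.pi fun _ => μ) := by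
  have := Measure.isProbabilityMeasure_map (μ := μ) hf.aemeasurable
  have hm : Measurable fun (c : Fin k → X) (i : Fin k) => f (c i) :=
    measurable_pi_lambda _ fun i => hf.comp (measurable_pi_apply i)
  rw [← Measure.pi_map_pi (μ := fun _ : Fin k => μ) (f := fun _ : Fin k => f)
      fun _ => hf.aemeasurable, integral_map hm.aemeasurable hG.aestronglyMeasurable]

theorem measurePreserving_marks {A V : Type*} [MeasurableSpace A] [MeasurableSpace V] (l : ℕ)
    (μ : Measure A) (ν : Measure V) [IsProbabilityMeasure μ] [IsProbabilityMeasure ν]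
    {f : A × V → X} (hf : Measurable f) :
    MeasurePreserving (fun q : (Fin l → A) × (Fin l → V) => fun k => f (q.1 k, q.2 k))
      ((Measure.pi fun _ => μ).prod (Measure.pi fun _ => ν))
      (Measure.pi fun _ => (μ.prod ν).map f) := by
  have := Measure.isProbabilityMeasure_map (μ := μ.prod ν) hf.aemeasurable
  have h1 := measurePreserving_arrowProdEquivProdArrow A V (Fin l) (fun _ => μ) fun _ => ν
  have h2 : MeasurePreserving (fun (z : Fin l → A × V) k => f (z k))
      (Measure.pi fun _ => μ.prod ν) (Measure.pi fun _ => (μ.prod ν).map f) :=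
    ⟨measurable_pi_lambda _ fun i => hf.comp (measurable_pi_apply i),
      Measure.pi_map_pi (μ := fun _ : Fin l => μ.prod ν) (f := fun _ : Fin l => f)
        fun _ => hf.aemeasurable⟩
  exact h2.comp (h1.symm _)

variable {K N : ℕ} (p : Params) {P : Measure (Factor K)} {Q : Measure ℝ} {c H : ℝ}
  {x : Obs p.L → ℝ}

theorem sysState_law_prob [NeZero N] (hM : IsBoundedModel P Q c H) (μ : ℝ≥0) :
    IsProbabilityMeasure (disLaw p N P Q μ) := by
  have := hM.prob_factor
  have := hM.prob_field
  have := nonempty_env p (N := N)
  have := prob_unifFin (α := Env p N)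
  have : IsProbabilityMeasure (P.prod (unifFin (Fin K → Fin N))) := prob_markLaw P (N := N)
  have : IsProbabilityMeasure (baseLaw N P Q μ) := by unfold baseLaw; infer_instance
  unfold disLaw
  infer_instance

theorem logZ_pert_integrable {M : ℕ} {B H : ℝ} {n : ℕ} (cl : Fin n → Mark K M) (h : Fin M → ℝ)
    (e : Env p M) :
    Integrable (fun J => logZ (fun σ => ham B H cl h σ + pertH p x e J σ))
      (gaussPi (Feat p.L p.S)) := by
  simp only [pertH_eq, ← add_assoc]
  exact integrable_logZ_lin _ _

/-- The site part of the cavity functional. -/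
theorem cavU_eq [NeZero N] [NeZero K] (hM : IsBoundedModel P Q c H) (hx : ∀ o, |x o| ≤ 2)
    (lam : ℝ) (μ : ℝ≥0) :
    (sysState p N P Q μ x).cavU lam P Q =
      (∫ l, levelMean (liftLaw P N) (hitLaw P N) μ
          (famC p (clauseBd c) H Q x) l ∂poissonMeasure ((K : ℝ) * lam).toNNReal) -
        epoi (markLaw P N) μ (famP p (clauseBd c) H Q x) := by
  have := hM.prob_factor
  have := hM.prob_field
  have := prob_markLaw P (N := N)
  have := prob_liftLaw P (N := N)
  have := prob_hitLaw P (N := N)
  have := prob_unifFin (α := Fin K)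
  have := prob_unifFin (α := Fin N)
  have := prob_unifFin (α := Fin K → Fin N)
  have := nonempty_env p (N := N)
  have hdis := sysState_law_prob p (N := N) hM μ
  have hB := IsBoundedModel.clauseBd_nonneg hM
  have hH := IsBoundedModel.H_nonneg hM
  set B := clauseBd c with hBdef
  set Cm := famC (K := K) (N := N) p B H Q x with hCm
  set Fm := famP (K := K) (N := N) p B H Q x with hFm
  have hC : ClauseFun B Cm := clauseFun_famC hB hH hx
  have hF : ClauseFun B Fm := clauseFun_famP hB hH hx
  set Ta := epoi (markLaw P N) μ Fm
  set ρ₁ := P.prod (unifFin (Fin K))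
  have key : ∀ l : ℕ, (∫ c₁ : Fin l → Factor K × Fin K, ∫ h₀, ∫ ω,
      Real.log (∑ a, (sysState p N P Q μ x).w ω a *
        siteTerm c₁ h₀ fun i => (sysState p N P Q μ x).mag ω a (msgSite i))
      ∂(sysState p N P Q μ x).law ∂Q ∂(Measure.pi fun _ => ρ₁)) =
      levelMean (liftLaw P N) (hitLaw P N) μ Cm l - Ta := by
    intro l
    set TG := siteGain (K := K) (N := N) (l := l) p B H x with hTG
    have hTm : Measurable TG := measurable_siteGain p B H x
    set C0 := Real.log 2 + (B * (l : ℝ) + H)
    have hTb : ∀ q, |TG q| ≤ C0 := abs_siteGain hB hH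
    set V := Measure.pi fun _ : Fin l => unifFin (Fin K → Fin N)
    set D := disLaw p N P Q μ
    set Θ : (Fin l → Mark K (N + 1)) → ℝ := fun dm => ∫ h₀, ∫ d, TG ((dm, h₀), d) ∂D ∂Q with hΘ
    have hΘ1 : Measurable fun q : (Fin l → Mark K (N + 1)) × ℝ => ∫ d, TG (q, d) ∂D :=
      hTm.stronglyMeasurable.integral_prod_right'.measurable
    have hΘm : Measurable Θ :=
      hΘ1.stronglyMeasurable.integral_prod_right'.measurable
    have hΘb : ∀ dm, |Θ dm| ≤ C0 := fun dm =>
      abs_integral_le_const fun h₀ => abs_integral_le_const fun d => hTb _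
    -- almost surely the logarithm is the gain
    have hc : ∀ᵐ c₁ : Fin l → Factor K × Fin K ∂Measure.pi fun _ => ρ₁,
        ∀ k σ, 0 < factorWeight (c₁ k).1 σ ∧ |theta (c₁ k).1 σ| ≤ B :=
      ae_all_iff.2 fun k => (measurePreserving_eval (fun _ : Fin l => ρ₁) k).quasiMeasurePreserving.ae
        (measurePreserving_fst.quasiMeasurePreserving.ae (IsBoundedModel.good_ae hM))
    have step1 : ∀ᵐ c₁ : Fin l → Factor K × Fin K ∂Measure.pi fun _ => ρ₁,
        (∫ h₀, ∫ ω, Real.log (∑ a, (sysState p N P Q μ x).w ω a *
          siteTerm c₁ h₀ fun i => (sysState p N P Q μ x).mag ω a (msgSite i))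
          ∂(sysState p N P Q μ x).law ∂Q) =
        ∫ v, Θ (fun k => hitMark (c₁ k, v k)) ∂V := by
      filter_upwards [hc] with c₁ hc₁
      have hmk : Measurable fun v : Fin l → Fin K → Fin N => fun k => hitMark (c₁ k, v k) :=
        Measurable.of_discrete
      calc _ = ∫ h₀, ∫ v, ∫ d, TG ((fun k => hitMark (c₁ k, v k), h₀), d) ∂D ∂V ∂Q := ?_
        _ = _ := ?_
      · refine integral_congr_ae ?_
        filter_upwards [hM.h_le] with h₀ hh₀
        set G : (Fin l → Fin K → Fin N) × Dis K p N → ℝ :=
          fun q => TG ((fun k => hitMark (c₁ k, q.1 k), h₀), q.2) with hG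
        have hGm : Measurable G :=
          hTm.comp (((hmk.comp measurable_fst).prodMk measurable_const).prodMk measurable_snd)
        have hGi : Integrable G (V.prod D) :=
          .of_bound hGm.aestronglyMeasurable C0 (ae_of_all _ fun q => hTb _)
        have hmp : MeasurePreserving
            (fun ω : Dis K p N × (ℕ → Fin N) =>
              ((fun (k : Fin l) (j : Fin K) => ω.2 (msgSite (k, j))), ω.1))
            (D.prod (Measure.infinitePi fun _ : ℕ => unifFin (Fin N))) (V.prod D) :=
          ((sites_law N l).prod (MeasurePreserving.id D)).comp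
            (Measure.measurePreserving_swap (μ := D)
              (ν := Measure.infinitePi fun _ : ℕ => unifFin (Fin N)))
        rw [← integral_prod G hGi, ← hmp.map_eq,
          integral_map hmp.measurable.aemeasurable hGm.aestronglyMeasurable]
        refine integral_congr_ae ?_
        filter_upwards [measurePreserving_fst.quasiMeasurePreserving.ae (disLaw_good p hM μ)]
          with ω hω
        exact siteGain_eq hω hc₁ hh₀ fun k j => ω.2 (msgSite (k, j))
      · rw [integral_integral_swap]
        refine Integrable.of_bound ?_ C0 (ae_of_all _ fun q => abs_integral_le_const fun d => hTb _)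
        exact (hΘ1.comp (((hmk.comp measurable_snd).prodMk measurable_fst))).aestronglyMeasurable
    rw [integral_congr_ae step1]
    have hmp2 := measurePreserving_marks l ρ₁ (unifFin (Fin K → Fin N))
      (measurable_hitMark (K := K) (N := N))
    have hΘc : Integrable (fun q : (Fin l → Factor K × Fin K) × (Fin l → Fin K → Fin N) =>
        Θ (fun k => hitMark (q.1 k, q.2 k))) ((Measure.pi fun _ => ρ₁).prod V) :=
      .of_bound (hΘm.comp hmp2.measurable).aestronglyMeasurable C0 (ae_of_all _ fun q => hΘb _)
    rw [← integral_prod (fun q : (Fin l → Factor K × Fin K) × (Fin l → Fin K → Fin N) =>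
        Θ (fun k => hitMark (q.1 k, q.2 k))) hΘc,
      ← integral_map hmp2.measurable.aemeasurable hΘm.aestronglyMeasurable, hmp2.map_eq]
    change ∫ dm, Θ dm ∂(Measure.pi fun _ => hitLaw P N) = _
    -- the mean gain for given marks
    have hval : ∀ dm, Θ dm = (∫ k, shiftMean (liftLaw P N) Cm k dm ∂poissonMeasure μ) - Ta := by
      intro dm
      set g : (k : ℕ) → (Fin k → Mark K N) → (Fin N → ℝ) → Env p N → (Feat p.L p.S → ℝ) → ℝ :=
        fun k c₀ h e J => ∫ h₀,
          (logZ (fun σ => ham B H (Fin.append (fun i => liftMark (c₀ i)) dm) (Fin.snoc h h₀) σ +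
              pertH p x (mapEnv p Fin.castSucc e) J σ) -
            logZ (fun a => ham B H c₀ h a + pertH p x e J a)) ∂Q with hg
      have hgj : ∀ k e, Measurable fun q : (((Fin k → Mark K N) × (Fin N → ℝ)) ×
          (Feat p.L p.S → ℝ)) × ℝ =>
          logZ (fun σ => ham B H (Fin.append (fun i => liftMark (q.1.1.1 i)) dm)
              (Fin.snoc q.1.1.2 q.2) σ + pertH p x (mapEnv p Fin.castSucc e) q.1.2 σ) -
            logZ (fun a => ham B H q.1.1.1 q.1.1.2 a + pertH p x e q.1.2 a) := by
        intro k e
        have hl : Measurable fun q : (((Fin k → Mark K N) × (Fin N → ℝ)) ×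
            (Feat p.L p.S → ℝ)) × ℝ => fun i => liftMark (q.1.1.1 i) :=
          measurable_pi_lambda _ fun i => measurable_liftMark.comp
            ((measurable_pi_apply i).comp (measurable_fst.comp (measurable_fst.comp measurable_fst)))
        exact (measurable_logZ_pert p B H x ((measurable_append_left dm).comp hl)
          (measurable_snoc (by fun_prop) (by fun_prop)) (by fun_prop) _).sub
          (measurable_logZ_pert p B H x (by fun_prop) (by fun_prop) (by fun_prop) _)
      have hgm : ∀ k e, Measurable fun q : ((Fin k → Mark K N) × (Fin N → ℝ)) ×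
          (Feat p.L p.S → ℝ) => g k q.1.1 q.1.2 e q.2 := fun k e =>
        ((hgj k e).stronglyMeasurable.integral_prod_right').measurable
      have hgb : ∀ k c₀ h e J, |g k c₀ h e J| ≤
          C0 + 0 * (k : ℝ) + ∑ f : Feat p.L p.S, (0 : ℝ) * |J f| := fun k c₀ h e J => by
        simpa using abs_integral_le_const (μ := Q) fun h₀ => abs_gain_site hB hH c₀ dm h h₀ e J
      have e1 : Θ dm = ∫ d, g d.1.1.1 (fun i => d.1.1.2 i) d.1.2 d.2.1 d.2.2 ∂D := by
        refine integral_integral_swap ?_
        exact .of_bound (hTm.comp ((measurable_const.prodMk measurable_fst).prodMk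
          measurable_snd)).aestronglyMeasurable C0 (ae_of_all _ fun q => hTb _)
      rw [e1, integral_disLaw p μ g hgm hgb]
      change _ = (∫ k, shiftMean (liftLaw P N) Cm k dm ∂poissonMeasure μ) -
        ∫ k, ∫ c₀, Fm k c₀ ∂(Measure.pi fun _ => markLaw P N) ∂poissonMeasure μ
      rw [← integral_sub (hC.integrable_shiftMean dm μ) (hF.integrable_count μ)]
      refine integral_congr_ae (ae_of_all _ fun k => ?_)
      have happ : Measurable fun c₀ : Fin k → Mark K (N + 1) => Cm (k + l) (Fin.append c₀ dm) :=
        (hC.meas _).comp (measurable_append_left dm)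
      have hl : Measurable fun c₀ : Fin k → Mark K N => fun i => liftMark (c₀ i) :=
        measurable_pi_lambda _ fun i => measurable_liftMark.comp (measurable_pi_apply i)
      simp only [shiftMean]
      have hi1 : Integrable (fun c₀ : Fin k → Mark K N =>
          Cm (k + l) (Fin.append (fun i => liftMark (c₀ i)) dm))
          (Measure.pi fun _ => markLaw P N) :=
        .of_bound (happ.comp hl).aestronglyMeasurable _
          (ae_of_all _ fun c₀ => hC.append_bound _ _)
      rw [liftLaw, integral_pi_map _ measurable_liftMark happ, ← integral_sub hi1 (hF.integrable k)]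
      refine integral_congr_ae (ae_of_all _ fun c₀ => ?_)
      simp only
      set cl := Fin.append (fun i => liftMark (c₀ i)) dm
      set E' := fun (h' : Fin (N + 1) → ℝ) =>
        envAvg p fun e : Env p N => pertE p (ham B H cl h') x (mapEnv p Fin.castSucc e)
      set E := fun (h : Fin N → ℝ) => envAvg p fun e : Env p N => pertE p (ham B H c₀ h) x e
      have hE' : Integrable E' (Measure.pi fun _ => Q) :=
        (integrable_finsetSum _ fun e _ => integrable_pertE hB hH hx _ cl).const_mul _
      have hE : Integrable E (Measure.pi fun _ => Q) :=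
        (integrable_finsetSum _ fun e _ => integrable_pertE hB hH hx e c₀).const_mul _
      have hE'b : ∀ h', |E' h'| ≤ logBd p B H (N + 1) (k + l) := fun h' => by
        have hpos := card_env_pos p (N := N)
        simp only [E', envAvg]
        rw [abs_mul, abs_of_pos (inv_pos.2 hpos), inv_mul_le_iff₀ hpos]
        exact (Finset.abs_sum_le_sum_abs _ _).trans ((Finset.sum_le_sum fun e _ =>
          abs_pertE_ham hB hH hx _ cl h').trans_eq
            (by rw [Finset.sum_const, Finset.card_univ, nsmul_eq_mul]))
      have hE'm : Measurable E' := Measurable.const_mul (Finset.measurable_sum _ fun e _ =>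
        (measurable_pertE p B H x _ (k + l)).comp (measurable_const.prodMk measurable_id)) _
      have hin : ∀ h, envAvg p (fun e => ∫ J, g k c₀ h e J ∂gaussPi (Feat p.L p.S)) =
          (∫ h₀, E' (Fin.snoc h h₀) ∂Q) - E h := by
        intro h
        have hie : ∀ e : Env p N, Integrable (fun h₀ =>
            pertE p (ham B H cl (Fin.snoc h h₀)) x (mapEnv p Fin.castSucc e)) Q := fun e =>
          .of_bound (((measurable_pertE p B H x _ (k + l)).comp
            (f := fun h₀ : ℝ => (cl, (Fin.snoc h h₀ : Fin (N + 1) → ℝ)))
            (measurable_const.prodMk (measurable_snoc measurable_const measurable_id)))).aestronglyMeasurable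
            _ (ae_of_all _ fun h₀ => abs_pertE_ham hB hH hx _ cl _)
        have hj : ∀ e : Env p N, ∫ J, g k c₀ h e J ∂gaussPi (Feat p.L p.S) =
            (∫ h₀, pertE p (ham B H cl (Fin.snoc h h₀)) x (mapEnv p Fin.castSucc e) ∂Q) -
              pertE p (ham B H c₀ h) x e := by
          intro e
          simp only [g]
          have hsw : Integrable (Function.uncurry fun (J : Feat p.L p.S → ℝ) (h₀ : ℝ) =>
              logZ (fun σ => ham B H cl (Fin.snoc h h₀) σ +
                pertH p x (mapEnv p Fin.castSucc e) J σ) -
              logZ (fun a => ham B H c₀ h a + pertH p x e J a))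
              ((gaussPi (Feat p.L p.S)).prod Q) :=
            .of_bound ((hgj k e).comp
              (f := fun q : (Feat p.L p.S → ℝ) × ℝ => (((c₀, h), q.1), q.2))
              (by fun_prop)).aestronglyMeasurable C0
              (ae_of_all _ fun q => abs_gain_site hB hH c₀ dm h q.2 e q.1)
          rw [integral_integral_swap hsw]
          have hs : ∀ h₀, ∫ J, (logZ (fun σ => ham B H cl (Fin.snoc h h₀) σ +
              pertH p x (mapEnv p Fin.castSucc e) J σ) -
              logZ (fun a => ham B H c₀ h a + pertH p x e J a)) ∂gaussPi (Feat p.L p.S) =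
              pertE p (ham B H cl (Fin.snoc h h₀)) x (mapEnv p Fin.castSucc e) -
                pertE p (ham B H c₀ h) x e := fun h₀ => by
            rw [integral_sub (logZ_pert_integrable p cl _ _) (logZ_pert_integrable p c₀ h e),
              pertE_eq, pertE_eq]
          rw [integral_congr_ae (ae_of_all Q hs), integral_sub (hie e) (integrable_const _)]
          simp
        simp only [hj, E', E, envAvg]
        rw [integral_const_mul, integral_finsetSum _ fun e _ => hie e, Finset.sum_sub_distrib,
          mul_sub]
      simp only [hin]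
      have hsn : Measurable fun h : Fin N → ℝ => ∫ h₀, E' (Fin.snoc h h₀) ∂Q :=
        ((hE'm.comp (measurable_snoc (h := fun q : (Fin N → ℝ) × ℝ => q.1)
          (h₀ := fun q => q.2) measurable_fst measurable_snd)).stronglyMeasurable
          |>.integral_prod_right').measurable
      rw [integral_sub (.of_bound hsn.aestronglyMeasurable _
          (ae_of_all _ fun h => abs_integral_le_const fun h₀ => hE'b _)) hE,
        ← integral_snoc Q hE'm hE'b]
      rw [show (∫ h, E h ∂(Measure.pi fun _ => Q)) = Fm k c₀ from
        envAvg_integral_pertE p hB hH hx c₀]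
      congr 1
      simp only [hCm, famC, envAvg, phiE, E']
      rw [integral_const_mul, integral_finsetSum _ fun e _ => integrable_pertE hB hH hx _ cl]
    simp only [hval]
    rw [integral_sub (hC.integrable_level μ l) (integrable_const _)]
    simp [levelMean]
  unfold RandomState.cavU
  rw [integral_congr_ae (ae_of_all _ key),
    integral_sub (hC.integrable_levelMean μ _) (integrable_const _)]
  simp [Ta]

/-- The clause part of the cavity functional. -/
theorem cavV_eq [NeZero N] (hM : IsBoundedModel P Q c H) (hx : ∀ o, |x o| ≤ 2)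
    (lam : ℝ) (μ : ℝ≥0) :
    (sysState p N P Q μ x).cavV lam P =
      (∫ l, levelMean (markLaw P N) (markLaw P N) μ
          (famP p (clauseBd c) H Q x) l ∂poissonMeasure (((K : ℝ) - 1) * lam).toNNReal) -
        epoi (markLaw P N) μ (famP p (clauseBd c) H Q x) := by
  have := hM.prob_factor
  have := hM.prob_field
  have := prob_markLaw P (N := N)
  have := prob_unifFin (α := Fin N)
  have := prob_unifFin (α := Fin K → Fin N)
  have := nonempty_env p (N := N)
  have hdis := sysState_law_prob p (N := N) hM μ
  have hB := IsBoundedModel.clauseBd_nonneg hM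
  have hH := IsBoundedModel.H_nonneg hM
  set B := clauseBd c with hBdef
  set Fm := famP (K := K) (N := N) p B H Q x with hFm
  have hF : ClauseFun B Fm := clauseFun_famP hB hH hx
  set Ta := epoi (markLaw P N) μ Fm
  have key : ∀ l : ℕ, (∫ c₁ : Fin l → Factor K, ∫ ω,
      Real.log (∑ a, (sysState p N P Q μ x).w ω a *
        edgeTerm c₁ fun i => (sysState p N P Q μ x).mag ω a (msgSite i))
      ∂(sysState p N P Q μ x).law ∂(Measure.pi fun _ => P)) =
      levelMean (markLaw P N) (markLaw P N) μ Fm l - Ta := by
    intro l
    set TG := edgeGain (K := K) (N := N) (l := l) p B H x with hTG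
    have hTm : Measurable TG := measurable_edgeGain p B H x
    set C0 := B * (l : ℝ)
    have hTb : ∀ q, |TG q| ≤ C0 := abs_edgeGain hB
    set V := Measure.pi fun _ : Fin l => unifFin (Fin K → Fin N)
    set D := disLaw p N P Q μ
    set Θ : (Fin l → Mark K N) → ℝ := fun dm => ∫ d, TG (dm, d) ∂D with hΘ
    have hΘm : Measurable Θ := hTm.stronglyMeasurable.integral_prod_right'.measurable
    have hΘb : ∀ dm, |Θ dm| ≤ C0 := fun dm => abs_integral_le_const fun d => hTb _
    have hc : ∀ᵐ c₁ : Fin l → Factor K ∂Measure.pi fun _ => P,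
        ∀ k σ, 0 < factorWeight (c₁ k) σ ∧ |theta (c₁ k) σ| ≤ B :=
      ae_all_iff.2 fun k => (measurePreserving_eval (fun _ : Fin l => P) k).quasiMeasurePreserving.ae
        (IsBoundedModel.good_ae hM)
    have step1 : ∀ᵐ c₁ : Fin l → Factor K ∂Measure.pi fun _ => P,
        (∫ ω, Real.log (∑ a, (sysState p N P Q μ x).w ω a *
          edgeTerm c₁ fun i => (sysState p N P Q μ x).mag ω a (msgSite i))
          ∂(sysState p N P Q μ x).law) =
        ∫ v, Θ (fun k => (c₁ k, v k)) ∂V := by
      filter_upwards [hc] with c₁ hc₁
      have hmk : Measurable fun v : Fin l → Fin K → Fin N => fun k => (c₁ k, v k) :=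
        Measurable.of_discrete
      set G : (Fin l → Fin K → Fin N) × Dis K p N → ℝ :=
        fun q => TG ((fun k => (c₁ k, q.1 k)), q.2) with hG
      have hGm : Measurable G := hTm.comp ((hmk.comp measurable_fst).prodMk measurable_snd)
      have hGi : Integrable G (V.prod D) :=
        .of_bound hGm.aestronglyMeasurable C0 (ae_of_all _ fun q => hTb _)
      have hmp : MeasurePreserving
          (fun ω : Dis K p N × (ℕ → Fin N) =>
            ((fun (k : Fin l) (j : Fin K) => ω.2 (msgSite (k, j))), ω.1))
          (D.prod (Measure.infinitePi fun _ : ℕ => unifFin (Fin N))) (V.prod D) :=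
        ((sites_law N l).prod (MeasurePreserving.id D)).comp
          (Measure.measurePreserving_swap (μ := D)
            (ν := Measure.infinitePi fun _ : ℕ => unifFin (Fin N)))
      change _ = ∫ v, ∫ d, G (v, d) ∂D ∂V
      rw [← integral_prod G hGi, ← hmp.map_eq,
        integral_map hmp.measurable.aemeasurable hGm.aestronglyMeasurable]
      refine integral_congr_ae ?_
      filter_upwards [measurePreserving_fst.quasiMeasurePreserving.ae (disLaw_good p hM μ)]
        with ω hω
      exact edgeGain_eq hω hc₁ fun k j => ω.2 (msgSite (k, j))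
    rw [integral_congr_ae step1]
    have hmp2 := measurePreserving_marks l P (unifFin (Fin K → Fin N))
      (f := fun m : Mark K N => m) measurable_id
    have hΘc : Integrable (fun q : (Fin l → Factor K) × (Fin l → Fin K → Fin N) =>
        Θ (fun k => (q.1 k, q.2 k))) ((Measure.pi fun _ => P).prod V) :=
      .of_bound (hΘm.comp hmp2.measurable).aestronglyMeasurable C0 (ae_of_all _ fun q => hΘb _)
    rw [← integral_prod (fun q : (Fin l → Factor K) × (Fin l → Fin K → Fin N) =>
        Θ (fun k => (q.1 k, q.2 k))) hΘc,
      ← integral_map hmp2.measurable.aemeasurable hΘm.aestronglyMeasurable, hmp2.map_eq]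
    simp only [Measure.map_id']
    change ∫ dm, Θ dm ∂(Measure.pi fun _ => markLaw P N) = _
    have hval : ∀ dm, Θ dm = (∫ k, shiftMean (markLaw P N) Fm k dm ∂poissonMeasure μ) - Ta := by
      intro dm
      set g : (k : ℕ) → (Fin k → Mark K N) → (Fin N → ℝ) → Env p N → (Feat p.L p.S → ℝ) → ℝ :=
        fun k c₀ h e J =>
          logZ (fun a => ham B H (Fin.append c₀ dm) h a + pertH p x e J a) -
            logZ (fun a => ham B H c₀ h a + pertH p x e J a) with hg
      have hgm : ∀ k e, Measurable fun q : ((Fin k → Mark K N) × (Fin N → ℝ)) ×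
          (Feat p.L p.S → ℝ) => g k q.1.1 q.1.2 e q.2 := fun k e =>
        (measurable_logZ_pert p B H x ((measurable_append_left dm).comp
          (measurable_fst.comp measurable_fst)) (by fun_prop) (by fun_prop) _).sub
          (measurable_logZ_pert p B H x (by fun_prop) (by fun_prop) (by fun_prop) _)
      have hgb : ∀ k c₀ h e J, |g k c₀ h e J| ≤
          C0 + 0 * (k : ℝ) + ∑ f : Feat p.L p.S, (0 : ℝ) * |J f| := by
        intro k c₀ h e J
        have he : (fun a => ham B H (Fin.append c₀ dm) h a + pertH p x e J a) =
            fun a => ham B H c₀ h a + pertH p x e J a + ∑ i, clauseE B (dm i) a := by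
          funext a; rw [ham_append]; ring
        simp only [g, he]
        simpa using abs_logZ_sub_le (fun a => ham B H c₀ h a + pertH p x e J a) _
          fun a => abs_clauses_le hB dm a
      change ∫ d, g d.1.1.1 (fun i => d.1.1.2 i) d.1.2 d.2.1 d.2.2 ∂D = _
      rw [integral_disLaw p μ g hgm hgb]
      change _ = (∫ k, shiftMean (markLaw P N) Fm k dm ∂poissonMeasure μ) -
        ∫ k, ∫ c₀, Fm k c₀ ∂(Measure.pi fun _ => markLaw P N) ∂poissonMeasure μ
      rw [← integral_sub (hF.integrable_shiftMean dm μ) (hF.integrable_count μ)]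
      refine integral_congr_ae (ae_of_all _ fun k => ?_)
      simp only [shiftMean]
      have hi1 : Integrable (fun c₀ : Fin k → Mark K N => Fm (k + l) (Fin.append c₀ dm))
          (Measure.pi fun _ => markLaw P N) :=
        .of_bound ((hF.meas _).comp (measurable_append_left dm)).aestronglyMeasurable
          _ (ae_of_all _ fun c₀ => hF.append_bound _ _)
      rw [← integral_sub hi1 (hF.integrable k)]
      refine integral_congr_ae (ae_of_all _ fun c₀ => ?_)
      simp only
      have hin : ∀ h, envAvg p (fun e => ∫ J, g k c₀ h e J ∂gaussPi (Feat p.L p.S)) =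
          envAvg p (fun e => pertE p (ham B H (Fin.append c₀ dm) h) x e) -
            envAvg p (fun e => pertE p (ham B H c₀ h) x e) := by
        intro h
        simp only [envAvg, ← mul_sub, ← Finset.sum_sub_distrib]
        congr 1
        refine Finset.sum_congr rfl fun e _ => ?_
        simp only [g]
        rw [integral_sub (logZ_pert_integrable p _ h e) (logZ_pert_integrable p c₀ h e),
          pertE_eq, pertE_eq]
      simp only [hin]
      have hiE : ∀ {n : ℕ} (cl : Fin n → Mark K N), Integrable
          (fun h => envAvg p fun e => pertE p (ham B H cl h) x e) (Measure.pi fun _ => Q) :=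
        fun cl => (integrable_finsetSum _ fun e _ => integrable_pertE hB hH hx e cl).const_mul _
      rw [integral_sub (hiE _) (hiE _),
        envAvg_integral_pertE p hB hH hx _, envAvg_integral_pertE p hB hH hx c₀]
    simp only [hval]
    rw [integral_sub (hF.integrable_level μ l) (integrable_const _)]
    simp [levelMean]
  unfold RandomState.cavV
  rw [integral_congr_ae (ae_of_all _ key),
    integral_sub (hF.integrable_levelMean μ _) (integrable_const _)]
  simp [Ta]

end Vale.Agent.P168.Limit.Cavity
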