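import Vale.Agent.P168.Limit.Toolkit
import Vale.Agent.P168.Limit.GibbsLemmas

/-! The effect of a Gaussian field on the mean log partition function. -/

open MeasureTheory ProbabilityTheory Filter
open scoped BigOperators NNReal ENNReal Topology

noncomputable section

namespace Vale.Agent.P168.Limit.Cavity

open Toolkit

variable {X : Type*} [Fintype X] [Inhabited X] {ι : Type*} [Fintype ι]

/-- The mean of `logZ` with a Gaussian field of coefficients `c` added. -/
def elogZ (A : X → ℝ) (c : ι → X → ℝ) : ℝ :=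
  ∫ z, logZ (fun σ => A σ + ∑ f, c f σ * z f) ∂gaussPi ι

theorem abs_logZ_lin (A : X → ℝ) (c : ι → X → ℝ) (z : ι → ℝ) :
    |logZ (fun σ => A σ + ∑ f, c f σ * z f)| ≤
      |logZ A| + ∑ f, (∑ σ, |c f σ|) * |z f| := by
  have h := abs_logZ_sub_le A (fun σ => ∑ f, c f σ * z f) (c := ∑ f, (∑ σ, |c f σ|) * |z f|)
    fun σ => (Finset.abs_sum_le_sum_abs _ _).trans (Finset.sum_le_sum fun f _ => by
      rw [abs_mul]
      exact mul_le_mul_of_nonneg_right
        (Finset.single_le_sum (f := fun τ => |c f τ|) (fun τ _ => abs_nonneg _) (Finset.mem_univ σ))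
        (abs_nonneg _))
  linarith [abs_sub_abs_le_abs_sub (logZ fun σ => A σ + ∑ f, c f σ * z f) (logZ A)]

theorem continuous_logZ_lin (A : X → ℝ) (c : ι → X → ℝ) :
    Continuous fun z : ι → ℝ => logZ (fun σ => A σ + ∑ f, c f σ * z f) := by
  unfold logZ
  exact Continuous.log (by fun_prop) fun z => (sum_exp_pos _).ne'

theorem integrable_logZ_lin (A : X → ℝ) (c : ι → X → ℝ) :
    Integrable (fun z : ι → ℝ => logZ (fun σ => A σ + ∑ f, c f σ * z f)) (gaussPi ι) := by
  refine ((integrable_const |logZ A|).add (integrable_finsetSum Finset.univ fun f _ =>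
    (integrable_eval_gaussPi f).abs.const_mul (∑ σ, |c f σ|))).mono'
    (continuous_logZ_lin A c).aestronglyMeasurable (ae_of_all _ fun z => ?_)
  simpa using abs_logZ_lin A c z

theorem elogZ_lower (A : X → ℝ) (c : ι → X → ℝ) : logZ A ≤ elogZ A c := by
  have h0 : ∫ z : ι → ℝ, gav A (fun σ => ∑ f, c f σ * z f) ∂gaussPi ι = 0 := by
    simp only [gav, Finset.mul_sum]
    rw [integral_finsetSum _ fun σ _ => integrable_finsetSum _ fun f _ =>
      ((integrable_eval_gaussPi f).const_mul _).const_mul _]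
    refine Finset.sum_eq_zero fun σ _ => ?_
    rw [integral_finsetSum _ fun f _ => ((integrable_eval_gaussPi f).const_mul _).const_mul _]
    refine Finset.sum_eq_zero fun f _ => ?_
    rw [integral_const_mul, integral_const_mul,
      show ∫ z : ι → ℝ, z f ∂gaussPi ι = 0 from
        (integral_comp_eval (μ := fun _ : ι => gauss) (i := f) (f := fun x : ℝ => x)
          measurable_id.aestronglyMeasurable).trans integral_gauss_id]
    simp
  have hi : Integrable (fun z : ι → ℝ => gav A (fun σ => ∑ f, c f σ * z f)) (gaussPi ι) :=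
    integrable_finsetSum _ fun σ _ => (integrable_finsetSum _ fun f _ =>
      (integrable_eval_gaussPi f).const_mul _).const_mul _
  have := integral_mono hi ((integrable_logZ_lin A c).sub (integrable_const (logZ A)))
    fun z => gav_le_logZ_sub A fun σ => ∑ f, c f σ * z f
  rw [h0, integral_sub' (integrable_logZ_lin A c) (integrable_const _)] at this
  simp at this
  exact this

theorem elogZ_upper (A : X → ℝ) (c : ι → X → ℝ) {v : ℝ} (h : ∀ σ, ∑ f, c f σ ^ 2 ≤ v) :
    elogZ A c ≤ logZ A + v / 2 := by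
  have hI : ∀ σ, Integrable (fun z : ι → ℝ => gw A σ * Real.exp (∑ f, c f σ * z f)) (gaussPi ι) :=
    fun σ => (integrable_exp_linear _).const_mul _
  have hE : ∫ z : ι → ℝ, gav A (fun σ => Real.exp (∑ f, c f σ * z f)) ∂gaussPi ι ≤
      Real.exp (v / 2) := by
    simp only [gav]
    rw [integral_finsetSum _ fun σ _ => hI σ]
    calc ∑ σ, ∫ z : ι → ℝ, gw A σ * Real.exp (∑ f, c f σ * z f) ∂gaussPi ι
        ≤ ∑ σ, gw A σ * Real.exp (v / 2) := by
          refine Finset.sum_le_sum fun σ _ => ?_
          rw [integral_const_mul, integral_exp_linear]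
          exact mul_le_mul_of_nonneg_left (Real.exp_le_exp.2 (by linarith [h σ])) (gw_nonneg A σ)
      _ = _ := by rw [← Finset.sum_mul, sum_gw, one_mul]
  have hi : Integrable (fun z : ι → ℝ =>
      v / 2 + gav A (fun σ => Real.exp (∑ f, c f σ * z f)) / Real.exp (v / 2) - 1) (gaussPi ι) :=
    ((integrable_const _).add ((integrable_finsetSum _ fun σ _ => hI σ).div_const _)).sub
      (integrable_const _)
  have := integral_mono ((integrable_logZ_lin A c).sub (integrable_const (logZ A))) hi fun z => by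
    show logZ (fun σ => A σ + ∑ f, c f σ * z f) - logZ A ≤ _
    rw [logZ_tilt]
    have hy := gav_exp_pos A fun σ => ∑ f, c f σ * z f
    have := Real.log_le_sub_one_of_pos (div_pos hy (Real.exp_pos (v / 2)))
    rw [Real.log_div hy.ne' (Real.exp_pos _).ne', Real.log_exp] at this
    linarith
  rw [integral_sub' (integrable_logZ_lin A c) (integrable_const _)] at this
  simp only [integral_const, probReal_univ, one_smul] at this
  have hq : Integrable (fun z : ι → ℝ =>
      gav A (fun σ => Real.exp (∑ f, c f σ * z f)) / Real.exp (v / 2)) (gaussPi ι) :=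
    (integrable_finsetSum _ fun σ _ => hI σ).div_const _
  have hq2 : Integrable (fun z : ι → ℝ =>
      v / 2 + gav A (fun σ => Real.exp (∑ f, c f σ * z f)) / Real.exp (v / 2)) (gaussPi ι) :=
    (integrable_const _).add hq
  rw [integral_sub hq2 (integrable_const _), integral_add (integrable_const _) hq] at this
  simp only [integral_const, probReal_univ, one_smul] at this
  have h2 : ∫ z : ι → ℝ,
      gav A (fun σ => Real.exp (∑ f, c f σ * z f)) / Real.exp (v / 2) ∂gaussPi ι ≤ 1 := by
    rw [integral_div, div_le_one (Real.exp_pos _)]; exact hE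
  unfold elogZ
  linarith

/-- Conditioning on the coordinates outside `D`. -/
theorem gauss_block [DecidableEq ι] (A : X → ℝ) (d : ι → X → ℝ) (D : Finset ι) :
    Integrable (fun w : {f // f ∉ D} → ℝ =>
        elogZ (fun σ => A σ + ∑ f : {f // f ∉ D}, d f σ * w f) fun f : {f // f ∈ D} => d f)
        (gaussPi {f // f ∉ D}) ∧
      elogZ A d = ∫ w : {f // f ∉ D} → ℝ,
        elogZ (fun σ => A σ + ∑ f : {f // f ∉ D}, d f σ * w f) (fun f : {f // f ∈ D} => d f)
          ∂gaussPi {f // f ∉ D} := by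
  set e := MeasurableEquiv.piEquivPiSubtypeProd (fun _ : ι => ℝ) (fun f => f ∈ D) with he
  have hmp : MeasurePreserving e (gaussPi ι)
      ((gaussPi {f // f ∈ D}).prod (gaussPi {f // f ∉ D})) := by
    have e1 : (Finset.Subtype.fintype D : Fintype {f // f ∈ D}) =
        Subtype.fintype fun f => f ∈ D := Subsingleton.elim _ _
    have h := measurePreserving_piEquivPiSubtypeProd (fun _ : ι => gauss) (fun f => f ∈ D)
    rw [← e1] at h
    exact h
  let Φ : ({f // f ∈ D} → ℝ) × ({f // f ∉ D} → ℝ) → ℝ := fun w =>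
    logZ (fun σ => (A σ + ∑ f : {f // f ∉ D}, d f σ * w.2 f) +
      ∑ f : {f // f ∈ D}, d f σ * w.1 f)
  have hΦe : ∀ z, Φ (e z) = logZ (fun σ => A σ + ∑ f, d f σ * z f) := by
    intro z
    refine congrArg logZ (funext fun σ => ?_)
    rw [← Fintype.sum_subtype_add_sum_subtype (fun f => f ∈ D) fun f => d f σ * z f]
    simp [he, MeasurableEquiv.piEquivPiSubtypeProd, Equiv.piEquivPiSubtypeProd,
      Finset.univ_eq_attach]
    rw [Finset.sum_attach D (fun x => d x σ * z x),
      Finset.sum_subtype D (p := fun x => x ∈ D) (fun x => Iff.rfl)]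
    ring
  have hid : elogZ A d = ∫ w, Φ w ∂((gaussPi {f // f ∈ D}).prod (gaussPi {f // f ∉ D})) := by
    rw [← hmp.integral_comp e.measurableEmbedding Φ]
    simp only [hΦe]
    rfl
  have hi : Integrable Φ ((gaussPi {f // f ∈ D}).prod (gaussPi {f // f ∉ D})) := by
    rw [← hmp.integrable_comp_emb e.measurableEmbedding]
    exact (integrable_logZ_lin A d).congr (ae_of_all _ fun z => (hΦe z).symm)
  exact ⟨hi.integral_prod_right, hid.trans (integral_prod_symm Φ hi)⟩

theorem gauss_influence (A : X → ℝ) (c c' : ι → X → ℝ) (D : Finset ι)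
    (hcc : ∀ f, f ∉ D → c f = c' f) {v : ℝ} (hc : ∀ σ, ∑ f ∈ D, c f σ ^ 2 ≤ v)
    (hc' : ∀ σ, ∑ f ∈ D, c' f σ ^ 2 ≤ v) : |elogZ A c - elogZ A c'| ≤ v / 2 := by
  classical
  set M0 : ℝ := ∫ w : {f // f ∉ D} → ℝ,
    logZ (fun σ => A σ + ∑ f : {f // f ∉ D}, c f σ * w f) ∂gaussPi {f // f ∉ D} with hM0
  have hR := integrable_logZ_lin A fun f : {f // f ∉ D} => c f
  have key : ∀ d : ι → X → ℝ, (∀ f, f ∉ D → d f = c f) → (∀ σ, ∑ f ∈ D, d f σ ^ 2 ≤ v) →
      M0 ≤ elogZ A d ∧ elogZ A d ≤ M0 + v / 2 := by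
    intro d hd hv
    obtain ⟨hi, hid⟩ := gauss_block A d D
    have e : (fun f : {f // f ∉ D} => d f) = fun f : {f // f ∉ D} => c f :=
      funext fun f => hd f f.2
    have e' : ∀ (w : {f // f ∉ D} → ℝ) σ,
        (∑ f : {f // f ∉ D}, d f σ * w f) = ∑ f : {f // f ∉ D}, c f σ * w f := fun w σ =>
      Finset.sum_congr rfl fun f _ => by rw [hd f f.2]
    simp only [e'] at hi hid
    rw [hid]
    refine ⟨integral_mono hR hi fun w => elogZ_lower _ _, ?_⟩
    refine (integral_mono hi (hR.add (integrable_const (v / 2)))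
      fun w => elogZ_upper _ _ fun σ => ?_).trans_eq ?_
    · exact le_of_eq_of_le (Finset.sum_coe_sort D fun f => d f σ ^ 2) (hv σ)
    · rw [integral_add' hR (integrable_const _)]
      simp [hM0]
  obtain ⟨a1, a2⟩ := key c (fun _ _ => rfl) hc
  obtain ⟨b1, b2⟩ := key c' (fun f hf => (hcc f hf).symm) hc'
  rw [abs_le]
  constructor <;> linarith

end Vale.Agent.P168.Limit.Cavity
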