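import Vale.Agent.P168.Limit.CavityLaw

/-! The clauses of `N + 1` sites sorted by how often they read the new site. -/

open MeasureTheory ProbabilityTheory Filter
open scoped BigOperators NNReal ENNReal Topology

noncomputable section

namespace Vale.Agent.P168.Limit.Cavity

open Toolkit

variable {K N : ℕ}

/-- A clause on the old sites. -/
def liftMark (m : Mark K N) : Mark K (N + 1) := (m.1, fun j => (m.2 j).castSucc)

/-- Sites with the new site at position `q.1` and old ones elsewhere. -/
def hitTuple (q : Fin K × (Fin K → Fin N)) : Fin K → Fin (N + 1) :=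
  Function.update (fun j => (q.2 j).castSucc) q.1 (Fin.last N)

/-- A clause that reads the new site once. -/
def hitMark (m : (Factor K × Fin K) × (Fin K → Fin N)) : Mark K (N + 1) :=
  (m.1.1, hitTuple (m.1.2, m.2))

/-- The law of a clause on old sites only. -/
def liftLaw (P : Measure (Factor K)) (N : ℕ) : Measure (Mark K (N + 1)) :=
  (markLaw P N).map liftMark

/-- The law of a clause that reads the new site once. -/
def hitLaw (P : Measure (Factor K)) (N : ℕ) : Measure (Mark K (N + 1)) :=
  ((P.prod (unifFin (Fin K))).prod (unifFin (Fin K → Fin N))).map hitMark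

theorem measurable_liftMark : Measurable (liftMark (K := K) (N := N)) :=
  measurable_fst.prodMk
    ((Measurable.of_discrete (f := fun v : Fin K → Fin N => fun j => (v j).castSucc)).comp
      measurable_snd)

theorem measurable_hitMark : Measurable (hitMark (K := K) (N := N)) :=
  (measurable_fst.comp measurable_fst).prodMk
    ((Measurable.of_discrete (f := hitTuple (K := K) (N := N))).comp
      ((measurable_snd.comp measurable_fst).prodMk measurable_snd))

theorem unif_apply {α : Type*} [Fintype α] [Nonempty α] [MeasurableSpace α]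
    [MeasurableSingletonClass α] (s : Finset α) :
    unifFin α s = (((s.card : ℝ≥0) / Fintype.card α : ℝ≥0) : ℝ≥0∞) := by
  rw [unifFin, Measure.smul_apply, Measure.count_apply_finset, smul_eq_mul,
    ENNReal.coe_div (Nat.cast_ne_zero.2 Fintype.card_ne_zero), ENNReal.coe_natCast,
    ENNReal.coe_natCast, div_eq_mul_inv, mul_comm]

theorem unif_map_apply {α β : Type*} [Fintype α] [Nonempty α] [MeasurableSpace α]
    [MeasurableSingletonClass α] [MeasurableSpace β] [MeasurableSingletonClass β] [DecidableEq β]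
    (f : α → β) (w : β) :
    (unifFin α).map f {w} =
      ((((Finset.univ.filter fun a => f a = w).card : ℝ≥0) / Fintype.card α : ℝ≥0) : ℝ≥0∞) := by
  have hf : Measurable f := Measurable.of_discrete
  rw [Measure.map_apply hf (measurableSet_singleton w),
    ← unif_apply (Finset.univ.filter fun a => f a = w)]
  congr 1
  ext a
  simp

theorem unifFin_prod {α β : Type*} [Fintype α] [Nonempty α] [MeasurableSpace α]
    [MeasurableSingletonClass α] [Fintype β] [Nonempty β] [MeasurableSpace β]
    [MeasurableSingletonClass β] : (unifFin α).prod (unifFin β) = unifFin (α × β) := by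
  have := prob_unifFin (α := α)
  have := prob_unifFin (α := β)
  refine Measure.ext_of_singleton fun q => ?_
  rw [show ({q} : Set (α × β)) = {q.1} ×ˢ {q.2} by simp, Measure.prod_prod, Set.singleton_prod_singleton,
    ← Finset.coe_singleton q.1, ← Finset.coe_singleton q.2, ← Finset.coe_singleton (q.1, q.2),
    unif_apply, unif_apply, unif_apply, ← ENNReal.coe_mul]
  simp only [Finset.card_singleton, Fintype.card_prod, Nat.cast_one, Nat.cast_mul,
    div_mul_div_comm, one_mul]

theorem prod_smul_coe {α β : Type*} [MeasurableSpace α] [MeasurableSpace β] (μ : Measure α)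
    (ν : Measure β) [IsFiniteMeasure μ] [IsFiniteMeasure ν] (r : ℝ≥0) :
    μ.prod ((r : ℝ≥0∞) • ν) = (r : ℝ≥0∞) • μ.prod ν := by
  have : IsFiniteMeasure ((r : ℝ≥0∞) • ν) := Measure.smul_finite ν ENNReal.coe_ne_top
  refine Measure.prod_eq fun s t _ _ => ?_
  simp only [Measure.smul_apply, Measure.prod_prod, smul_eq_mul]
  ring

theorem hitLaw_eq (P : Measure (Factor K)) [IsProbabilityMeasure P] [NeZero N] [NeZero K] :
    hitLaw P N = P.prod ((unifFin (Fin K × (Fin K → Fin N))).map hitTuple) := by
  have := prob_unifFin (α := Fin K)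
  have := prob_unifFin (α := Fin K → Fin N)
  have ht : Measurable (hitTuple (K := K) (N := N)) := Measurable.of_discrete
  have := Measure.isProbabilityMeasure_map (μ := (unifFin (Fin K)).prod (unifFin (Fin K → Fin N)))
    ht.aemeasurable
  have hassoc := measurePreserving_prodAssoc P (unifFin (Fin K)) (unifFin (Fin K → Fin N))
  rw [← unifFin_prod]
  conv_rhs => rw [← Measure.map_id (μ := P)]
  rw [Measure.map_prod_map _ _ measurable_id ht, ← hassoc.map_eq,
    Measure.map_map (measurable_id.prodMap ht) hassoc.measurable]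
  rfl

theorem prob_hitLaw (P : Measure (Factor K)) [IsProbabilityMeasure P] [NeZero N] [NeZero K] :
    IsProbabilityMeasure (hitLaw P N) := by
  have := prob_unifFin (α := Fin K)
  have := prob_unifFin (α := Fin K → Fin N)
  exact Measure.isProbabilityMeasure_map measurable_hitMark.aemeasurable

theorem prob_liftLaw (P : Measure (Factor K)) [IsProbabilityMeasure P] [NeZero N] :
    IsProbabilityMeasure (liftLaw P N) := by
  have := prob_markLaw P (N := N)
  exact Measure.isProbabilityMeasure_map measurable_liftMark.aemeasurable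

theorem liftLaw_eq (P : Measure (Factor K)) [IsProbabilityMeasure P] [NeZero N] :
    liftLaw P N =
      P.prod ((unifFin (Fin K → Fin N)).map fun v => fun j => (v j).castSucc) := by
  have := prob_unifFin (α := Fin K → Fin N)
  conv_rhs => rw [← Measure.map_id (μ := P)]
  rw [Measure.map_prod_map _ _ measurable_id Measurable.of_discrete]
  rfl

theorem card_hit_fibre [NeZero N] (q : Fin K × (Fin K → Fin N)) :
    (Finset.univ.filter fun a => hitTuple a = hitTuple q).card = N := by
  classical
  obtain ⟨ℓ, v⟩ := q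
  have h : (Finset.univ.filter fun a => hitTuple a = hitTuple (ℓ, v)) =
      Finset.univ.image fun b => (ℓ, Function.update v ℓ b) := by
    ext ⟨ℓ', v'⟩
    simp only [Finset.mem_filter, Finset.mem_univ, true_and, Finset.mem_image, Prod.mk.injEq]
    constructor
    · intro h
      have hl : ℓ = ℓ' := by
        by_contra hne
        have := congrFun h ℓ
        simp [hitTuple, Function.update_of_ne hne] at this
      subst hl
      refine ⟨v' ℓ, rfl, funext fun j => ?_⟩
      rcases eq_or_ne j ℓ with rfl | hj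
      · simp
      · have := congrFun h j
        simp only [hitTuple, Function.update_of_ne hj, Fin.castSucc_inj] at this
        simp [Function.update_of_ne hj, this]
    · rintro ⟨b, rfl, rfl⟩
      funext j
      rcases eq_or_ne j ℓ with rfl | hj
      · simp [hitTuple]
      · simp [hitTuple, Function.update_of_ne hj]
  rw [h, Finset.card_image_of_injective _ fun a b hab => ?_]
  · simp
  · simpa using congrFun (congrArg Prod.snd hab) ℓ

/-- The probability of no hit. -/
def pZero (K N : ℕ) : ℝ≥0 := ((N : ℝ≥0) / (N + 1)) ^ K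

/-- The probability of one hit. -/
def pOne (K N : ℕ) : ℝ≥0 := (K : ℝ≥0) * (N : ℝ≥0) ^ (K - 1) / ((N : ℝ≥0) + 1) ^ K

/-- Uniform sites among `N + 1`, sorted by the number of hits of the last one. -/
theorem sites_decomp [NeZero N] (hK : 2 ≤ K) :
    ∃ (γ : Measure (Fin K → Fin (N + 1))) (ce : ℝ≥0), IsProbabilityMeasure γ ∧
      pZero K N + pOne K N + ce = 1 ∧
      unifFin (Fin K → Fin (N + 1)) =
        (pZero K N : ℝ≥0∞) • ((unifFin (Fin K → Fin N)).map fun v => fun j => (v j).castSucc) +
          (pOne K N : ℝ≥0∞) • (unifFin (Fin K × (Fin K → Fin N))).map hitTuple +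
          (ce : ℝ≥0∞) • γ := by
  classical
  have : NeZero K := ⟨by omega⟩
  set ν := unifFin (Fin K → Fin (N + 1)) with hν
  have := prob_unifFin (α := Fin K → Fin (N + 1))
  have := prob_unifFin (α := Fin K → Fin N)
  have := prob_unifFin (α := Fin K × (Fin K → Fin N))
  set cast' : (Fin K → Fin N) → Fin K → Fin (N + 1) := fun v => fun j => (v j).castSucc
  set C : Set (Fin K → Fin (N + 1)) := (Set.range cast' ∪ Set.range hitTuple)ᶜ
  have hcard : (Fintype.card (Fin K → Fin (N + 1)) : ℝ≥0) = ((N : ℝ≥0) + 1) ^ K := by simp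
  have hN : (N : ℝ≥0) ≠ 0 := Nat.cast_ne_zero.2 (NeZero.ne N)
  have hN1 : (N : ℝ≥0) + 1 ≠ 0 := by positivity
  have hK0 : (K : ℝ≥0) ≠ 0 := Nat.cast_ne_zero.2 (by omega)
  have hsingle : ∀ w, ν {w} = (((1 : ℝ≥0) / ((N : ℝ≥0) + 1) ^ K : ℝ≥0) : ℝ≥0∞) := fun w => by
    rw [hν, ← Finset.coe_singleton, unif_apply, hcard, Finset.card_singleton, Nat.cast_one]
  have hsplit : ν = (pZero K N : ℝ≥0∞) • (unifFin (Fin K → Fin N)).map cast' +
      (pOne K N : ℝ≥0∞) • (unifFin (Fin K × (Fin K → Fin N))).map hitTuple + ν.restrict C := by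
    refine Measure.ext_of_singleton fun w => ?_
    rw [Measure.add_apply, Measure.add_apply, Measure.smul_apply, Measure.smul_apply,
      unif_map_apply, unif_map_apply, Measure.restrict_apply (measurableSet_singleton w),
      smul_eq_mul, smul_eq_mul]
    by_cases h0 : w ∈ Set.range cast'
    · obtain ⟨v, rfl⟩ := h0
      have hC : ({cast' v} : Set _) ∩ C = ∅ := by
        ext z; simp [C]
      have e1 : (Finset.univ.filter fun a => cast' a = cast' v) = {v} := by
        ext a
        simp only [Finset.mem_filter, Finset.mem_univ, true_and, Finset.mem_singleton]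
        exact ⟨fun h => funext fun j => Fin.castSucc_injective _ (congrFun h j), fun h => h ▸ rfl⟩
      have e2 : (Finset.univ.filter fun a => hitTuple a = cast' v) = ∅ := by
        rw [Finset.filter_eq_empty_iff]
        intro a _ h
        have := congrFun h a.1
        simp only [hitTuple, Function.update_self, cast'] at this
        exact (Fin.castSucc_lt_last _).ne this.symm
      rw [hC, measure_empty, e1, e2, hsingle, ← ENNReal.coe_mul, ← ENNReal.coe_mul, add_zero,
        ← ENNReal.coe_add, ENNReal.coe_inj]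
      simp [pZero, div_pow]
      field_simp
    · have e1 : (Finset.univ.filter fun a => cast' a = w) = ∅ := by
        rw [Finset.filter_eq_empty_iff]
        exact fun a _ h => h0 ⟨a, h⟩
      by_cases h1 : w ∈ Set.range (hitTuple (K := K) (N := N))
      · obtain ⟨q, rfl⟩ := h1
        have hC : ({hitTuple q} : Set _) ∩ C = ∅ := by
          ext z; simp [C]
        rw [hC, measure_empty, e1, card_hit_fibre, hsingle, ← ENNReal.coe_mul, ← ENNReal.coe_mul,
          add_zero, ← ENNReal.coe_add, ENNReal.coe_inj]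
        simp [pOne]
        obtain ⟨j, hj⟩ : ∃ j, K = j + 1 := ⟨K - 1, by omega⟩
        rw [show K - 1 = j by omega, hj, pow_succ (N : ℝ≥0) j]
        field_simp
      · have hC : ({w} : Set _) ∩ C = {w} :=
          Set.inter_eq_left.2 (Set.singleton_subset_iff.2 fun h => h.elim h0 h1)
        have e2 : (Finset.univ.filter fun a => hitTuple a = w) = ∅ := by
          rw [Finset.filter_eq_empty_iff]
          exact fun a _ h => h1 ⟨a, h⟩
        rw [hC, e1, e2]
        simp
  set ce : ℝ≥0 := (ν C).toNNReal
  have hce : (ce : ℝ≥0∞) = ν C := ENNReal.coe_toNNReal (measure_ne_top ν C)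
  have hpos : ce ≠ 0 := by
    intro h
    have hw : (fun _ : Fin K => Fin.last N) ∈ C := by
      rintro (⟨v, hv⟩ | ⟨q, hq⟩)
      · exact (Fin.castSucc_lt_last _).ne (congrFun hv ⟨0, by omega⟩)
      · obtain ⟨j, hj⟩ : ∃ j : Fin K, j ≠ q.1 := by
          by_contra! hall
          exact absurd ((hall ⟨0, by omega⟩).trans (hall ⟨1, by omega⟩).symm) (by simp)
        have := congrFun hq j
        simp only [hitTuple, Function.update_of_ne hj] at this
        exact (Fin.castSucc_lt_last _).ne this
    have h2 := measure_mono (μ := ν) (Set.singleton_subset_iff.2 hw)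
    rw [← hce, h, hsingle, ENNReal.coe_zero, nonpos_iff_eq_zero, ENNReal.coe_eq_zero] at h2
    simp [hN1] at h2
  refine ⟨(ce : ℝ≥0∞)⁻¹ • ν.restrict C, ce, ⟨?_⟩, ?_, ?_⟩
  · rw [Measure.smul_apply, Measure.restrict_apply_univ, smul_eq_mul, ← hce,
      ENNReal.inv_mul_cancel (ENNReal.coe_ne_zero.2 hpos) ENNReal.coe_ne_top]
  · have h := congrArg (fun m : Measure (Fin K → Fin (N + 1)) => m Set.univ) hsplit
    have h1 : (unifFin (Fin K → Fin N)).map cast' Set.univ = 1 := by
      rw [Measure.map_apply Measurable.of_discrete MeasurableSet.univ]; simp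
    have h2 : (unifFin (Fin K × (Fin K → Fin N))).map hitTuple Set.univ = 1 := by
      rw [Measure.map_apply Measurable.of_discrete MeasurableSet.univ]; simp
    simp only [Measure.add_apply, Measure.smul_apply, h1, h2, smul_eq_mul, mul_one,
      Measure.restrict_apply_univ, ← hce, measure_univ, ← ENNReal.coe_add] at h
    exact_mod_cast h.symm
  · rw [smul_smul, ENNReal.mul_inv_cancel (ENNReal.coe_ne_zero.2 hpos) ENNReal.coe_ne_top,
      one_smul]
    exact hsplit

/-- Two or more hits are rare. -/
theorem two_hits_le (hK : 2 ≤ K) {ce : ℝ≥0} (h : pZero K N + pOne K N + ce = 1) :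
    (ce : ℝ) ≤ (K : ℝ) ^ 2 / ((N : ℝ) + 1) ^ 2 ∧
      (K : ℝ) - ((N : ℝ) + 1) * pOne K N ≤ (K : ℝ) ^ 2 / ((N : ℝ) + 1) := by
  obtain ⟨j, rfl⟩ : ∃ j, K = j + 1 := ⟨K - 1, by omega⟩
  set u : ℝ := 1 / ((N : ℝ) + 1) with hu
  have hN : (0 : ℝ) < (N : ℝ) + 1 := by positivity
  have hu1 : u ≤ 1 := by rw [hu, div_le_one hN]; linarith
  have hu0 : 0 ≤ u := by positivity
  have hq : ((N : ℝ) / ((N : ℝ) + 1)) = 1 - u := by rw [hu]; field_simp; ring
  have e0 : ((pZero (j + 1) N : ℝ≥0) : ℝ) = (1 - u) ^ (j + 1) := by
    simp only [pZero, NNReal.coe_pow, NNReal.coe_div, NNReal.coe_add, NNReal.coe_natCast,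
      NNReal.coe_one, hq]
  have e1 : ((pOne (j + 1) N : ℝ≥0) : ℝ) = ((j : ℝ) + 1) * (u * (1 - u) ^ j) := by
    simp only [pOne, add_tsub_cancel_right, NNReal.coe_mul, NNReal.coe_div, NNReal.coe_pow,
      NNReal.coe_add, NNReal.coe_natCast, NNReal.coe_one, Nat.cast_add, Nat.cast_one, ← hq, div_pow]
    rw [hu]
    field_simp
    ring
  have hs : ((pZero (j + 1) N : ℝ≥0) : ℝ) + pOne (j + 1) N + ce = 1 := by exact_mod_cast h
  have b1 := one_add_mul_le_pow (a := -u) (by linarith) (j + 1)
  have b2 := one_add_mul_le_pow (a := -u) (by linarith) j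
  push_cast at b1
  have hmul := mul_le_mul_of_nonneg_left b2 (mul_nonneg (by positivity : (0 : ℝ) ≤ (j : ℝ) + 1) hu0)
  rw [show (1 + -u : ℝ) = 1 - u by ring] at b1 b2 hmul
  have hu2 : 0 ≤ u ^ 2 * ((j : ℝ) + 1) := by positivity
  push_cast
  constructor
  · rw [show (((j : ℝ) + 1) ^ 2 / ((N : ℝ) + 1) ^ 2) = ((j : ℝ) + 1) ^ 2 * u ^ 2 by
      rw [hu]; field_simp]
    nlinarith
  · rw [e1, show (((j : ℝ) + 1) ^ 2 / ((N : ℝ) + 1)) = ((j : ℝ) + 1) ^ 2 * u by rw [hu]; field_simp,
      show ((N : ℝ) + 1) * (((j : ℝ) + 1) * (u * (1 - u) ^ j)) =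
        ((j : ℝ) + 1) * (1 - u) ^ j * (((N : ℝ) + 1) * u) by ring,
      show ((N : ℝ) + 1) * u = 1 by rw [hu]; field_simp]
    nlinarith

/-- Prepend a fresh field: the last coordinate of iid fields. -/
theorem integral_snoc (Q : Measure ℝ) [IsProbabilityMeasure Q] {f : (Fin (N + 1) → ℝ) → ℝ}
    (hf : Measurable f) {C : ℝ} (hb : ∀ h, |f h| ≤ C) :
    ∫ h, f h ∂(Measure.pi fun _ => Q) =
      ∫ h, ∫ h₀, f (Fin.snoc h h₀) ∂Q ∂(Measure.pi fun _ => Q) := by
  have h := (measurePreserving_piFinSuccAbove (fun _ : Fin (N + 1) => Q) (Fin.last N)).symm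
  rw [← h.integral_comp (MeasurableEquiv.measurableEmbedding _) f,
    integral_prod_symm (fun q : ℝ × (Fin N → ℝ) =>
      f ((MeasurableEquiv.piFinSuccAbove (fun _ => ℝ) (Fin.last N)).symm q)) (Integrable.of_bound (hf.comp (MeasurableEquiv.measurable _)).aestronglyMeasurable
      C (ae_of_all _ fun q => hb _))]
  simp [MeasurableEquiv.piFinSuccAbove_symm_apply, Fin.insertNthEquiv, Fin.insertNth_last']

end Vale.Agent.P168.Limit.Cavity
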