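import Vale.Agent.P168.Limit.Gibbs

/-!
The perturbed finite system.

A slot type is a function `ψ` of the spins at finitely many uniformly sampled sites and a small
tilt `t` of the same spins. Kernel `g` is the average of `ψ ψ'` over `S` slots of type `g`.
Besides the slots there is a uniformly random number (below `Q`) of further tilts of each type, so
that one slot more or less is not felt.
-/

open MeasureTheory ProbabilityTheory
open scoped BigOperators NNReal ENNReal

noncomputable section

namespace Vale.Agent.P168.Limit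

/-- The gadget and sign with index `g`, if any. -/
def decodeKer : ℕ → Option (Gadget × Bool)
  | 0 => none
  | g + 1 => Encodable.decode₂ _ g

/-- The number of sites read by a slot of type `g`. -/
def arity (g : ℕ) : ℕ :=
  if g = 0 then 1 else match decodeKer g with
    | some (Γ, _) => Γ.2.1.length
    | none => 0

/-- The `i`th hyperedge. -/
def edgeAt (Γ : Gadget) (i : ℕ) : Finset (Fin Γ.1) × Bool × Bool :=
  Γ.2.1.getD i (∅, false, false)

/-- `(φ + s φ') / 2` of a gadget, as a function of the spins at its sites. -/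
def gadgetPsi (Γ : Gadget) (s : Bool) {E : ℕ} (z : Fin E → Bool) : ℝ :=
  ((∏ i : Fin E, if (edgeAt Γ i).2.1 then spin (z i) else 1) +
    spin s * ∏ i : Fin E, if (edgeAt Γ i).2.2 then spin (z i) else 1) / 2

/-- The tilt of a gadget. -/
def gadgetTilt (Γ : Gadget) {E : ℕ} (z : Fin E → Bool) : ℝ :=
  ∑ a : Fin Γ.1, Γ.tilt a * ∏ i : Fin E, if a ∈ (edgeAt Γ i).1 then spin (z i) else 1

/-- `ψ` of the slots of type `g`. -/
def slotPsi (g : ℕ) (z : Fin (arity g) → Bool) : ℝ :=
  if g = 0 then ∏ i, spin (z i) else match decodeKer g with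
    | some (Γ, s) => gadgetPsi Γ s z
    | none => 0

/-- The tilt of the slots of type `g`. -/
def slotTilt (g : ℕ) (z : Fin (arity g) → Bool) : ℝ :=
  if g = 0 then 0 else match decodeKer g with
    | some (Γ, _) => gadgetTilt Γ z
    | none => 0

/-- The parameters of the perturbation: level, slots, extra tilts and strength. -/
structure Params where
  L : ℕ
  S : ℕ
  Q : ℕ
  s : ℝ
  S_pos : 0 < S
  Q_pos : 0 < Q

/-- The monomials in the kernels below level `L`. -/
abbrev Mono (L : ℕ) := Σ d : Fin (L + 1), (Fin d.val → Fin L)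

/-- The features of all monomials. -/
abbrev Feat (L S : ℕ) := Σ a : Mono L, (Fin a.1.val → Fin S)

/-- The observables with a tuning parameter: monomial fields, diagonals and the magnetisation. -/
abbrev Obs (L : ℕ) := Mono L ⊕ Option (Fin L)

/-- The sites read by the slots and by the further tilts, and the numbers of further tilts. -/
abbrev Env (p : Params) (N : ℕ) :=
  ((g : Fin p.L) → Fin p.S → Fin (arity g) → Fin N) ×
    ((g : Fin p.L) → Fin p.Q → Fin (arity g) → Fin N) × (Fin p.L → Fin p.Q)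

/-- Clauses (their number and a sequence of them) and fields. -/
abbrev Base (K N : ℕ) := (ℕ × (ℕ → Factor K × (Fin K → Fin N))) × (Fin N → ℝ)

/-- All the disorder. -/
abbrev Dis (K : ℕ) (p : Params) (N : ℕ) := Base K N × Env p N × (Feat p.L p.S → ℝ)

variable {K N : ℕ} (p : Params)

/-- `ψ` of slot `u` of type `g` at a configuration. -/
def psiAt (e : Env p N) (g : Fin p.L) (u : Fin p.S) (σ : Fin N → Bool) : ℝ :=
  slotPsi g fun i => σ (e.1 g u i)

/-- The kernel of type `g`. -/
def kern (e : Env p N) (g : Fin p.L) (σ τ : Fin N → Bool) : ℝ :=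
  (∑ u, psiAt p e g u σ * psiAt p e g u τ) / (p.S : ℝ)

/-- The kernel with an arbitrary index; zero from level `L` on. -/
def kval (e : Env p N) (g : ℕ) (σ τ : Fin N → Bool) : ℝ :=
  if h : g < p.L then kern p e ⟨g, h⟩ σ τ else 0

/-- The magnetisation read by the slots of type zero. -/
def magSlot (e : Env p N) (σ : Fin N → Bool) : ℝ :=
  ∑ g : Fin p.L, if g.val = 0 then (∑ u, psiAt p e g u σ) / (p.S : ℝ) else 0

/-- The feature `f`; the products of two replicas sum to the monomial in the kernels. -/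
def featVal (e : Env p N) (f : Feat p.L p.S) (σ : Fin N → Bool) : ℝ :=
  ∏ i : Fin f.1.1.val, psiAt p e (f.1.2 i) (f.2 i) σ / Real.sqrt p.S

/-- The Gaussian observable of a monomial. -/
def gaussObs (e : Env p N) (J : Feat p.L p.S → ℝ) (a : Mono p.L) (σ : Fin N → Bool) : ℝ :=
  ∑ v : Fin a.1.val → Fin p.S, J ⟨a, v⟩ * featVal p e ⟨a, v⟩ σ

/-- The linear observables. -/
def linObs (e : Env p N) : Option (Fin p.L) → (Fin N → Bool) → ℝ
  | none, σ => magSlot p e σ
  | some g, σ => kern p e g σ σ

/-- The tilts of the slots and of the further copies. -/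
def tiltPart (e : Env p N) (σ : Fin N → Bool) : ℝ :=
  ∑ g : Fin p.L, ((∑ u, slotTilt g fun i => σ (e.1 g u i)) +
    ∑ j : Fin p.Q, if j.val < (e.2.2 g).val then slotTilt g (fun i => σ (e.2.1 g j i)) else 0)

/-- The perturbation. -/
def pertH (x : Obs p.L → ℝ) (e : Env p N) (J : Feat p.L p.S → ℝ) (σ : Fin N → Bool) : ℝ :=
  tiltPart p e σ + p.s * ∑ a, x (Sum.inl a) * gaussObs p e J a σ +
    p.s ^ 2 * ∑ o, x (Sum.inr o) * linObs p e o σ

/-- The Hamiltonian of the perturbed system. -/
def totalH (x : Obs p.L → ℝ) (d : Dis K p N) (σ : Fin N → Bool) : ℝ :=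
  hamiltonian (fun k : Fin d.1.1.1 => d.1.1.2 k) d.1.2 σ + pertH p x d.2.1 d.2.2 σ

/-- The law of clauses and fields, with Poisson(`μ`) clauses. -/
def baseLaw (N : ℕ) (P : Measure (Factor K)) (Q : Measure ℝ) (μ : ℝ≥0) : Measure (Base K N) :=
  ((poissonMeasure μ).prod
    (Measure.infinitePi fun _ : ℕ => P.prod (unifFin (Fin K → Fin N)))).prod
      (Measure.pi fun _ : Fin N => Q)

/-- The law of the disorder. -/
def disLaw (N : ℕ) (P : Measure (Factor K)) (Q : Measure ℝ) (μ : ℝ≥0) : Measure (Dis K p N) :=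
  (baseLaw N P Q μ).prod
    ((unifFin (Env p N)).prod (Measure.pi fun _ : Feat p.L p.S => gaussianReal 0 1))

/-- The perturbed log partition function, averaged. -/
def pertLogZ (N : ℕ) (P : Measure (Factor K)) (Q : Measure ℝ) (μ : ℝ≥0) (x : Obs p.L → ℝ) : ℝ :=
  ∫ d, logZ (totalH p x d) ∂disLaw p N P Q μ

/-- The parameters used at horizon `M` and level `L`. -/
def horizonParams (L M : ℕ) : Params where
  L := L + 1
  S := ⌈(M : ℝ) ^ (17 / 20 : ℝ)⌉₊ + 1
  Q := Nat.sqrt M + 1
  s := (M : ℝ) ^ (7 / 20 : ℝ)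
  S_pos := Nat.succ_pos _
  Q_pos := Nat.succ_pos _

/-- The clause intensity of the cavity system. -/
def cavRate (K : ℕ) (lam : ℝ) (N : ℕ) : ℝ≥0 :=
  (lam * (N + 1) * ((N : ℝ) / (N + 1)) ^ K).toNNReal

/-- The range of the tuning parameters. -/
def xLaw (L : ℕ) : Measure (Obs L → ℝ) :=
  Measure.pi fun _ => volume.restrict (Set.Icc 1 2)

/-- The fluctuations that the Ghirlanda–Guerra identities need. -/
def fluct (N : ℕ) (P : Measure (Factor K)) (Q : Measure ℝ) (μ : ℝ≥0) (x : Obs p.L → ℝ) : ℝ :=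
  (∑ a : Mono p.L, ∫ d, gav (totalH p x d) (fun σ => |gaussObs p d.2.1 d.2.2 a σ -
      ∫ d', gav (totalH p x d') (gaussObs p d'.2.1 d'.2.2 a) ∂disLaw p N P Q μ|)
        ∂disLaw p N P Q μ) / p.s +
    ∑ o : Option (Fin p.L), ∫ d, gav (totalH p x d) (fun σ => |linObs p d.2.1 o σ -
      ∫ d', gav (totalH p x d') (linObs p d'.2.1 o) ∂disLaw p N P Q μ|) ∂disLaw p N P Q μ

end Vale.Agent.P168.Limit
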