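import Vale.Agent.P168.Limit.CavityGauss
import Vale.Agent.P168.Limit.System

/-! The perturbation depends little on the sites of few slots. -/

open MeasureTheory ProbabilityTheory Filter
open scoped BigOperators NNReal ENNReal Topology

noncomputable section

namespace Vale.Agent.P168.Limit.Cavity

open Toolkit

variable {K N N' : ℕ} (p : Params)

/-- Move the sites of an environment. -/
def mapEnv (φ : Fin N → Fin N') (e : Env p N) : Env p N' :=
  (fun g u i => φ (e.1 g u i), fun g j i => φ (e.2.1 g j i), e.2.2)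

/-- The part of the perturbation without Gaussian variables. -/
def detPart (x : Obs p.L → ℝ) (e : Env p N) (σ : Fin N → Bool) : ℝ :=
  tiltPart p e σ + p.s ^ 2 * ∑ o, x (Sum.inr o) * linObs p e o σ

/-- The coefficient of a Gaussian variable. -/
def coefF (x : Obs p.L → ℝ) (e : Env p N) (f : Feat p.L p.S) (σ : Fin N → Bool) : ℝ :=
  p.s * x (Sum.inl f.1) * featVal p e f σ

theorem pertH_eq (x : Obs p.L → ℝ) (e : Env p N) (J : Feat p.L p.S → ℝ) (σ : Fin N → Bool) :
    pertH p x e J σ = detPart p x e σ + ∑ f, coefF p x e f σ * J f := by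
  have : ∑ f, coefF p x e f σ * J f = p.s * ∑ a, x (Sum.inl a) * gaussObs p e J a σ := by
    simp only [gaussObs, coefF, Finset.mul_sum]
    rw [Fintype.sum_sigma]
    exact Finset.sum_congr rfl fun a _ => Finset.sum_congr rfl fun v _ => by ring
  rw [this, detPart, pertH]
  ring

/-- The perturbed mean log partition function over a base Hamiltonian. -/
def pertE (A : (Fin N → Bool) → ℝ) (x : Obs p.L → ℝ) (e : Env p N) : ℝ :=
  elogZ (fun σ => A σ + detPart p x e σ) (coefF p x e)

theorem pertE_eq (A : (Fin N → Bool) → ℝ) (x : Obs p.L → ℝ) (e : Env p N) :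
    pertE p A x e = ∫ J, logZ (fun σ => A σ + pertH p x e J σ) ∂gaussPi (Feat p.L p.S) := by
  simp only [pertE, elogZ, pertH_eq, add_assoc]

/-- A bound on the tilt of a slot. -/
def tiltBd (g : ℕ) : ℝ := ∑ z, |slotTilt g z|

/-- The sum of the tilt bounds below a level. -/
def tiltTot (L : ℕ) : ℝ := ∑ g : Fin L, tiltBd g

/-- The sum of the arities below a level. -/
def arTot (L : ℕ) : ℝ := ∑ g : Fin L, (arity g : ℝ)

/-- The number of monomials. -/
def monTot (L : ℕ) : ℝ := (Fintype.card (Mono L) : ℝ)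

theorem tiltBd_nonneg (g : ℕ) : 0 ≤ tiltBd g := Finset.sum_nonneg fun _ _ => abs_nonneg _
theorem tiltTot_nonneg (L : ℕ) : 0 ≤ tiltTot L := Finset.sum_nonneg fun _ _ => tiltBd_nonneg _
theorem arTot_nonneg (L : ℕ) : 0 ≤ arTot L := Finset.sum_nonneg fun _ _ => Nat.cast_nonneg _
theorem monTot_nonneg (L : ℕ) : 0 ≤ monTot L := Nat.cast_nonneg _

theorem abs_slotTilt (g : ℕ) (z : Fin (arity g) → Bool) : |slotTilt g z| ≤ tiltBd g :=
  Finset.single_le_sum (f := fun w => |slotTilt g w|) (fun w _ => abs_nonneg _) (Finset.mem_univ z)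

theorem abs_spin (s : Bool) : |spin s| = 1 := by cases s <;> simp [spin]

theorem abs_slotPsi (g : ℕ) (z : Fin (arity g) → Bool) : |slotPsi g z| ≤ 1 := by
  unfold slotPsi
  split
  · simp [Finset.abs_prod, abs_spin]
  · split
    · next Γ s _ =>
      unfold gadgetPsi
      rw [abs_div, abs_two, div_le_one two_pos]
      refine (abs_add_le _ _).trans ?_
      rw [abs_mul, abs_spin, one_mul, Finset.abs_prod, Finset.abs_prod, ← one_add_one_eq_two]
      refine add_le_add (le_of_eq (Finset.prod_eq_one fun i _ => ?_))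
        (le_of_eq (Finset.prod_eq_one fun i _ => ?_)) <;> split <;> simp [abs_spin]
    · simp

theorem abs_psiAt (e : Env p N) (g : Fin p.L) (u : Fin p.S) (σ : Fin N → Bool) :
    |psiAt p e g u σ| ≤ 1 := abs_slotPsi _ _

theorem S_pos' : (0 : ℝ) < p.S := Nat.cast_pos.2 p.S_pos

theorem sq_coefF (x : Obs p.L → ℝ) (hx : ∀ o, |x o| ≤ 2) (e : Env p N) (f : Feat p.L p.S)
    (σ : Fin N → Bool) :
    coefF p x e f σ ^ 2 ≤ 4 * p.s ^ 2 * (1 / (p.S : ℝ)) ^ (f.1.1 : ℕ) := by
  have hS := S_pos' p
  have h1 : featVal p e f σ ^ 2 ≤ (1 / (p.S : ℝ)) ^ (f.1.1 : ℕ) := by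
    rw [featVal, ← Finset.prod_pow]
    refine le_of_le_of_eq (Finset.prod_le_prod (g := fun _ => 1 / (p.S : ℝ))
      (fun i _ => sq_nonneg _) fun i _ => ?_) (by simp)
    rw [div_pow, Real.sq_sqrt hS.le]
    gcongr
    exact (sq_le_one_iff_abs_le_one _).2 (abs_psiAt p _ _ _ _)
  have h2 : x (Sum.inl f.1) ^ 2 ≤ 4 := by
    have := sq_le_sq' (abs_le.1 (hx (Sum.inl f.1))).1 (abs_le.1 (hx (Sum.inl f.1))).2
    linarith
  rw [coefF, mul_pow, mul_pow, mul_comm (4 : ℝ)]
  exact mul_le_mul (mul_le_mul_of_nonneg_left h2 (sq_nonneg _)) h1 (sq_nonneg _)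
    (by positivity)

theorem sum_pow_feat (a : Mono p.L) :
    ∑ _v : Fin a.1.val → Fin p.S, (1 / (p.S : ℝ)) ^ (a.1 : ℕ) = 1 := by
  rw [Finset.sum_const, Finset.card_univ, Fintype.card_fun, Fintype.card_fin, Fintype.card_fin,
    nsmul_eq_mul, Nat.cast_pow, ← mul_pow, mul_one_div, div_self (S_pos' p).ne', one_pow]

theorem sum_ind_feat (a : Mono p.L) (i : Fin a.1.val) (D : Finset (Fin p.S)) :
    ∑ v : Fin a.1.val → Fin p.S, (if v i ∈ D then (1 / (p.S : ℝ)) ^ (a.1 : ℕ) else 0) =
      (D.card : ℝ) / p.S := by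
  classical
  have h : ∀ v : Fin a.1.val → Fin p.S,
      (if v i ∈ D then (1 / (p.S : ℝ)) ^ (a.1 : ℕ) else 0) =
        ∏ k, (if k = i then (if v k ∈ D then 1 / (p.S : ℝ) else 0) else 1 / (p.S : ℝ)) := by
    intro v
    split_ifs with hv
    · rw [Finset.prod_eq_pow_card (b := 1 / (p.S : ℝ)) fun k _ => by
        by_cases hk : k = i
        · subst hk; simp [hv]
        · simp [hk]]
      simp
    · exact (Finset.prod_eq_zero (Finset.mem_univ i) (by simp [hv])).symm
  simp only [h]
  rw [← Fintype.prod_sum fun k u =>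
    if k = i then (if u ∈ D then 1 / (p.S : ℝ) else 0) else 1 / (p.S : ℝ),
    Finset.prod_eq_single i]
  · simp [div_eq_mul_inv]
  · intro k _ hk
    simp [hk, (S_pos' p).ne']
  · simp

/-- The features that read a slot in `D`. -/
def featsIn (D : Fin p.L → Finset (Fin p.S)) : Finset (Feat p.L p.S) :=
  Finset.univ.filter fun f => ∃ i, f.2 i ∈ D (f.1.2 i)

/-- The number of slots in `D`. -/
def numSlots {L S : ℕ} (D : Fin L → Finset (Fin S)) : ℝ := ∑ g, ((D g).card : ℝ)

theorem numSlots_nonneg {L S : ℕ} (D : Fin L → Finset (Fin S)) : 0 ≤ numSlots D :=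
  Finset.sum_nonneg fun _ _ => Nat.cast_nonneg _

theorem sum_featsIn (D : Fin p.L → Finset (Fin p.S)) :
    ∑ f ∈ featsIn p D, (1 / (p.S : ℝ)) ^ (f.1.1 : ℕ) ≤ monTot p.L * p.L * (numSlots D / p.S) := by
  have hS := S_pos' p
  have h1 : ∀ a : Mono p.L, ∀ v : Fin a.1.val → Fin p.S,
      (if ∃ i, v i ∈ D (a.2 i) then (1 / (p.S : ℝ)) ^ (a.1 : ℕ) else 0) ≤
        ∑ i, if v i ∈ D (a.2 i) then (1 / (p.S : ℝ)) ^ (a.1 : ℕ) else 0 := by
    intro a v
    split_ifs with h
    · obtain ⟨i, hi⟩ := h
      refine le_trans (le_of_eq (by simp [hi])) (Finset.single_le_sum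
        (f := fun i => if v i ∈ D (a.2 i) then (1 / (p.S : ℝ)) ^ (a.1 : ℕ) else 0)
        (fun j _ => by positivity) (Finset.mem_univ i))
    · exact Finset.sum_nonneg fun j _ => by positivity
  calc ∑ f ∈ featsIn p D, (1 / (p.S : ℝ)) ^ (f.1.1 : ℕ)
      = ∑ a : Mono p.L, ∑ v : Fin a.1.val → Fin p.S,
          if ∃ i, v i ∈ D (a.2 i) then (1 / (p.S : ℝ)) ^ (a.1 : ℕ) else 0 := by
        rw [featsIn, Finset.sum_filter, Fintype.sum_sigma]
    _ ≤ ∑ a : Mono p.L, ∑ i : Fin a.1.val, ((D (a.2 i)).card : ℝ) / p.S := by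
        refine Finset.sum_le_sum fun a _ => (Finset.sum_le_sum fun v _ => h1 a v).trans_eq ?_
        rw [Finset.sum_comm]
        exact Finset.sum_congr rfl fun i _ => sum_ind_feat p a i _
    _ ≤ ∑ _a : Mono p.L, (p.L : ℝ) * (numSlots D / p.S) := by
        refine Finset.sum_le_sum fun a _ => (Finset.sum_le_sum fun i _ =>
          div_le_div_of_nonneg_right (Finset.single_le_sum (f := fun g => ((D g).card : ℝ))
            (fun g _ => Nat.cast_nonneg _) (Finset.mem_univ (a.2 i))) hS.le).trans ?_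
        rw [Finset.sum_const, Finset.card_univ, Fintype.card_fin, nsmul_eq_mul]
        exact mul_le_mul_of_nonneg_right (Nat.cast_le.2 (Nat.lt_succ_iff.1 a.1.isLt))
          (div_nonneg (numSlots_nonneg D) hS.le)
    _ = _ := by
        rw [Finset.sum_const, Finset.card_univ, nsmul_eq_mul]
        simp only [monTot]
        ring

theorem sum_diff_le {α : Type*} [Fintype α] (D : Finset α) {f f' : α → ℝ} {c : ℝ}
    (h : ∀ u, u ∉ D → f u = f' u) (hf : ∀ u, |f u| ≤ c) (hf' : ∀ u, |f' u| ≤ c) :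
    |(∑ u, f u) - ∑ u, f' u| ≤ 2 * c * D.card := by
  classical
  rw [← Finset.sum_sub_distrib]
  refine (Finset.abs_sum_le_sum_abs _ _).trans
    ((Finset.sum_le_sum fun u _ => (?_ : _ ≤ if u ∈ D then 2 * c else 0)).trans_eq ?_)
  · split_ifs with hu
    · linarith [abs_sub (f u) (f' u), hf u, hf' u]
    · simp [h u hu]
  · simp [Finset.sum_ite_mem, mul_comm]

/-- Two environments agree outside `D` and `D'`. -/
def SameOff (e e' : Env p N) (D : Fin p.L → Finset (Fin p.S))
    (D' : Fin p.L → Finset (Fin p.Q)) : Prop :=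
  (∀ g u, u ∉ D g → e.1 g u = e'.1 g u) ∧ (∀ g j, j ∉ D' g → e.2.1 g j = e'.2.1 g j) ∧
    e.2.2 = e'.2.2

variable {p}
variable {e e' : Env p N} {D : Fin p.L → Finset (Fin p.S)} {D' : Fin p.L → Finset (Fin p.Q)}

theorem SameOff.tilt (h : SameOff p e e' D D') (σ : Fin N → Bool) :
    |tiltPart p e σ - tiltPart p e' σ| ≤ 2 * tiltTot p.L * (numSlots D + numSlots D') := by
  simp only [tiltPart, ← Finset.sum_sub_distrib]
  refine (Finset.abs_sum_le_sum_abs _ _).trans ((Finset.sum_le_sum fun (g : Fin p.L) _ =>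
    (?_ : _ ≤ 2 * tiltBd (g : ℕ) * (numSlots D + numSlots D'))).trans_eq ?_)
  · rw [add_sub_add_comm]
    refine (abs_add_le _ _).trans ?_
    rw [mul_add (2 * tiltBd g)]
    have hb := tiltBd_nonneg g
    refine add_le_add ?_ ?_
    · refine (sum_diff_le (D g) (fun u hu => by rw [h.1 g u hu]) (fun u => abs_slotTilt _ _)
        fun u => abs_slotTilt _ _).trans (mul_le_mul_of_nonneg_left ?_ (by positivity))
      exact Finset.single_le_sum (f := fun g => ((D g).card : ℝ)) (fun g _ => Nat.cast_nonneg _)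
        (Finset.mem_univ g)
    · refine (sum_diff_le (D' g) (c := tiltBd g) (fun j hj => by rw [h.2.1 g j hj, h.2.2])
        (fun j => ?_) fun j => ?_).trans (mul_le_mul_of_nonneg_left ?_ (by positivity))
      · split_ifs
        · exact abs_slotTilt _ _
        · simpa using hb
      · split_ifs
        · exact abs_slotTilt _ _
        · simpa using hb
      · exact Finset.single_le_sum (f := fun g => ((D' g).card : ℝ)) (fun g _ => Nat.cast_nonneg _)
          (Finset.mem_univ g)
  · simp only [tiltTot, Finset.mul_sum, Finset.sum_mul]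

theorem SameOff.kern (h : SameOff p e e' D D') (g : Fin p.L) (σ τ : Fin N → Bool) :
    |kern p e g σ τ - kern p e' g σ τ| ≤ 2 * ((D g).card / p.S) := by
  simp only [Limit.kern, ← sub_div, abs_div, Nat.abs_cast]
  rw [← mul_div_assoc]
  refine div_le_div_of_nonneg_right ((sum_diff_le (D g) (c := 1) (fun u hu => by
    simp only [psiAt, h.1 g u hu]) (fun u => ?_) fun u => ?_).trans_eq (by ring))
    (Nat.cast_nonneg _) <;>
  · rw [abs_mul]
    exact mul_le_one₀ (abs_psiAt p _ _ _ _) (abs_nonneg _) (abs_psiAt p _ _ _ _)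

theorem SameOff.mag (h : SameOff p e e' D D') (σ : Fin N → Bool) :
    |magSlot p e σ - magSlot p e' σ| ≤ 2 * (numSlots D / p.S) := by
  simp only [magSlot, ← Finset.sum_sub_distrib, numSlots, Finset.sum_div, Finset.mul_sum]
  refine (Finset.abs_sum_le_sum_abs _ _).trans (Finset.sum_le_sum fun g _ => ?_)
  split
  · simp only [← Finset.sum_div, ← sub_div, abs_div, Nat.abs_cast]
    rw [← mul_div_assoc]
    exact div_le_div_of_nonneg_right ((sum_diff_le (D g) (c := 1) (fun u hu => by
      simp only [psiAt, h.1 g u hu]) (fun u => abs_psiAt p _ _ _ _)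
      fun u => abs_psiAt p _ _ _ _).trans_eq (by ring)) (Nat.cast_nonneg _)
  · rw [sub_zero, abs_zero]; positivity

theorem SameOff.det (h : SameOff p e e' D D') (x : Obs p.L → ℝ) (hx : ∀ o, |x o| ≤ 2)
    (σ : Fin N → Bool) :
    |detPart p x e σ - detPart p x e' σ| ≤
      2 * tiltTot p.L * (numSlots D + numSlots D') + p.s ^ 2 * (8 * (numSlots D / p.S)) := by
  rw [detPart, detPart, add_sub_add_comm, ← mul_sub]
  refine (abs_add_le _ _).trans (add_le_add (h.tilt σ) ?_)
  rw [abs_mul, abs_of_nonneg (sq_nonneg p.s)]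
  refine mul_le_mul_of_nonneg_left ?_ (sq_nonneg _)
  rw [← Finset.sum_sub_distrib]
  refine (Finset.abs_sum_le_sum_abs _ _).trans ?_
  simp only [← mul_sub, abs_mul]
  refine (Finset.sum_le_sum fun o _ => mul_le_mul_of_nonneg_right (hx _) (abs_nonneg _)).trans ?_
  rw [← Finset.mul_sum, Fintype.sum_option]
  have h2 : ∑ g : Fin p.L, |linObs p e (some g) σ - linObs p e' (some g) σ| ≤
      2 * (numSlots D / p.S) := by
    simp only [numSlots, Finset.sum_div, Finset.mul_sum]
    exact Finset.sum_le_sum fun g _ => h.kern g σ σ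
  have h3 : |linObs p e none σ - linObs p e' none σ| ≤ 2 * (numSlots D / p.S) := h.mag σ
  linarith

/-- The constant in the influence bound. -/
def inflC (L : ℕ) : ℝ := 2 * tiltTot L + 8 + 2 * monTot L * L

theorem SameOff.pertE_le (h : SameOff p e e' D D') (A : (Fin N → Bool) → ℝ) (x : Obs p.L → ℝ)
    (hx : ∀ o, |x o| ≤ 2) :
    |pertE p A x e - pertE p A x e'| ≤
      inflC p.L * (numSlots D + numSlots D' + p.s ^ 2 * (numSlots D / p.S)) := by
  set C := 2 * tiltTot p.L * (numSlots D + numSlots D') + p.s ^ 2 * (8 * (numSlots D / p.S))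
  set v := 4 * p.s ^ 2 * (monTot p.L * p.L * (numSlots D / p.S))
  have hv : ∀ (e : Env p N) σ, ∑ f ∈ featsIn p D, coefF p x e f σ ^ 2 ≤ v := fun e σ =>
    (Finset.sum_le_sum fun f _ => sq_coefF p x hx e f σ).trans (by
      rw [← Finset.mul_sum]
      exact mul_le_mul_of_nonneg_left (sum_featsIn p D) (by positivity))
  have h1 : |elogZ (fun σ => A σ + detPart p x e σ) (coefF p x e) -
      elogZ (fun σ => A σ + detPart p x e σ) (coefF p x e')| ≤ v / 2 := by
    refine gauss_influence _ _ _ (featsIn p D) (fun f hf => ?_) (hv e) (hv e')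
    funext σ
    simp only [featsIn, Finset.mem_filter, Finset.mem_univ, true_and, not_exists] at hf
    simp only [coefF, featVal, psiAt]
    congr 1
    exact Finset.prod_congr rfl fun i _ => by rw [h.1 _ _ (hf i)]
  have h2 : |elogZ (fun σ => A σ + detPart p x e σ) (coefF p x e') -
      elogZ (fun σ => A σ + detPart p x e' σ) (coefF p x e')| ≤ C := by
    unfold elogZ
    rw [← integral_sub (integrable_logZ_lin _ _) (integrable_logZ_lin _ _)]
    refine abs_integral_le_integral_abs.trans ((integral_mono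
      ((integrable_logZ_lin _ _).sub (integrable_logZ_lin _ _)).abs (integrable_const C)
      fun z => ?_).trans_eq (by simp))
    have := abs_logZ_sub_le (fun σ => A σ + detPart p x e' σ + ∑ f, coefF p x e' f σ * z f)
      (fun σ => detPart p x e σ - detPart p x e' σ) (fun σ => h.det x hx σ)
    have e : (fun σ => A σ + detPart p x e σ + ∑ f, coefF p x e' f σ * z f) =
        fun σ => A σ + detPart p x e' σ + ∑ f, coefF p x e' f σ * z f +
          (detPart p x e σ - detPart p x e' σ) := funext fun σ => by ring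
    simp only [Pi.sub_apply]
    rw [e]
    exact this
  have hn := numSlots_nonneg D
  have hn' := numSlots_nonneg D'
  have hT := tiltTot_nonneg p.L
  have hM : 0 ≤ monTot p.L * p.L := mul_nonneg (monTot_nonneg _) (Nat.cast_nonneg _)
  have hq : 0 ≤ p.s ^ 2 * (numSlots D / p.S) := by positivity
  calc |pertE p A x e - pertE p A x e'| ≤ v / 2 + C :=
        (abs_sub_le _ _ _).trans (add_le_add h1 h2)
    _ ≤ _ := by
        simp only [v, C, inflC]
        nlinarith

variable (p) in
/-- The constant in the total bound. -/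
def totC (L : ℕ) : ℝ := tiltTot L + 4 * L + 2 * monTot L

theorem abs_pertE_sub (A : (Fin N → Bool) → ℝ) (x : Obs p.L → ℝ) (hx : ∀ o, |x o| ≤ 2)
    (e : Env p N) : |pertE p A x e - logZ A| ≤ totC p.L * (p.S + p.Q + p.s ^ 2) := by
  have hS := S_pos' p
  have hv : ∀ σ, ∑ f, coefF p x e f σ ^ 2 ≤ 4 * p.s ^ 2 * monTot p.L := fun σ =>
    (Finset.sum_le_sum fun f _ => sq_coefF p x hx e f σ).trans_eq (by
      rw [← Finset.mul_sum, Fintype.sum_sigma]
      simp only [sum_pow_feat]
      simp [monTot])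
  have hd : ∀ σ, |detPart p x e σ| ≤ tiltTot p.L * (p.S + p.Q) + p.s ^ 2 * (4 * p.L) := by
    intro σ
    refine (abs_add_le _ _).trans (add_le_add ?_ ?_)
    · unfold tiltPart tiltTot
      rw [Finset.sum_mul]
      refine (Finset.abs_sum_le_sum_abs _ _).trans (Finset.sum_le_sum fun g _ => ?_)
      refine (abs_add_le _ _).trans ?_
      rw [mul_add]
      refine add_le_add ((Finset.abs_sum_le_sum_abs _ _).trans ?_)
        ((Finset.abs_sum_le_sum_abs _ _).trans ?_)
      · refine (Finset.sum_le_sum fun u _ => abs_slotTilt _ _).trans_eq ?_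
        simp [mul_comm]
      · refine (Finset.sum_le_sum fun j _ => (?_ : _ ≤ tiltBd g)).trans_eq ?_
        · split_ifs
          · exact abs_slotTilt _ _
          · simpa using tiltBd_nonneg g
        · simp [mul_comm]
    · rw [abs_mul, abs_of_nonneg (sq_nonneg p.s)]
      refine mul_le_mul_of_nonneg_left ((Finset.abs_sum_le_sum_abs _ _).trans ?_) (sq_nonneg _)
      simp only [abs_mul]
      refine (Finset.sum_le_sum fun o _ => mul_le_mul_of_nonneg_right (hx _) (abs_nonneg _)).trans ?_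
      rw [← Finset.mul_sum, Fintype.sum_option]
      have hk : ∀ g : Fin p.L, |linObs p e (some g) σ| ≤ 1 := fun g => by
        show |kern p e g σ σ| ≤ 1
        rw [Limit.kern, abs_div, Nat.abs_cast, div_le_one hS]
        refine (Finset.abs_sum_le_sum_abs _ _).trans ((Finset.sum_le_sum fun u _ => ?_).trans_eq
          (by simp : (∑ _u : Fin p.S, (1 : ℝ)) = p.S))
        rw [abs_mul]
        exact mul_le_one₀ (abs_psiAt p _ _ _ _) (abs_nonneg _) (abs_psiAt p _ _ _ _)
      have h2 : ∑ g : Fin p.L, |linObs p e (some g) σ| ≤ p.L :=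
        (Finset.sum_le_sum fun g _ => hk g).trans_eq (by simp)
      have h3 : |linObs p e none σ| ≤ p.L := by
        show |magSlot p e σ| ≤ p.L
        refine (Finset.abs_sum_le_sum_abs _ _).trans
          ((Finset.sum_le_sum fun g _ => (?_ : _ ≤ (1 : ℝ))).trans_eq (by simp))
        split_ifs
        · rw [abs_div, Nat.abs_cast, div_le_one hS]
          exact ((Finset.abs_sum_le_sum_abs _ _).trans (Finset.sum_le_sum fun u _ =>
            abs_psiAt p _ _ _ _)).trans_eq (by simp)
        · simp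
      linarith
  have h1 := elogZ_lower (fun σ => A σ + detPart p x e σ) (coefF p x e)
  have h2 := elogZ_upper (fun σ => A σ + detPart p x e σ) (coefF p x e) hv
  have h3 := abs_logZ_sub_le A (fun σ => detPart p x e σ) hd
  have hS' : (0 : ℝ) ≤ p.S + p.Q := by positivity
  have := tiltTot_nonneg p.L
  have := monTot_nonneg p.L
  have hs := sq_nonneg p.s
  have hL : (0 : ℝ) ≤ p.L := Nat.cast_nonneg _
  rw [abs_le] at h3 ⊢
  simp only [totC, pertE]
  constructor <;> nlinarith

end Vale.Agent.P168.Limit.Cavity
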