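import Vale.Agent.P168.Limit.Toolkit

/-! Poisson families of clauses: superposition for functions of linear growth. -/

open MeasureTheory ProbabilityTheory Filter
open scoped BigOperators NNReal ENNReal Topology

noncomputable section

namespace Vale.Agent.P168.Limit.Cavity

open Toolkit

variable {X : Type*} [MeasurableSpace X]

/-- The mean of a family over Poisson many iid marks. -/
def epoi (μ : Measure X) (r : ℝ≥0) (F : (n : ℕ) → (Fin n → X) → ℝ) : ℝ :=
  ∫ n, ∫ c, F n c ∂(Measure.pi fun _ => μ) ∂poissonMeasure r

/-- A family which ignores labels and changes by at most `B` per added mark. -/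
structure ClauseFun (B : ℝ) (F : (n : ℕ) → (Fin n → X) → ℝ) : Prop where
  meas : ∀ n, Measurable (F n)
  inv : RelabelInv F
  lip : ∀ (k l : ℕ) (c : Fin k → X) (d : Fin l → X), |F (k + l) (Fin.append c d) - F k c| ≤ B * l

variable {B : ℝ} {F G : (n : ℕ) → (Fin n → X) → ℝ}

/-- The value on no marks. -/
def base0 (F : (n : ℕ) → (Fin n → X) → ℝ) : ℝ := F 0 Fin.elim0

theorem ClauseFun.bound (hF : ClauseFun B F) (n : ℕ) (c : Fin n → X) :
    |F n c| ≤ |base0 F| + B * n := by
  have h := hF.lip 0 n Fin.elim0 c
  have e : F (0 + n) (Fin.append Fin.elim0 c) = F n c := by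
    rw [Fin.elim0_append]
    exact hF.inv _ _ (finCongr (Nat.zero_add n)) c
  rw [e] at h
  have := abs_sub_abs_le_abs_sub (F n c) (F 0 Fin.elim0)
  unfold base0
  linarith

theorem measurable_append (k l : ℕ) :
    Measurable fun z : (Fin k → X) × (Fin l → X) => Fin.append z.1 z.2 := by
  refine measurable_pi_lambda _ fun i => ?_
  induction i using Fin.addCases with
  | left i => simp only [Fin.append_left]; fun_prop
  | right i => simp only [Fin.append_right]; fun_prop

theorem measurable_append_left {k l : ℕ} (d : Fin l → X) :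
    Measurable fun c : Fin k → X => Fin.append c d :=
  (measurable_append k l).comp (measurable_id.prodMk measurable_const)

theorem ClauseFun.append_bound (hF : ClauseFun B F) {k l : ℕ} (c : Fin k → X) (d : Fin l → X) :
    |F (k + l) (Fin.append c d)| ≤ |base0 F| + B * k + B * l := by
  have := hF.bound _ (Fin.append c d)
  push_cast at this
  linarith

theorem abs_integral_le_const {Y : Type*} [MeasurableSpace Y] {μ : Measure Y}
    [IsProbabilityMeasure μ] {f : Y → ℝ} {C : ℝ} (h : ∀ y, |f y| ≤ C) : |∫ y, f y ∂μ| ≤ C := by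
  have h2 := norm_integral_le_of_norm_le_const (μ := μ) (f := f) (C := C)
    (ae_of_all _ fun y => by rw [Real.norm_eq_abs]; exact h y)
  simpa using h2

theorem abs_integral_sub_le {Y : Type*} [MeasurableSpace Y] {μ : Measure Y}
    [IsProbabilityMeasure μ] {f g : Y → ℝ} (hf : Integrable f μ) (hg : Integrable g μ) {C : ℝ}
    (h : ∀ y, |f y - g y| ≤ C) : |(∫ y, f y ∂μ) - ∫ y, g y ∂μ| ≤ C := by
  rw [← integral_sub hf hg]
  exact abs_integral_le_const h

variable {μ α β : Measure X} [IsProbabilityMeasure μ] [IsProbabilityMeasure α]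
  [IsProbabilityMeasure β]

theorem ClauseFun.integrable (hF : ClauseFun B F) (n : ℕ) :
    Integrable (F n) (Measure.pi fun _ => μ) :=
  .of_bound (hF.meas n).aestronglyMeasurable _ (ae_of_all _ (hF.bound n))

theorem ClauseFun.integrable_count (hF : ClauseFun B F) (r : ℝ≥0) :
    Integrable (fun n => ∫ c, F n c ∂(Measure.pi fun _ => μ)) (poissonMeasure r) :=
  integrable_poisson_of_linear r fun n => abs_integral_le_const (hF.bound n)

/-- The mean over `k` marks `α` next to given marks `d`. -/
def shiftMean (α : Measure X) (F : (n : ℕ) → (Fin n → X) → ℝ) (k : ℕ) {l : ℕ}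
    (d : Fin l → X) : ℝ :=
  ∫ c, F (k + l) (Fin.append c d) ∂(Measure.pi fun _ => α)

theorem ClauseFun.abs_shiftMean (hF : ClauseFun B F) (k : ℕ) {l : ℕ} (d : Fin l → X) :
    |shiftMean α F k d| ≤ |base0 F| + B * k + B * l :=
  abs_integral_le_const fun c => hF.append_bound c d

theorem ClauseFun.measurable_shiftMean (hF : ClauseFun B F) (k l : ℕ) :
    Measurable fun d : Fin l → X => shiftMean α F k d :=
  ((((hF.meas _).comp (measurable_append k l)).comp measurable_swap).stronglyMeasurable
    |>.integral_prod_right').measurable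

theorem ClauseFun.integrable_shiftMean (hF : ClauseFun B F) {l : ℕ} (d : Fin l → X) (r : ℝ≥0) :
    Integrable (fun k => shiftMean α F k d) (poissonMeasure r) :=
  integrable_poisson_of_linear r (A := |base0 F| + B * l) (B := B) fun k => by
    have := hF.abs_shiftMean (α := α) k d
    linarith

theorem ClauseFun.integrable_shiftMean_prod (hF : ClauseFun B F) (l : ℕ) (r : ℝ≥0) :
    Integrable (fun z : ℕ × (Fin l → X) => shiftMean α F z.1 z.2)
      ((poissonMeasure r).prod (Measure.pi fun _ => β)) := by
  have hm : Measurable fun z : ℕ × (Fin l → X) => shiftMean α F z.1 z.2 :=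
    measurable_from_prod_countable_right fun k => hF.measurable_shiftMean k l
  have hi : Integrable (fun z : ℕ × (Fin l → X) => |base0 F| + B * l + B * (z.1 : ℝ))
      ((poissonMeasure r).prod (Measure.pi fun _ => β)) :=
    (integrable_const _).add (((Toolkit.integrable_count r).comp_fst _).const_mul B)
  refine hi.mono' hm.aestronglyMeasurable (ae_of_all _ fun z => ?_)
  have := hF.abs_shiftMean (α := α) z.1 z.2
  rw [Real.norm_eq_abs]
  linarith

/-- The number `R` truncation. -/
def clampF (R : ℕ) (F : (n : ℕ) → (Fin n → X) → ℝ) (n : ℕ) (c : Fin n → X) : ℝ :=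
  max (-(R : ℝ)) (min R (F n c))

theorem abs_clamp_le (R : ℕ) (x : ℝ) : |max (-(R : ℝ)) (min R x)| ≤ |x| := by
  rw [abs_le]
  have := abs_nonneg x
  have hR : (0 : ℝ) ≤ R := Nat.cast_nonneg R
  constructor
  · rcases le_total (R : ℝ) x with h | h
    · rw [min_eq_left h]; exact le_max_of_le_right (by linarith)
    · rw [min_eq_right h]; exact le_max_of_le_right (neg_abs_le x)
  · exact max_le (by linarith) ((min_le_right _ _).trans (le_abs_self x))

theorem tendsto_clamp (x : ℝ) : Tendsto (fun R : ℕ => max (-(R : ℝ)) (min R x)) atTop (𝓝 x) := by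
  refine tendsto_const_nhds.congr' ?_
  filter_upwards [eventually_ge_atTop ⌈|x|⌉₊] with R hR
  have h : |x| ≤ R := (Nat.le_ceil _).trans (by exact_mod_cast hR)
  rw [abs_le] at h
  rw [min_eq_right h.2, max_eq_right h.1]

/-- Superposition of Poisson families of marks. -/
theorem epoi_split (hF : ClauseFun B F) (a b : ℝ≥0) (hab : 0 < a + b)
    (hμ : ((a + b : ℝ≥0) : ℝ≥0∞) • μ = (a : ℝ≥0∞) • α + (b : ℝ≥0∞) • β) :
    epoi μ (a + b) F =
      ∫ l, ∫ d : Fin l → X, ∫ k, shiftMean α F k d ∂poissonMeasure a
        ∂(Measure.pi fun _ => β) ∂poissonMeasure b := by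
  set r := a + b with hr
  set p : ℝ≥0 := b / r with hp
  set q : ℝ≥0 := a / r with hq
  have hpq : p + q = 1 := by rw [hp, hq, ← add_div, add_comm, div_self hab.ne']
  have hrp : r * p = b := by rw [hp, mul_div_cancel₀ _ hab.ne']
  have hrq : r * q = a := by rw [hq, mul_div_cancel₀ _ hab.ne']
  have hmix : μ = (p : ℝ≥0∞) • β + (q : ℝ≥0∞) • α := by
    have h1 : ((r⁻¹ : ℝ≥0) : ℝ≥0∞) * (r : ℝ≥0∞) = 1 := by
      rw [← ENNReal.coe_mul, inv_mul_cancel₀ hab.ne', ENNReal.coe_one]
    calc μ = ((r⁻¹ : ℝ≥0) : ℝ≥0∞) • ((r : ℝ≥0∞) • μ) := by rw [smul_smul, h1, one_smul]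
      _ = _ := by
        rw [hμ, smul_add, smul_smul, smul_smul, ← ENNReal.coe_mul, ← ENNReal.coe_mul, add_comm,
          hp, hq, div_eq_inv_mul, div_eq_inv_mul]
  have hRF : ∀ R, RelabelInv (clampF R F) := fun R n m e c => by simp only [clampF, hF.inv n m e c]
  have hRm : ∀ R n, Measurable (clampF R F n) := fun R n =>
    measurable_const.max (measurable_const.min (hF.meas n))
  have hRb : ∀ (R : ℕ) n (c : Fin n → X), |clampF R F n c| ≤ (R : ℝ) := fun R n c =>
    abs_le.2 ⟨le_max_left _ _, max_le (by have := Nat.cast_nonneg (α := ℝ) R; linarith)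
      (min_le_left _ _)⟩
  have key : ∀ R, epoi μ r (clampF R F) =
      ∫ k, ∫ l, markMean β α (clampF R F) k l ∂poissonMeasure a ∂poissonMeasure b := by
    intro R
    have h := Toolkit.poisson_split β α r p q hpq (hRm R) (hRb R) (hRF R)
    rw [hrp, hrq] at h
    rwa [hmix]
  have l1 : Tendsto (fun R => epoi μ r (clampF R F)) atTop (𝓝 (epoi μ r F)) := by
    have hin : ∀ n, Tendsto (fun R => ∫ c, clampF R F n c ∂(Measure.pi fun _ => μ)) atTop
        (𝓝 (∫ c, F n c ∂(Measure.pi fun _ => μ))) := fun n =>
      tendsto_integral_of_dominated_convergence (fun _ => |base0 F| + B * n)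
        (fun R => (hRm R n).aestronglyMeasurable) (integrable_const _)
        (fun R => ae_of_all _ fun c => (abs_clamp_le R _).trans (hF.bound n c))
        (ae_of_all _ fun c => tendsto_clamp _)
    exact tendsto_integral_of_dominated_convergence (fun n => |base0 F| + B * n)
      (fun R => Measurable.of_discrete.aestronglyMeasurable)
      ((integrable_const _).add ((Toolkit.integrable_count r).const_mul B))
      (fun R => ae_of_all _ fun n => abs_integral_le_const fun c =>
        (abs_clamp_le R _).trans (hF.bound n c))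
      (ae_of_all _ hin)
  have hbd : ∀ (R : ℕ) k l (d : Fin k → X) (c : Fin l → X),
      |clampF R F (k + l) (Fin.append d c)| ≤ |base0 F| + B * k + B * l := fun R k l d c =>
    (abs_clamp_le R _).trans (hF.append_bound d c)
  have hmk : ∀ (R : ℕ) k l, |markMean β α (clampF R F) k l| ≤ |base0 F| + B * k + B * l :=
    fun R k l => abs_integral_le_const fun d => abs_integral_le_const fun c => hbd R k l d c
  have lin : ∀ k : ℕ, Integrable (fun l : ℕ => |base0 F| + B * k + B * (l : ℝ))
      (poissonMeasure a) := fun k =>
    (integrable_const _).add ((Toolkit.integrable_count a).const_mul B)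
  have hlk : ∀ (R : ℕ) k,
      |∫ l, markMean β α (clampF R F) k l ∂poissonMeasure a| ≤ |base0 F| + B * a + B * k := by
    intro R k
    refine (abs_integral_le_integral_abs.trans (integral_mono
      (integrable_poisson_of_linear a (A := |base0 F| + B * k) (B := B) fun l => hmk R k l).abs
      (lin k) (hmk R k))).trans_eq ?_
    rw [integral_add (integrable_const _) ((Toolkit.integrable_count a).const_mul B),
      integral_const_mul, Toolkit.integral_count]
    simp
    ring
  have l2 : Tendsto (fun R => ∫ k, ∫ l, markMean β α (clampF R F) k l ∂poissonMeasure a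
      ∂poissonMeasure b) atTop
      (𝓝 (∫ k, ∫ l, markMean β α F k l ∂poissonMeasure a ∂poissonMeasure b)) := by
    refine tendsto_integral_of_dominated_convergence (fun k => |base0 F| + B * a + B * k)
      (fun R => Measurable.of_discrete.aestronglyMeasurable)
      ((integrable_const _).add ((Toolkit.integrable_count b).const_mul B))
      (fun R => ae_of_all _ (hlk R)) (ae_of_all _ fun k => ?_)
    refine tendsto_integral_of_dominated_convergence (fun l => |base0 F| + B * k + B * (l : ℝ))
      (fun R => Measurable.of_discrete.aestronglyMeasurable) (lin k)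
      (fun R => ae_of_all _ (hmk R k)) (ae_of_all _ fun l => ?_)
    refine tendsto_integral_of_dominated_convergence (fun _ => |base0 F| + B * k + B * l)
      (fun R => (((hRm R _).comp (measurable_append k l)).stronglyMeasurable
        |>.integral_prod_right').aestronglyMeasurable) (integrable_const _)
      (fun R => ae_of_all _ fun d => abs_integral_le_const fun c => hbd R k l d c)
      (ae_of_all _ fun d => ?_)
    exact tendsto_integral_of_dominated_convergence (fun _ => |base0 F| + B * k + B * l)
      (fun R => ((hRm R _).comp ((measurable_append k l).comp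
        (measurable_const.prodMk measurable_id))).aestronglyMeasurable) (integrable_const _)
      (fun R => ae_of_all _ fun c => hbd R k l d c) (ae_of_all _ fun c => tendsto_clamp _)
  rw [tendsto_nhds_unique l1 (by simpa only [key] using l2)]
  refine integral_congr_ae (ae_of_all _ fun l => ?_)
  simp only
  rw [← integral_integral_swap (f := fun (k : ℕ) (d : Fin l → X) => shiftMean α F k d)
    (hF.integrable_shiftMean_prod l a)]
  refine integral_congr_ae (ae_of_all _ fun k => integral_congr_ae (ae_of_all _ fun d =>
    integral_congr_ae (ae_of_all _ fun c => ?_)))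
  simp only
  rw [← hF.inv (l + k) (k + l) finAddFlip]
  congr 1
  funext i
  induction i using Fin.addCases with
  | left i => simp [finAddFlip_apply_castAdd]
  | right i => simp [finAddFlip_apply_natAdd]

/-- Extra marks cost `B` each. -/
theorem epoi_extra (hF : ClauseFun B F) (a b : ℝ≥0) (hab : 0 < a + b)
    (hμ : ((a + b : ℝ≥0) : ℝ≥0∞) • μ = (a : ℝ≥0∞) • α + (b : ℝ≥0∞) • β) :
    |epoi μ (a + b) F - epoi α a F| ≤ B * b := by
  rw [epoi_split hF a b hab hμ]
  have hd : ∀ l (d : Fin l → X),
      |(∫ k, shiftMean α F k d ∂poissonMeasure a) - epoi α a F| ≤ B * l := fun l d =>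
    abs_integral_sub_le (hF.integrable_shiftMean d a) (hF.integrable_count a) fun k =>
      abs_integral_sub_le (.of_bound ((hF.meas _).comp (measurable_append_left d)).aestronglyMeasurable
        _ (ae_of_all _ fun c => hF.append_bound c d)) (hF.integrable k) fun c => hF.lip k l c d
  set e := epoi α a F
  have hl : ∀ l : ℕ, |(∫ d : Fin l → X, (∫ k, shiftMean α F k d ∂poissonMeasure a)
      ∂(Measure.pi fun _ => β)) - e| ≤ B * l := by
    intro l
    have hm : Measurable fun d : Fin l → X => ∫ k, shiftMean α F k d ∂poissonMeasure a :=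
      ((measurable_from_prod_countable_left (f := fun z : (Fin l → X) × ℕ =>
        shiftMean α F z.2 z.1) fun k => hF.measurable_shiftMean k l).stronglyMeasurable
        |>.integral_prod_right').measurable
    have hi : Integrable (fun d : Fin l → X => ∫ k, shiftMean α F k d ∂poissonMeasure a)
        (Measure.pi fun _ => β) := by
      refine .of_bound hm.aestronglyMeasurable (|e| + B * l) (ae_of_all _ fun d => ?_)
      rw [Real.norm_eq_abs]
      linarith [hd l d, abs_sub_abs_le_abs_sub (∫ k, shiftMean α F k d ∂poissonMeasure a) e]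
    simpa using abs_integral_sub_le hi (integrable_const e) (hd l)
  have hi : Integrable (fun l : ℕ => ∫ d : Fin l → X, (∫ k, shiftMean α F k d ∂poissonMeasure a)
      ∂(Measure.pi fun _ => β)) (poissonMeasure b) :=
    integrable_poisson_of_linear b (A := |e|) (B := B) fun l => by
      linarith [hl l, abs_sub_abs_le_abs_sub (∫ d : Fin l → X,
        (∫ k, shiftMean α F k d ∂poissonMeasure a) ∂(Measure.pi fun _ => β)) e]
  have he : e = ∫ _l : ℕ, e ∂poissonMeasure b := by simp
  rw [he, ← integral_sub hi (integrable_const _)]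
  refine abs_integral_le_integral_abs.trans ((integral_mono (hi.sub (integrable_const _)).abs
    ((Toolkit.integrable_count b).const_mul B) hl).trans_eq ?_)
  rw [integral_const_mul, Toolkit.integral_count]

omit [IsProbabilityMeasure α] [IsProbabilityMeasure β] in
/-- Uniformly close families have close means. -/
theorem epoi_near (hF : ClauseFun B F) (hG : ClauseFun B G) (r : ℝ≥0) {ε : ℝ}
    (h : ∀ n c, |F n c - G n c| ≤ ε) : |epoi μ r F - epoi μ r G| ≤ ε :=
  abs_integral_sub_le (hF.integrable_count r) (hG.integrable_count r) fun n =>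
    abs_integral_sub_le (hF.integrable n) (hG.integrable n) (h n)

end Vale.Agent.P168.Limit.Cavity
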