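import Vale.Agent.P168.Limit.CavityMix

/-! The cavity functional of the perturbed system as a difference of log partition functions. -/

open MeasureTheory ProbabilityTheory Filter
open scoped BigOperators NNReal ENNReal Topology

noncomputable section

namespace Vale.Agent.P168.Limit.Cavity

open Toolkit

variable {K N l : ℕ}

theorem log_gav_sum {X β : Type*} [Fintype X] [Inhabited X] [Fintype β] [Nonempty β] (H : X → ℝ)
    (u : X → β → ℝ) :
    Real.log (∑ a, gw H a * ∑ ε, Real.exp (u a ε)) =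
      logZ (fun q : X × β => H q.1 + u q.1 q.2) - logZ H := by
  have e : ∑ a, gw H a * ∑ ε, Real.exp (u a ε) =
      (∑ q : X × β, Real.exp (H q.1 + u q.1 q.2)) / ∑ a, Real.exp (H a) := by
    rw [Fintype.sum_prod_type, Finset.sum_div]
    refine Finset.sum_congr rfl fun a _ => ?_
    simp only [gw, Real.exp_add, ← Finset.mul_sum]
    rw [div_mul_eq_mul_div]
  rw [e, Real.log_div (Finset.sum_pos (fun q _ => Real.exp_pos _) Finset.univ_nonempty).ne'
    (sum_exp_pos H).ne']
  rfl

theorem logZ_snoc (G : (Fin (N + 1) → Bool) → ℝ) :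
    logZ G = logZ (fun q : (Fin N → Bool) × Bool => G (Fin.snoc q.1 q.2)) := by
  unfold logZ
  rw [← ((Equiv.prodComm _ _).trans (Fin.snocEquiv fun _ => Bool)).sum_comp fun σ =>
    Real.exp (G σ)]
  rfl

theorem logZ_fst (H₀ : (Fin N → Bool) → ℝ) :
    logZ (fun q : (Fin N → Bool) × Bool => H₀ q.1) = logZ H₀ + Real.log 2 := by
  have h := log_gav_sum (β := Bool) H₀ fun _ _ => 0
  simp only [Real.exp_zero, Finset.sum_const, Finset.card_univ, Fintype.card_bool, nsmul_eq_mul,
    mul_one, add_zero, ← Finset.sum_mul, sum_gw, one_mul, Nat.cast_ofNat] at h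
  linarith

theorem abs_logZ_new_site (H₀ : (Fin N → Bool) → ℝ) (D : (Fin (N + 1) → Bool) → ℝ) {C : ℝ}
    (hD : ∀ σ, |D σ| ≤ C) :
    |logZ (fun σ => H₀ (fun i => σ i.castSucc) + D σ) - logZ H₀| ≤ Real.log 2 + C := by
  rw [logZ_snoc]
  simp only [Fin.snoc_castSucc]
  have h := abs_logZ_sub_le (fun q : (Fin N → Bool) × Bool => H₀ q.1)
    (fun q => D (Fin.snoc q.1 q.2)) fun q => hD _
  rw [logZ_fst] at h
  have hl : 0 ≤ Real.log 2 := Real.log_nonneg one_le_two
  rw [abs_le] at h ⊢
  constructor <;> linarith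

theorem siteTerm_pm {n : ℕ} (c₁ : Fin n → Factor K × Fin K) (h₀ : ℝ) (a : Fin N → Bool)
    (sf : Fin n × Fin K → Fin N) :
    siteTerm c₁ h₀ (fun i => spin (a (sf i))) = ∑ ε : Bool, Real.exp (h₀ * spin ε) *
      ∏ k, factorWeight (c₁ k).1
        (fun j => if j = (c₁ k).2 then ε else a (sf (k, j))) := by
  unfold siteTerm
  refine Finset.sum_congr rfl fun ε _ => ?_
  congr 1
  refine Finset.prod_congr rfl fun k _ => ?_
  rw [Finset.sum_eq_single fun j => if j = (c₁ k).2 then ε else a (sf (k, j))]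
  · rw [if_pos (by simp), Finset.prod_eq_one, mul_one]
    intro j hj
    simp only
    rw [if_neg (Finset.ne_of_mem_erase hj)]
    cases h : a (sf (k, j)) <;> norm_num [spin]
  · intro σ _ hσ
    split_ifs with h
    · obtain ⟨j, hj⟩ := Function.ne_iff.1 hσ
      have hjl : j ≠ (c₁ k).2 := fun e => hj (by subst e; simpa using h)
      rw [if_neg hjl] at hj
      refine mul_eq_zero_of_right _ (Finset.prod_eq_zero
        (Finset.mem_erase.2 ⟨hjl, Finset.mem_univ j⟩) ?_)
      cases hs : σ j <;> cases ha : a (sf (k, j)) <;> simp_all [spin]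
    · rfl
  · simp

theorem edgeTerm_pm {n : ℕ} (c₁ : Fin n → Factor K) (a : Fin N → Bool)
    (sf : Fin n × Fin K → Fin N) :
    edgeTerm c₁ (fun i => spin (a (sf i))) =
      ∏ k, factorWeight (c₁ k) (fun j => a (sf (k, j))) := by
  unfold edgeTerm
  refine Finset.prod_congr rfl fun k _ => ?_
  rw [Finset.sum_eq_single fun j => a (sf (k, j))]
  · rw [Finset.prod_eq_one, mul_one]
    intro j _
    cases h : a (sf (k, j)) <;> norm_num [spin, h]
  · intro σ _ hσ
    obtain ⟨j, hj⟩ := Function.ne_iff.1 hσ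
    refine mul_eq_zero_of_right _ (Finset.prod_eq_zero (Finset.mem_univ j) ?_)
    cases hs : σ j <;> cases ha : a (sf (k, j)) <;> simp_all [spin]
  · simp

theorem exp_clauseE {B : ℝ} {θ : Factor K} {v : Fin K → Fin N} (σ : Fin N → Bool)
    (h : ∀ σ, 0 < factorWeight θ σ ∧ |theta θ σ| ≤ B) :
    Real.exp (clauseE B (θ, v) σ) = factorWeight θ fun j => σ (v j) := by
  rw [clauseE, clipR_eq (h _).2, theta, Real.exp_log (h _).1]

theorem prod_exp_clauseE {B : ℝ} {n : ℕ} (m : Fin n → Mark K N) (σ : Fin N → Bool)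
    (h : ∀ k σ, 0 < factorWeight (m k).1 σ ∧ |theta (m k).1 σ| ≤ B) :
    ∏ k, factorWeight (m k).1 (fun j => σ ((m k).2 j)) =
      Real.exp (∑ k, clauseE B (m k) σ) := by
  rw [Real.exp_sum]
  exact Finset.prod_congr rfl fun k _ => (exp_clauseE σ (h k)).symm

theorem IsBoundedModel.good_ae {P : Measure (Factor K)} {Q : Measure ℝ} {c H : ℝ}
    (hM : IsBoundedModel P Q c H) :
    ∀ᵐ θ ∂P, ∀ σ : Fin K → Bool, 0 < factorWeight θ σ ∧ |theta θ σ| ≤ clauseBd c := by
  filter_upwards [IsBoundedModel.weight_ae hM, IsBoundedModel.theta_ae hM] with θ h1 h2 σ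
  exact ⟨by linarith [(h1 σ).1, hM.c_lt], h2 σ⟩

theorem sites_law (N l : ℕ) [NeZero N] :
    MeasurePreserving (fun (s : ℕ → Fin N) (k : Fin l) (j : Fin K) => s (msgSite (k, j)))
      (Measure.infinitePi fun _ : ℕ => unifFin (Fin N))
      (Measure.pi fun _ => unifFin (Fin K → Fin N)) := by
  have := prob_unifFin (α := Fin N)
  have := prob_unifFin (α := Fin K → Fin N)
  have hinj : Function.Injective (msgSite : Fin l × Fin K → ℕ) :=
    Fin.val_injective.comp finProdFinEquiv.injective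
  have h1 := measurePreserving_marginal (unifFin (Fin N)) (msgSite : Fin l × Fin K → ℕ) hinj
  have h2 : MeasurePreserving (fun (t : Fin l × Fin K → Fin N) (k : Fin l) (j : Fin K) => t (k, j))
      (Measure.pi fun _ => unifFin (Fin N)) (Measure.pi fun _ => unifFin (Fin K → Fin N)) := by
    refine ⟨Measurable.of_discrete, Measure.ext_of_singleton fun v => ?_⟩
    have e : (fun (t : Fin l × Fin K → Fin N) (k : Fin l) (j : Fin K) => t (k, j)) ⁻¹' {v} =
        {fun q => v q.1 q.2} := by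
      ext t
      simp [funext_iff, Prod.forall]
    rw [Measure.map_apply Measurable.of_discrete (measurableSet_singleton v), e,
      Measure.pi_singleton, Measure.pi_singleton]
    simp only [← Finset.coe_singleton, unif_apply, ← ENNReal.coe_finset_prod]
    simp [← pow_mul, mul_comm]
  exact h2.comp h1

variable (p : Params) (B H : ℝ) (x : Obs p.L → ℝ)

/-- The gain of a new site with clauses `q.1.1`, `q.1.2` and old disorder `q.2`. -/
def siteGain (q : ((Fin l → Mark K (N + 1)) × ℝ) × Dis K p N) : ℝ :=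
  logZ (fun σ => ham B H (Fin.append (fun i : Fin q.2.1.1.1 => liftMark (q.2.1.1.2 i)) q.1.1)
      (Fin.snoc q.2.1.2 q.1.2) σ + pertH p x (mapEnv p Fin.castSucc q.2.2.1) q.2.2.2 σ) -
    logZ (fun a => ham B H (fun i : Fin q.2.1.1.1 => q.2.1.1.2 i) q.2.1.2 a +
      pertH p x q.2.2.1 q.2.2.2 a)

/-- The gain of further clauses `q.1` with old disorder `q.2`. -/
def edgeGain (q : (Fin l → Mark K N) × Dis K p N) : ℝ :=
  logZ (fun a => ham B H (Fin.append (fun i : Fin q.2.1.1.1 => q.2.1.1.2 i) q.1) q.2.1.2 a +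
      pertH p x q.2.2.1 q.2.2.2 a) -
    logZ (fun a => ham B H (fun i : Fin q.2.1.1.1 => q.2.1.1.2 i) q.2.1.2 a +
      pertH p x q.2.2.1 q.2.2.2 a)

theorem ham_snoc {k : ℕ} (c₀ : Fin k → Mark K N) (dm : Fin l → Mark K (N + 1)) (h : Fin N → ℝ)
    (h₀ : ℝ) (σ : Fin (N + 1) → Bool) :
    ham B H (Fin.append (fun i => liftMark (c₀ i)) dm) (Fin.snoc h h₀) σ =
      ham B H c₀ h (fun i => σ i.castSucc) +
        ((∑ i, clauseE B (dm i) σ) + clipR H h₀ * spin (σ (Fin.last N))) := by
  rw [ham_append]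
  simp only [ham, fieldE, Fin.sum_univ_castSucc, Fin.snoc_castSucc, Fin.snoc_last, clauseE,
    liftMark]
  ring

theorem measurable_logZ_pert {M : ℕ} {Z : Type*} [MeasurableSpace Z] {n : ℕ}
    {cl : Z → Fin n → Mark K M} {h : Z → Fin M → ℝ} {J : Z → Feat p.L p.S → ℝ}
    (hc : Measurable cl) (hh : Measurable h) (hJ : Measurable J) (e : Env p M) :
    Measurable fun z => logZ (fun σ => ham B H (cl z) (h z) σ + pertH p x e (J z) σ) := by
  have h1 : ∀ σ : Fin M → Bool,
      Measurable fun z => Real.exp (ham B H (cl z) (h z) σ + pertH p x e (J z) σ) := by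
    intro σ
    refine Measurable.exp (Measurable.add
      ((measurable_ham B H n σ).comp (f := fun z => (cl z, h z)) (hc.prodMk hh)) ?_)
    simp only [pertH_eq]
    fun_prop
  simp only [logZ]
  exact Measurable.log (Finset.measurable_sum _ fun σ _ => h1 σ)

theorem measurable_snoc {Z : Type*} [MeasurableSpace Z] {h : Z → Fin N → ℝ} {h₀ : Z → ℝ}
    (hh : Measurable h) (hh₀ : Measurable h₀) :
    Measurable fun z => (Fin.snoc (h z) (h₀ z) : Fin (N + 1) → ℝ) := by
  refine measurable_pi_lambda _ fun i => ?_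
  induction i using Fin.lastCases with
  | last => simpa only [Fin.snoc_last] using hh₀
  | cast j => simp only [Fin.snoc_castSucc]; fun_prop

theorem pertH_map {M : ℕ} (φ : Fin N → Fin M) (e : Env p N) (J : Feat p.L p.S → ℝ)
    (σ : Fin M → Bool) :
    pertH p x (mapEnv p φ e) J σ = pertH p x e J (fun i => σ (φ i)) := by
  have h1 : ∀ o, linObs p (mapEnv p φ e) o σ = linObs p e o (fun i => σ (φ i)) := by
    intro o; cases o <;> rfl
  have h2 : ∀ a, gaussObs p (mapEnv p φ e) J a σ = gaussObs p e J a (fun i => σ (φ i)) :=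
    fun a => rfl
  have h3 : tiltPart p (mapEnv p φ e) σ = tiltPart p e (fun i => σ (φ i)) := rfl
  simp only [pertH, h1, h2, h3]

/-- Measurability by cases on the number of clauses and the environment. -/
theorem measurable_dis {Z : Type*} [MeasurableSpace Z] {G : Z × Dis K p N → ℝ}
    (hG : ∀ (k : ℕ) (e : Env p N),
      Measurable fun z : Z × (((ℕ → Mark K N) × (Fin N → ℝ)) × (Feat p.L p.S → ℝ)) =>
        G (z.1, (((k, z.2.1.1), z.2.1.2), (e, z.2.2)))) : Measurable G := by
  have h1 : Measurable fun w : (ℕ × Env p N) ×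
      (Z × (((ℕ → Mark K N) × (Fin N → ℝ)) × (Feat p.L p.S → ℝ))) =>
        G (w.2.1, (((w.1.1, w.2.2.1.1), w.2.2.1.2), (w.1.2, w.2.2.2))) :=
    measurable_from_prod_countable_right fun ke => hG ke.1 ke.2
  exact h1.comp (f := fun q : Z × Dis K p N =>
    ((q.2.1.1.1, q.2.2.1), (q.1, ((q.2.1.1.2, q.2.1.2), q.2.2.2)))) (by fun_prop)

theorem measurable_siteGain : Measurable (siteGain (K := K) (N := N) (l := l) p B H x) := by
  refine measurable_dis p fun k e => Measurable.sub ?_ ?_
  · have hc : Measurable fun z : ((Fin l → Mark K (N + 1)) × ℝ) ×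
        (((ℕ → Mark K N) × (Fin N → ℝ)) × (Feat p.L p.S → ℝ)) =>
          ((fun i : Fin k => liftMark (z.2.1.1 i)), z.1.1) :=
      (measurable_pi_lambda _ fun i => measurable_liftMark.comp (by fun_prop)).prodMk (by fun_prop)
    have hh : Measurable fun z : ((Fin l → Mark K (N + 1)) × ℝ) ×
        (((ℕ → Mark K N) × (Fin N → ℝ)) × (Feat p.L p.S → ℝ)) =>
          (Fin.snoc z.2.1.2 z.1.2 : Fin (N + 1) → ℝ) :=
      measurable_snoc (by fun_prop) (by fun_prop)
    exact measurable_logZ_pert p B H x ((measurable_append k l).comp hc) hh (by fun_prop)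
      (mapEnv p Fin.castSucc e)
  · refine measurable_logZ_pert p B H x (measurable_pi_lambda _ fun i => ?_)
      (by fun_prop) (by fun_prop) e
    exact (measurable_pi_apply (i : ℕ)).comp
      (measurable_fst.comp (measurable_fst.comp measurable_snd))

theorem measurable_edgeGain : Measurable (edgeGain (K := K) (N := N) (l := l) p B H x) := by
  refine measurable_dis p fun k e => Measurable.sub ?_ ?_
  · have hc : Measurable fun z : (Fin l → Mark K N) ×
        (((ℕ → Mark K N) × (Fin N → ℝ)) × (Feat p.L p.S → ℝ)) =>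
          ((fun i : Fin k => z.2.1.1 i), z.1) := by fun_prop
    exact measurable_logZ_pert p B H x ((measurable_append k l).comp hc)
      (by fun_prop) (by fun_prop) e
  · refine measurable_logZ_pert p B H x (measurable_pi_lambda _ fun i => ?_)
      (by fun_prop) (by fun_prop) e
    exact (measurable_pi_apply (i : ℕ)).comp
      (measurable_fst.comp (measurable_fst.comp measurable_snd))

variable {p B H x}

theorem abs_gain_site (hB : 0 ≤ B) (hH : 0 ≤ H) {k : ℕ} (c₀ : Fin k → Mark K N)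
    (dm : Fin l → Mark K (N + 1)) (h : Fin N → ℝ) (h₀ : ℝ) (e : Env p N)
    (J : Feat p.L p.S → ℝ) :
    |logZ (fun σ => ham B H (Fin.append (fun i => liftMark (c₀ i)) dm) (Fin.snoc h h₀) σ +
        pertH p x (mapEnv p Fin.castSucc e) J σ) -
      logZ (fun a => ham B H c₀ h a + pertH p x e J a)| ≤ Real.log 2 + (B * l + H) := by
  set H₀ := fun a => ham B H c₀ h a + pertH p x e J a with hH₀
  set D := fun σ : Fin (N + 1) → Bool =>
    (∑ i, clauseE B (dm i) σ) + clipR H h₀ * spin (σ (Fin.last N)) with hD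
  have e1 : (fun σ => ham B H (Fin.append (fun i => liftMark (c₀ i)) dm) (Fin.snoc h h₀) σ +
      pertH p x (mapEnv p Fin.castSucc e) J σ) =
      fun σ => H₀ (fun i => σ i.castSucc) + D σ := by
    funext σ
    simp only [hH₀, hD]
    rw [ham_snoc, pertH_map]
    ring
  rw [e1]
  refine abs_logZ_new_site H₀ D fun σ => (abs_add_le _ _).trans
    (add_le_add (abs_clauses_le hB dm σ) ?_)
  rw [abs_mul, abs_spin, mul_one]
  exact abs_clipR hH _

theorem abs_siteGain (hB : 0 ≤ B) (hH : 0 ≤ H)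
    (q : ((Fin l → Mark K (N + 1)) × ℝ) × Dis K p N) :
    |siteGain p B H x q| ≤ Real.log 2 + (B * l + H) :=
  abs_gain_site hB hH (fun i : Fin q.2.1.1.1 => q.2.1.1.2 i) q.1.1 q.2.1.2 q.1.2 q.2.2.1 q.2.2.2

theorem abs_edgeGain (hB : 0 ≤ B) (q : (Fin l → Mark K N) × Dis K p N) :
    |edgeGain p B H x q| ≤ B * l := by
  obtain ⟨dm, d⟩ := q
  have e : (fun a => ham B H (Fin.append (fun i : Fin d.1.1.1 => d.1.1.2 i) dm) d.1.2 a +
      pertH p x d.2.1 d.2.2 a) =
      fun a => (ham B H (fun i : Fin d.1.1.1 => d.1.1.2 i) d.1.2 a + pertH p x d.2.1 d.2.2 a) +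
        ∑ i, clauseE B (dm i) a := by
    funext a
    rw [ham_append]
    ring
  simp only [edgeGain, e]
  exact abs_logZ_sub_le _ _ fun a => abs_clauses_le hB dm a

/-- The log of the cavity weight of a new site. -/
theorem siteGain_eq {d : Dis K p N} {c₁ : Fin l → Factor K × Fin K} {h₀ : ℝ}
    (hd : (∀ k σ, |theta (d.1.1.2 k).1 σ| ≤ B) ∧ ∀ i, |d.1.2 i| ≤ H)
    (hc : ∀ k σ, 0 < factorWeight (c₁ k).1 σ ∧ |theta (c₁ k).1 σ| ≤ B) (hh : |h₀| ≤ H)
    (s : Fin l → Fin K → Fin N) :
    Real.log (∑ a, gw (totalH p x d) a * siteTerm c₁ h₀ (fun i => spin (a (s i.1 i.2)))) =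
      siteGain p B H x ((fun k => hitMark (c₁ k, s k), h₀), d) := by
  set dm : Fin l → Mark K (N + 1) := fun k => hitMark (c₁ k, s k) with hdm
  have hT : totalH p x d = fun a =>
      ham B H (fun i : Fin d.1.1.1 => d.1.1.2 i) d.1.2 a + pertH p x d.2.1 d.2.2 a := by
    funext a
    simp only [totalH]
    rw [hamiltonian_eq_ham (B := B) (fun k σ => hd.1 _ σ) hd.2]
  have hu : ∀ a : Fin N → Bool, siteTerm c₁ h₀ (fun i => spin (a (s i.1 i.2))) =
      ∑ ε : Bool, Real.exp ((∑ k, clauseE B (dm k) (Fin.snoc a ε)) + clipR H h₀ * spin ε) := by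
    intro a
    rw [siteTerm_pm c₁ h₀ a fun i => s i.1 i.2]
    refine Finset.sum_congr rfl fun ε _ => ?_
    rw [Real.exp_add, clipR_eq hh, mul_comm, ← prod_exp_clauseE dm _ fun k σ => hc k σ]
    congr 1
    refine Finset.prod_congr rfl fun k _ => congrArg _ (funext fun j => ?_)
    simp only [hdm, hitMark, hitTuple]
    by_cases hj : j = (c₁ k).2
    · subst hj; simp
    · simp [hj, Function.update_of_ne hj]
  simp only [hu]
  rw [log_gav_sum, hT]
  simp only [siteGain]
  congr 1
  rw [logZ_snoc fun σ => ham B H (Fin.append (fun i : Fin d.1.1.1 => liftMark (d.1.1.2 i)) dm)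
    (Fin.snoc d.1.2 h₀) σ + pertH p x (mapEnv p Fin.castSucc d.2.1) d.2.2 σ]
  refine congrArg logZ (funext fun q => ?_)
  have hpert : pertH p x (mapEnv p Fin.castSucc d.2.1) d.2.2 (Fin.snoc q.1 q.2) =
      pertH p x d.2.1 d.2.2 q.1 := by
    rw [pertH_map]
    simp only [Fin.snoc_castSucc]
  rw [hpert, ham_snoc]
  simp only [Fin.snoc_castSucc, Fin.snoc_last]
  ring

/-- The log of the cavity weight of further clauses. -/
theorem edgeGain_eq {d : Dis K p N} {c₁ : Fin l → Factor K}
    (hd : (∀ k σ, |theta (d.1.1.2 k).1 σ| ≤ B) ∧ ∀ i, |d.1.2 i| ≤ H)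
    (hc : ∀ k σ, 0 < factorWeight (c₁ k) σ ∧ |theta (c₁ k) σ| ≤ B)
    (s : Fin l → Fin K → Fin N) :
    Real.log (∑ a, gw (totalH p x d) a * edgeTerm c₁ (fun i => spin (a (s i.1 i.2)))) =
      edgeGain p B H x ((fun k => (c₁ k, s k)), d) := by
  set dm : Fin l → Mark K N := fun k => (c₁ k, s k) with hdm
  have hT : totalH p x d = fun a =>
      ham B H (fun i : Fin d.1.1.1 => d.1.1.2 i) d.1.2 a + pertH p x d.2.1 d.2.2 a := by
    funext a
    simp only [totalH]
    rw [hamiltonian_eq_ham (B := B) (fun k σ => hd.1 _ σ) hd.2]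
  have hu : ∀ a : Fin N → Bool, edgeTerm c₁ (fun i => spin (a (s i.1 i.2))) =
      Real.exp (∑ k, clauseE B (dm k) a) := by
    intro a
    rw [edgeTerm_pm c₁ a fun i => s i.1 i.2, ← prod_exp_clauseE dm _ fun k σ => hc k σ]
  simp only [hu]
  have hg : ∑ a, gw (totalH p x d) a * Real.exp (∑ k, clauseE B (dm k) a) =
      gav (totalH p x d) fun a => Real.exp (∑ k, clauseE B (dm k) a) := rfl
  rw [hg, ← logZ_tilt, hT]
  simp only [edgeGain]
  congr 1
  refine congrArg logZ (funext fun a => ?_)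
  rw [ham_append]
  ring

end Vale.Agent.P168.Limit.Cavity
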