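import Vale.Agent.P168.Limit.Slot

/-! Disorder averages of replica averages of the perturbed system. -/

open MeasureTheory ProbabilityTheory Filter
open scoped BigOperators NNReal ENNReal

noncomputable section

namespace Vale.Agent.P168.Limit

variable {K N : ℕ} (p : Params) (P : Measure (Factor K)) (Q : Measure ℝ) (μ : ℝ≥0)

/-- The disorder average of a replica average, with a further fixed tilt. -/
def eav (x : Obs p.L → ℝ) (n : ℕ) (τ : (Fin N → Bool) → ℝ)
    (A : Env p N → (ℕ → Fin N → Bool) → ℝ) : ℝ :=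
  ∫ d, nav n (fun σ => totalH p x d σ + τ σ) (A d.2.1) ∂disLaw p N P Q μ

theorem measurable_navDis (x : Obs p.L → ℝ) (n : ℕ) (τ : (Fin N → Bool) → ℝ)
    (A : Env p N → (ℕ → Fin N → Bool) → ℝ) :
    Measurable fun d : Dis K p N => nav n (fun σ => totalH p x d σ + τ σ) (A d.2.1) := by
  unfold nav rav gw
  refine Finset.measurable_sum _ fun σ _ => (Finset.measurable_prod _ fun l _ =>
    (Real.measurable_exp.comp ((measurable_totalH p x _).add_const _)).div
      (Finset.measurable_sum _ fun τ' _ =>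
        Real.measurable_exp.comp ((measurable_totalH p x τ').add_const _))).mul ?_
  exact Measurable.comp (g := fun e : Env p N =>
    A e fun l => if h : l < n then σ ⟨l, h⟩ else default) (f := fun d : Dis K p N => d.2.1)
    (measurable_of_finite _) (measurable_fst.comp measurable_snd)

variable [NeZero N] [IsProbabilityMeasure P] [IsProbabilityMeasure Q]
variable (x : Obs p.L → ℝ) (n : ℕ) (τ : (Fin N → Bool) → ℝ)

theorem integrable_navDis (A : Env p N → (ℕ → Fin N → Bool) → ℝ) :
    Integrable (fun d : Dis K p N => nav n (fun σ => totalH p x d σ + τ σ) (A d.2.1))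
      (disLaw p N P Q μ) := by
  refine Integrable.of_bound (measurable_navDis p x n τ A).aestronglyMeasurable
    (∑ e : Env p N, ∑ σ : Fin n → Fin N → Bool,
      |A e fun l => if h : l < n then σ ⟨l, h⟩ else default|) (ae_of_all _ fun d => ?_)
  rw [Real.norm_eq_abs, nav, rav]
  refine (Finset.abs_sum_le_sum_abs _ _).trans (le_trans ?_ (Finset.single_le_sum
    (f := fun e => ∑ σ : Fin n → Fin N → Bool, |A e fun l => if h : l < n then σ ⟨l, h⟩ else default|)
    (fun e _ => Finset.sum_nonneg fun σ _ => abs_nonneg _) (Finset.mem_univ d.2.1)))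
  refine Finset.sum_le_sum fun σ _ => ?_
  rw [abs_mul, Finset.abs_prod]
  exact mul_le_of_le_one_left (abs_nonneg _) (Finset.prod_le_one (fun l _ => abs_nonneg _)
    fun l _ => by rw [abs_of_nonneg (gw_nonneg _ _)]; exact gw_le_one _ _)

theorem abs_eav_le {A : Env p N → (ℕ → Fin N → Bool) → ℝ} {B : ℝ} (h : ∀ e σ, |A e σ| ≤ B) :
    |eav p P Q μ x n τ A| ≤ B :=
  (Real.norm_eq_abs _).ge.trans ((norm_integral_le_of_norm_le_const
    (μ := disLaw p N P Q μ) (ae_of_all _ fun d : Dis K p N =>
      (Real.norm_eq_abs (nav n (fun σ => totalH p x d σ + τ σ) (A d.2.1))).trans_le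
        (abs_nav_le _ _ (h d.2.1)))).trans (by simp))

omit [NeZero N] [IsProbabilityMeasure P] [IsProbabilityMeasure Q] in
theorem eav_congr {A B : Env p N → (ℕ → Fin N → Bool) → ℝ} (h : ∀ e σ, A e σ = B e σ) :
    eav p P Q μ x n τ A = eav p P Q μ x n τ B := by
  rw [show A = B from funext fun e => funext (h e)]

theorem eav_const_mul (c : ℝ) (A : Env p N → (ℕ → Fin N → Bool) → ℝ) :
    eav p P Q μ x n τ (fun e σ => c * A e σ) = c * eav p P Q μ x n τ A := by
  simp only [eav, nav_const_mul, integral_const_mul]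

theorem eav_sum {γ : Type*} (s : Finset γ) (A : γ → Env p N → (ℕ → Fin N → Bool) → ℝ) :
    eav p P Q μ x n τ (fun e σ => ∑ i ∈ s, A i e σ) = ∑ i ∈ s, eav p P Q μ x n τ (A i) := by
  simp only [eav, nav_sum]
  exact integral_finsetSum _ fun i _ => integrable_navDis p P Q μ x n τ (A i)

theorem eav_sub (A B : Env p N → (ℕ → Fin N → Bool) → ℝ) :
    eav p P Q μ x n τ (fun e σ => A e σ - B e σ)
      = eav p P Q μ x n τ A - eav p P Q μ x n τ B := by
  simp only [eav]
  rw [← integral_sub (integrable_navDis p P Q μ x n τ A) (integrable_navDis p P Q μ x n τ B)]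
  refine integral_congr_ae (ae_of_all _ fun d => ?_)
  dsimp only
  rw [eq_sub_iff_add_eq, ← nav_add]
  exact nav_congr _ fun σ => by ring

theorem eav_avg {γ : Type*} [Fintype γ] (A : γ → Env p N → (ℕ → Fin N → Bool) → ℝ) :
    eav p P Q μ x n τ (fun e σ => avg fun i => A i e σ) = avg fun i => eav p P Q μ x n τ (A i) := by
  have e1 : eav p P Q μ x n τ (fun e σ => avg fun i => A i e σ)
      = eav p P Q μ x n τ (fun e σ => (Fintype.card γ : ℝ)⁻¹ * ∑ i, A i e σ) :=
    eav_congr p P Q μ x n τ fun e σ => by rw [avg, div_eq_inv_mul]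
  rw [e1, eav_const_mul, eav_sum, avg, div_eq_inv_mul]

/-- The disorder average as nested averages. -/
theorem eav_eq (A : Env p N → (ℕ → Fin N → Bool) → ℝ) :
    eav p P Q μ x n τ A = ∫ b, avg (fun e : Env p N =>
      ∫ J, nav n (fun σ => totalH p x (b, e, J) σ + τ σ) (A e) ∂Toolkit.gaussPi (Feat p.L p.S))
        ∂baseLaw N P Q μ := by
  have h := integrable_navDis p P Q μ x n τ A
  rw [eav]
  unfold disLaw at h ⊢
  have : IsProbabilityMeasure (unifFin (Env p N)) := States.isProb_unifFin
  rw [integral_prod _ h]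
  refine integral_congr_ae ?_
  filter_upwards [h.prod_right_ae] with b hb
  rw [integral_prod _ hb, integral_unifFin]

omit [NeZero N] in
theorem measurable_avg_e (f : Base K N → Env p N → ℝ) (hf : ∀ e, Measurable fun b => f b e) :
    Measurable fun b => avg (f b) :=
  (Finset.measurable_sum _ fun e _ => hf e).div_const _

theorem measurable_integral_J (A : (ℕ → Fin N → Bool) → ℝ) (e : Env p N) :
    Measurable fun b : Base K N =>
      ∫ J, nav n (fun σ => totalH p x (b, e, J) σ + τ σ) A ∂Toolkit.gaussPi (Feat p.L p.S) := by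
  have h2 : StronglyMeasurable fun q : Base K N × (Feat p.L p.S → ℝ) =>
      nav n (fun σ => totalH p x (q.1, e, q.2) σ + τ σ) A :=
    (Measurable.comp
      (g := fun d : Dis K p N => nav n (fun σ => totalH p x d σ + τ σ) A)
      (f := fun q : Base K N × (Feat p.L p.S → ℝ) => (q.1, e, q.2))
      (measurable_navDis p x n τ fun _ => A)
      (measurable_fst.prodMk (measurable_const.prodMk measurable_snd))).stronglyMeasurable
  exact h2.integral_prod_right'.measurable

/-- The slot identity averaged over all disorder. -/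
theorem slot_identity {X : ℝ} (hx : ∀ o, |x o| ≤ X) (g : Fin p.L) (u : Fin p.S)
    (F : ((g : Fin p.L) → Fin p.S → Fin (arity g) → Fin N) → (ℕ → Fin N → Bool) → ℝ)
    (Φ : (Fin (arity g) → Fin N) → (ℕ → Fin N → Bool) → ℝ) {η : ℝ}
    (hF1 : ∀ s σ, |F s σ| ≤ 1) (hΦ1 : ∀ v σ, |Φ v σ| ≤ 1)
    (hFη : ∀ (e : Env p N) v σ, |F e.1 σ - F (upd p g u e v).1 σ| ≤ η) :
    |eav p P Q μ x n (fun _ => 0) (fun e σ => F e.1 σ * Φ (e.1 g u) σ) -
      avg (fun v : Fin (arity g) → Fin N =>
        eav p P Q μ x n (tv p g v) (fun e σ => F e.1 σ * Φ v σ))| ≤ slotErr p n X η := by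
  set γ := Toolkit.gaussPi (Feat p.L p.S)
  set U : Base K N → ℝ := fun b => avg (fun e : Env p N =>
    ∫ J, nav n (totalH p x (b, e, J)) (fun σ => F e.1 σ * Φ (e.1 g u) σ) ∂γ)
  set V : Base K N → ℝ := fun b => avg (fun e : Env p N => avg fun v : Fin (arity g) → Fin N =>
    ∫ J, nav n (fun σ => totalH p x (b, e, J) σ + tv p g v σ) (fun σ => F e.1 σ * Φ v σ) ∂γ)
  have hFΦ : ∀ (e : Env p N) v σ, |F e.1 σ * Φ v σ| ≤ 1 := fun e v σ => by
    rw [abs_mul]; exact mul_le_one₀ (hF1 _ _) (abs_nonneg _) (hΦ1 v σ)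
  have hle : ∀ (H : (Feat p.L p.S → ℝ) → (Fin N → Bool) → ℝ) (A : (ℕ → Fin N → Bool) → ℝ),
      (∀ σ, |A σ| ≤ 1) → |∫ J, nav n (H J) A ∂γ| ≤ 1 := fun H A hA =>
    (Real.norm_eq_abs _).ge.trans ((norm_integral_le_of_norm_le_const (ae_of_all _ fun J =>
      (Real.norm_eq_abs _).trans_le (abs_nav_le _ _ hA))).trans (by simp))
  have hUm : Measurable U := measurable_avg_e p _ fun e => by
    simpa only [add_zero] using measurable_integral_J p x n (fun _ => 0)
      (fun σ => F e.1 σ * Φ (e.1 g u) σ) e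
  have hVm : Measurable V := measurable_avg_e p _ fun e =>
    (Finset.measurable_sum _ fun v _ => measurable_integral_J p x n (tv p g v)
      (fun σ => F e.1 σ * Φ v σ) e).div_const _
  have hUb : ∀ b, |U b| ≤ 1 := fun b => abs_avg_le fun e => hle _ _ fun σ => hFΦ e _ σ
  have hVb : ∀ b, |V b| ≤ 1 := fun b => abs_avg_le fun e => abs_avg_le fun v =>
    hle _ _ fun σ => hFΦ e v σ
  have iU : Integrable U (baseLaw N P Q μ) := Integrable.of_bound hUm.aestronglyMeasurable 1
    (ae_of_all _ fun b => (Real.norm_eq_abs _).trans_le (hUb b))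
  have iV : Integrable V (baseLaw N P Q μ) := Integrable.of_bound hVm.aestronglyMeasurable 1
    (ae_of_all _ fun b => (Real.norm_eq_abs _).trans_le (hVb b))
  have eU : eav p P Q μ x n (fun _ => 0) (fun e σ => F e.1 σ * Φ (e.1 g u) σ)
      = ∫ b, U b ∂baseLaw N P Q μ := by
    rw [eav_eq]
    simp only [add_zero, U, γ]
  have eV : avg (fun v : Fin (arity g) → Fin N =>
        eav p P Q μ x n (tv p g v) (fun e σ => F e.1 σ * Φ v σ))
      = ∫ b, V b ∂baseLaw N P Q μ := by
    simp only [eav_eq, V]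
    conv_rhs => enter [2, b]; rw [avg_comm]
    simp only [avg]
    rw [integral_div, integral_finsetSum]
    intro v _
    refine Integrable.of_bound ((Finset.measurable_sum _ fun e _ => measurable_integral_J p x n
      (tv p g v) (fun σ => F e.1 σ * Φ v σ) e).div_const _).aestronglyMeasurable 1
      (ae_of_all _ fun b => (Real.norm_eq_abs _).trans_le
        (abs_avg_le fun e => hle _ _ fun σ => hFΦ e v σ))
  rw [eU, eV, ← integral_sub iU iV]
  refine (Real.norm_eq_abs _).ge.trans ((norm_integral_le_of_norm_le_const (ae_of_all _ fun b =>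
    (Real.norm_eq_abs _).trans_le (slot_identity_base p x hx b g u n F Φ hF1 hΦ1 hFη))).trans ?_)
  simp

end Vale.Agent.P168.Limit
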