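import Vale.Agent.P168.Limit.Assembly
import Vale.Agent.P168.Limit.Cavity

/-! Module 5: perturbed system, cavity computation and limit array. -/

namespace Vale.Agent.P168.Limit

/-- Module 5. -/
theorem limit_stmt : Vale.Agent.P168.LimitStmt := limit_stmt_of cavity_stmt

end Vale.Agent.P168.Limit
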