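import Vale.Agent.P168.Limit.SysArray
import Vale.Agent.P168.Limit.Toolkit

/-!
The slot identity: one slot in a Gibbs average may be replaced by a fresh tuple of sites together
with its tilt.
-/

open MeasureTheory ProbabilityTheory Filter
open scoped BigOperators NNReal ENNReal

noncomputable section

namespace Vale.Agent.P168.Limit

section Gauss

variable {X ι : Type*} [Fintype X] [Nonempty X] [Fintype ι]

/-- The error of a small random tilt with variance `V` and shift at most `C`. -/
def tiltErr (V C : ℝ) : ℝ := √(Real.exp (2 * C + 2 * V) - 2 * Real.exp (-C) + 1)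

theorem tiltErr_nonneg (V C : ℝ) : 0 ≤ tiltErr V C := Real.sqrt_nonneg _

theorem integral_abs_exp_sub_one_le (c : ι → ℝ) {V C d : ℝ} (hV : ∑ i, c i ^ 2 ≤ V)
    (hd : |d| ≤ C) :
    ∫ z, |Real.exp ((∑ i, c i * z i) + d) - 1| ∂Toolkit.gaussPi ι ≤ tiltErr V C := by
  set f : (ι → ℝ) → ℝ := fun z => |Real.exp ((∑ i, c i * z i) + d) - 1|
  set m := ∫ z, f z ∂Toolkit.gaussPi ι
  have e1 : ∀ z : ι → ℝ, Real.exp ((∑ i, c i * z i) + d)
      = Real.exp d * Real.exp (∑ i, c i * z i) := fun z => by rw [Real.exp_add, mul_comm]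
  have e2 : ∀ z : ι → ℝ, f z ^ 2 = Real.exp d ^ 2 * Real.exp (∑ i, 2 * c i * z i)
      - 2 * Real.exp d * Real.exp (∑ i, c i * z i) + 1 := fun z => by
    simp only [f, sq_abs, e1]
    rw [show ∑ i, 2 * c i * z i = (∑ i, c i * z i) + ∑ i, c i * z i by
      rw [← Finset.sum_add_distrib]
      exact Finset.sum_congr rfl fun i _ => by ring, Real.exp_add]
    ring
  have i1 : Integrable (fun z : ι → ℝ => Real.exp (∑ i, c i * z i)) (Toolkit.gaussPi ι) :=
    Toolkit.integrable_exp_linear c
  have i2 : Integrable (fun z : ι → ℝ => Real.exp (∑ i, 2 * c i * z i)) (Toolkit.gaussPi ι) :=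
    Toolkit.integrable_exp_linear fun i => 2 * c i
  have hf2 : Integrable (fun z => f z ^ 2) (Toolkit.gaussPi ι) := by
    simp only [e2]
    exact ((i2.const_mul _).sub (i1.const_mul _)).add (integrable_const 1)
  have hf : Integrable f (Toolkit.gaussPi ι) := by
    have : Integrable (fun z : ι → ℝ => Real.exp d * Real.exp (∑ i, c i * z i) - 1)
        (Toolkit.gaussPi ι) := (i1.const_mul _).sub (integrable_const 1)
    simpa only [f, e1] using this.abs
  have h2 : ∫ z, f z ^ 2 ∂Toolkit.gaussPi ι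
      = Real.exp (2 * d + 2 * ∑ i, c i ^ 2) - 2 * Real.exp (d + (∑ i, c i ^ 2) / 2) + 1 := by
    simp only [e2]
    have i3 : Integrable (fun z : ι → ℝ => Real.exp d ^ 2 * Real.exp (∑ i, 2 * c i * z i)
        - 2 * Real.exp d * Real.exp (∑ i, c i * z i)) (Toolkit.gaussPi ι) :=
      (i2.const_mul _).sub (i1.const_mul _)
    rw [integral_add i3 (integrable_const 1),
      integral_sub (i2.const_mul _) (i1.const_mul _), integral_const_mul, integral_const_mul]
    simp only [Toolkit.integral_exp_linear]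
    simp only [integral_const, probReal_univ, one_smul, mul_pow, ← Finset.mul_sum]
    rw [mul_assoc 2, ← Real.exp_add, sq, ← Real.exp_add, ← Real.exp_add]
    ring_nf
  have h3 : ∫ z, (f z - m) ^ 2 ∂Toolkit.gaussPi ι
      = (∫ z, f z ^ 2 ∂Toolkit.gaussPi ι) - m ^ 2 := by
    have e3 : (fun z => (f z - m) ^ 2) = fun z => f z ^ 2 - 2 * m * f z + m ^ 2 :=
      funext fun z => by ring
    have i4 : Integrable (fun z => f z ^ 2 - 2 * m * f z) (Toolkit.gaussPi ι) :=
      hf2.sub (hf.const_mul _)
    rw [e3, integral_add i4 (integrable_const _),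
      integral_sub hf2 (hf.const_mul _), integral_const_mul]
    simp only [integral_const, probReal_univ, one_smul]
    ring
  have h4 : 0 ≤ ∫ z, (f z - m) ^ 2 ∂Toolkit.gaussPi ι := integral_nonneg fun z => sq_nonneg _
  refine Real.le_sqrt_of_sq_le ?_
  have hv : (0 : ℝ) ≤ ∑ i, c i ^ 2 := Finset.sum_nonneg fun i _ => sq_nonneg _
  have hd' := abs_le.1 hd
  have h5 : Real.exp (2 * d + 2 * ∑ i, c i ^ 2) ≤ Real.exp (2 * C + 2 * V) :=
    Real.exp_le_exp.2 (by linarith)
  have h6 : Real.exp (-C) ≤ Real.exp (d + (∑ i, c i ^ 2) / 2) := Real.exp_le_exp.2 (by linarith)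
  linarith

/-- A tilt by Gaussian coordinates that the base Hamiltonian does not read. -/
theorem integral_gav_tilt_le (T : ι → Prop) [DecidablePred T] (B : (ι → ℝ) → X → ℝ)
    (hBm : ∀ x, Measurable fun z => B z x)
    (hB : ∀ z z', (∀ i, ¬T i → z i = z' i) → B z = B z')
    (c : X → ι → ℝ) (hc : ∀ x i, ¬T i → c x i = 0) (d : X → ℝ) {V C : ℝ}
    (hV : ∀ x, ∑ i, c x i ^ 2 ≤ V) (hd : ∀ x, |d x| ≤ C) :
    ∫ z, gav (B z) (fun x => |Real.exp ((∑ i, c x i * z i) + d x) - 1|) ∂Toolkit.gaussPi ι
      ≤ tiltErr V C := by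
  set e := MeasurableEquiv.piEquivPiSubtypeProd (fun _ : ι => ℝ) T
  have he : MeasurePreserving e (Toolkit.gaussPi ι) ((Toolkit.gaussPi {i // T i}).prod
      (Toolkit.gaussPi {i // ¬T i})) :=
    measurePreserving_piEquivPiSubtypeProd (fun _ : ι => Toolkit.gauss) T
  set h : X → (ι → ℝ) → ℝ := fun x z => |Real.exp ((∑ i, c x i * z i) + d x) - 1|
  set w : X → (ι → ℝ) → ℝ := fun x z => gw (B z) x
  set fill : ({i // T i} → ℝ) → ι → ℝ := fun a i => if hi : T i then a ⟨i, hi⟩ else 0
  set fill' : ({i // ¬T i} → ℝ) → ι → ℝ := fun a i => if hi : ¬T i then a ⟨i, hi⟩ else 0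
  have hh : ∀ x z, h x z = h x (fill (e z).1) := fun x z => by
    have : ∑ i, c x i * z i = ∑ i, c x i * fill (e z).1 i :=
      Finset.sum_congr rfl fun i _ => by
        by_cases hi : T i
        · simp [fill, e, hi, Equiv.piEquivPiSubtypeProd, MeasurableEquiv.piEquivPiSubtypeProd]
        · simp [hc x i hi]
    simp only [h, this]
  have hw : ∀ x z, w x z = w x (fill' (e z).2) := fun x z => by
    simp only [w]
    rw [hB z (fill' (e z).2) fun i hi => by
      simp [fill', e, hi, Equiv.piEquivPiSubtypeProd, MeasurableEquiv.piEquivPiSubtypeProd]]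
  have hfill : Measurable fill := measurable_pi_lambda _ fun i => by
    simp only [fill]
    split_ifs <;> fun_prop
  have hfill' : Measurable fill' := measurable_pi_lambda _ fun i => by
    simp only [fill']
    split_ifs <;> fun_prop
  have hwm : ∀ x, Measurable (w x) := fun x => by
    simp only [w, gw]
    exact (Real.measurable_exp.comp (hBm x)).div
      (Finset.measurable_sum _ fun y _ => Real.measurable_exp.comp (hBm y))
  have hhm : ∀ x, Measurable (h x) := fun x => by simp only [h]; fun_prop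
  have key : ∀ x, ∫ z, w x z * h x z ∂Toolkit.gaussPi ι
      = (∫ z, w x z ∂Toolkit.gaussPi ι) * ∫ z, h x z ∂Toolkit.gaussPi ι := by
    intro x
    have hw2 : ∫ z, w x z ∂Toolkit.gaussPi ι
        = ∫ a, w x (fill' a) ∂Toolkit.gaussPi {i // ¬T i} := by
      conv_lhs => rw [funext (hw x)]
      rw [he.integral_comp e.measurableEmbedding (fun q => w x (fill' q.2)),
        integral_fun_snd fun a => w x (fill' a), probReal_univ, one_smul]
    have hh2 : ∫ z, h x z ∂Toolkit.gaussPi ι
        = ∫ a, h x (fill a) ∂Toolkit.gaussPi {i // T i} := by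
      conv_lhs => rw [funext (hh x)]
      rw [he.integral_comp e.measurableEmbedding (fun q => h x (fill q.1)),
        integral_fun_fst fun a => h x (fill a), probReal_univ, one_smul]
    rw [hw2, hh2, mul_comm, ← integral_prod_mul]
    have e3 : (fun z => w x z * h x z)
        = fun z => (fun q : ({i // T i} → ℝ) × ({i // ¬T i} → ℝ) =>
            h x (fill q.1) * w x (fill' q.2)) (e z) :=
      funext fun z => by rw [hw x z, hh x z]; ring
    rw [e3]
    exact he.integral_comp e.measurableEmbedding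
      (fun q : ({i // T i} → ℝ) × ({i // ¬T i} → ℝ) => h x (fill q.1) * w x (fill' q.2))
  have hint : ∀ x, Integrable (fun z => w x z * h x z) (Toolkit.gaussPi ι) := fun x => by
    have i1 : Integrable (fun z : ι → ℝ => Real.exp (d x) * Real.exp (∑ i, c x i * z i) + 1)
        (Toolkit.gaussPi ι) :=
      ((Toolkit.integrable_exp_linear (c x)).const_mul _).add (integrable_const 1)
    refine i1.mono' ((hwm x).mul (hhm x)).aestronglyMeasurable (ae_of_all _ fun z => ?_)
    simp only [Pi.mul_apply, Real.norm_eq_abs, abs_mul, w, h, abs_abs, abs_of_nonneg (gw_nonneg _ _)]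
    refine (mul_le_of_le_one_left (abs_nonneg _) (gw_le_one _ _)).trans ?_
    rw [Real.exp_add, mul_comm (Real.exp (d x))]
    refine (abs_sub _ _).trans ?_
    rw [abs_of_pos (by positivity), abs_one]
  have hwi : ∀ x, Integrable (w x) (Toolkit.gaussPi ι) := fun x =>
    Integrable.of_bound (hwm x).aestronglyMeasurable 1
      (ae_of_all _ fun z => by simp [w, abs_of_nonneg (gw_nonneg _ _), gw_le_one])
  calc _ = ∑ x, ∫ z, w x z * h x z ∂Toolkit.gaussPi ι := by
        simp only [gav, w, h]
        exact integral_finsetSum _ fun x _ => hint x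
    _ ≤ ∑ x, (∫ z, w x z ∂Toolkit.gaussPi ι) * tiltErr V C := by
        refine Finset.sum_le_sum fun x _ => ?_
        rw [key x]
        exact mul_le_mul_of_nonneg_left (integral_abs_exp_sub_one_le (c x) (hV x) (hd x))
          (integral_nonneg fun z => gw_nonneg _ _)
    _ = tiltErr V C := by
        rw [← Finset.sum_mul, ← integral_finsetSum _ fun x _ => hwi x]
        simp [w, sum_gw]

end Gauss

theorem avg_fst {α β : Type*} [Fintype α] [Fintype β] [Nonempty β] (f : α → ℝ) :
    avg (fun q : α × β => f q.1) = avg f :=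
  (avg_prod _).trans (avg_congr fun a => avg_const (f a))

theorem avg_snd {α β : Type*} [Fintype α] [Fintype β] [Nonempty α] (f : β → ℝ) :
    avg (fun q : α × β => f q.2) = avg f :=
  (avg_prod _).trans (avg_const (avg f))

variable {K N : ℕ} (p : Params)

/-- The tilt of a slot of type `g` at given sites. -/
def tv (g : Fin p.L) (v : Fin (arity g) → Fin N) (σ : Fin N → Bool) : ℝ :=
  slotTilt g fun i => σ (v i)

/-- The environment with slot `u` of type `g` moved to `v`. -/
def upd (g : Fin p.L) (u : Fin p.S) (e : Env p N) (v : Fin (arity g) → Fin N) : Env p N :=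
  (Function.update e.1 g (Function.update (e.1 g) u v), e.2)

theorem upd_upd (g : Fin p.L) (u : Fin p.S) (e : Env p N) (v v' : Fin (arity g) → Fin N) :
    upd p g u (upd p g u e v) v' = upd p g u e v' := by
  simp [upd]

theorem upd_self (g : Fin p.L) (u : Fin p.S) (e : Env p N) : upd p g u e (e.1 g u) = e := by
  simp [upd]

theorem upd_apply_self (g : Fin p.L) (u : Fin p.S) (e : Env p N) (v : Fin (arity g) → Fin N) :
    (upd p g u e v).1 g u = v := by simp [upd]

theorem upd_apply_ne (g : Fin p.L) (u : Fin p.S) (e : Env p N) (v : Fin (arity g) → Fin N)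
    {g' : Fin p.L} {u' : Fin p.S} (h : (g', u') ≠ (g, u)) :
    (upd p g u e v).1 g' u' = e.1 g' u' := by
  by_cases hg : g' = g
  · subst hg
    have hu : u' ≠ u := fun hu => h (by rw [hu])
    simp [upd, hu]
  · simp [upd, hg]

/-- The feature reads slot `u` of type `g`. -/
def Touch (g : Fin p.L) (u : Fin p.S) (f : Feat p.L p.S) : Prop :=
  ∃ i : Fin f.1.1.val, (f.1.2 i, f.2 i) = (g, u)

instance (g : Fin p.L) (u : Fin p.S) : DecidablePred (Touch p g u) := fun f => by
  unfold Touch; infer_instance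

/-- The Gaussian coordinates that do not belong to slot `u` of type `g`. -/
def mask (g : Fin p.L) (u : Fin p.S) (J : Feat p.L p.S → ℝ) : Feat p.L p.S → ℝ :=
  fun f => if Touch p g u f then 0 else J f

variable [NeZero N]

/-- The Hamiltonian without slot `u` of type `g`. -/
def remH (x : Obs p.L → ℝ) (b : Base K N) (g : Fin p.L) (u : Fin p.S) (e : Env p N)
    (J : Feat p.L p.S → ℝ) (σ : Fin N → Bool) : ℝ :=
  totalH p x (b, upd p g u e (fun _ => 0), mask p g u J) σ - tv p g (fun _ => 0) σ

theorem featVal_upd (g : Fin p.L) (u : Fin p.S) (e : Env p N) (v : Fin (arity g) → Fin N)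
    {f : Feat p.L p.S} (hf : ¬Touch p g u f) (σ : Fin N → Bool) :
    featVal p (upd p g u e v) f σ = featVal p e f σ := by
  refine Finset.prod_congr rfl fun i _ => ?_
  simp only [psiAt, upd_apply_ne p g u e v fun h => hf ⟨i, h⟩]

theorem tiltPart_upd (g : Fin p.L) (u : Fin p.S) (e : Env p N) (v : Fin (arity g) → Fin N)
    (σ : Fin N → Bool) :
    tiltPart p (upd p g u e v) σ = tiltPart p e σ + (tv p g v σ - tv p g (e.1 g u) σ) := by
  simp only [tiltPart]
  rw [← Finset.add_sum_erase _ _ (Finset.mem_univ g),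
    ← Finset.add_sum_erase (Finset.univ : Finset (Fin p.L)) _ (Finset.mem_univ g)]
  have h1 : ∀ g' ∈ Finset.univ.erase g, ∀ u', (upd p g u e v).1 g' u' = e.1 g' u' :=
    fun g' hg' u' => upd_apply_ne p g u e v fun h => Finset.ne_of_mem_erase hg' (congrArg Prod.fst h)
  have h2 : (∑ u', slotTilt g fun i => σ ((upd p g u e v).1 g u' i))
      = (∑ u', slotTilt g fun i => σ (e.1 g u' i)) + (tv p g v σ - tv p g (e.1 g u) σ) := by
    rw [← Finset.add_sum_erase _ _ (Finset.mem_univ u),
      ← Finset.add_sum_erase (Finset.univ : Finset (Fin p.S)) _ (Finset.mem_univ u)]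
    have : ∀ u' ∈ Finset.univ.erase u, (slotTilt g fun i => σ ((upd p g u e v).1 g u' i))
        = slotTilt g fun i => σ (e.1 g u' i) := fun u' hu' => by
      rw [upd_apply_ne p g u e v fun h => Finset.ne_of_mem_erase hu' (congrArg Prod.snd h)]
    rw [Finset.sum_congr rfl this, upd_apply_self]
    simp only [tv]
    ring
  have h3 : ∀ g' ∈ Finset.univ.erase g,
      ((∑ u', slotTilt g' fun i => σ ((upd p g u e v).1 g' u' i)) +
        ∑ j : Fin p.Q, if j.val < ((upd p g u e v).2.2 g').val then
          slotTilt g' (fun i => σ ((upd p g u e v).2.1 g' j i)) else 0)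
      = (∑ u', slotTilt g' fun i => σ (e.1 g' u' i)) +
        ∑ j : Fin p.Q, if j.val < (e.2.2 g').val then
          slotTilt g' (fun i => σ (e.2.1 g' j i)) else 0 := fun g' hg' => by
    simp only [h1 g' hg']
    rfl
  have h4 : (∑ j : Fin p.Q, if j.val < ((upd p g u e v).2.2 g).val then
        slotTilt g (fun i => σ ((upd p g u e v).2.1 g j i)) else 0)
      = ∑ j : Fin p.Q, if j.val < (e.2.2 g).val then
        slotTilt g (fun i => σ (e.2.1 g j i)) else 0 := rfl
  rw [h2, h4, Finset.sum_congr rfl h3]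
  ring

/-- The bound on the variance of the fields of one slot. -/
def slotVar (p : Params) (X : ℝ) : ℝ :=
  p.s ^ 2 * X ^ 2 * ((Fintype.card (Mono p.L) : ℝ) * p.L) / p.S

/-- The bound on the linear fields of one slot. -/
def slotShift (p : Params) (X : ℝ) : ℝ :=
  p.s ^ 2 * X * (2 * (Fintype.card (Option (Fin p.L)) : ℝ)) / p.S

/-- The field of slot `u` of type `g` as Gaussian coefficients. -/
def slotCoef (x : Obs p.L → ℝ) (g : Fin p.L) (u : Fin p.S) (e : Env p N) (σ : Fin N → Bool)
    (f : Feat p.L p.S) : ℝ :=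
  if Touch p g u f then p.s * x (Sum.inl f.1) * featVal p e f σ else 0

/-- The change of the linear fields. -/
def slotLin (x : Obs p.L → ℝ) (g : Fin p.L) (u : Fin p.S) (e : Env p N) (σ : Fin N → Bool) : ℝ :=
  p.s ^ 2 * ∑ o, x (Sum.inr o) *
    (linObs p e o σ - linObs p (upd p g u e fun _ => 0) o σ)

theorem totalH_split (x : Obs p.L → ℝ) (b : Base K N) (g : Fin p.L) (u : Fin p.S) (e : Env p N)
    (J : Feat p.L p.S → ℝ) (σ : Fin N → Bool) :
    totalH p x (b, e, J) σ = (remH p x b g u e J σ + tv p g (e.1 g u) σ) +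
      ((∑ f, slotCoef p x g u e σ f * J f) + slotLin p x g u e σ) := by
  have h : ∀ a : Mono p.L, gaussObs p e J a σ
      = gaussObs p (upd p g u e fun _ => 0) (mask p g u J) a σ +
        ∑ v : Fin a.1.val → Fin p.S,
          if Touch p g u ⟨a, v⟩ then J ⟨a, v⟩ * featVal p e ⟨a, v⟩ σ else 0 := by
    intro a
    simp only [gaussObs, ← Finset.sum_add_distrib]
    refine Finset.sum_congr rfl fun v _ => ?_
    by_cases hT : Touch p g u ⟨a, v⟩
    · simp [mask, hT]
    · simp [mask, hT, featVal_upd p g u e (fun _ => 0) hT]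
  have h2 : ∑ f, slotCoef p x g u e σ f * J f = p.s * ∑ a : Mono p.L, x (Sum.inl a) *
      ∑ v : Fin a.1.val → Fin p.S,
        if Touch p g u ⟨a, v⟩ then J ⟨a, v⟩ * featVal p e ⟨a, v⟩ σ else 0 := by
    rw [Finset.mul_sum, Fintype.sum_sigma]
    refine Finset.sum_congr rfl fun a _ => ?_
    rw [← mul_assoc, Finset.mul_sum]
    refine Finset.sum_congr rfl fun v _ => ?_
    simp only [slotCoef]
    split_ifs <;> ring
  rw [h2]
  simp only [remH, totalH, pertH, tiltPart_upd, h, mul_add, Finset.sum_add_distrib, slotLin,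
    mul_sub, Finset.sum_sub_distrib]
  ring

omit [NeZero N] in
theorem sum_slotCoef_sq (x : Obs p.L → ℝ) {X : ℝ} (hx : ∀ o, |x o| ≤ X) (g : Fin p.L)
    (u : Fin p.S) (e : Env p N) (σ : Fin N → Bool) :
    ∑ f, slotCoef p x g u e σ f ^ 2 ≤ slotVar p X := by
  have hS : (0 : ℝ) < p.S := by exact_mod_cast p.S_pos
  have hf : ∀ f : Feat p.L p.S, featVal p e f σ ^ 2 ≤ ((p.S : ℝ)⁻¹) ^ f.1.1.val := fun f => by
    rw [featVal, ← Finset.prod_pow]
    calc _ ≤ ∏ _i : Fin f.1.1.val, (p.S : ℝ)⁻¹ := by
          refine Finset.prod_le_prod (fun i _ => sq_nonneg _) fun i _ => ?_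
          rw [div_pow, Real.sq_sqrt hS.le, ← one_div]
          gcongr
          exact (sq_le_one_iff_abs_le_one _).2 (abs_psiAt_le p e _ _ σ)
      _ = _ := by simp
  have hd : ∀ (a : Mono p.L), ∑ v : Fin a.1.val → Fin p.S, slotCoef p x g u e σ ⟨a, v⟩ ^ 2
      ≤ p.s ^ 2 * X ^ 2 * ((p.L : ℝ) / p.S) := by
    intro a
    have h1 : ∀ v : Fin a.1.val → Fin p.S, slotCoef p x g u e σ ⟨a, v⟩ ^ 2
        ≤ p.s ^ 2 * X ^ 2 * ((p.S : ℝ)⁻¹) ^ a.1.val * ∑ i, if v i = u then (1 : ℝ) else 0 := by
      intro v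
      simp only [slotCoef]
      split_ifs with hT
      · obtain ⟨i, hi⟩ := hT
        have hx2 : x (Sum.inl a) ^ 2 ≤ X ^ 2 := by
          rw [← sq_abs]
          exact pow_le_pow_left₀ (abs_nonneg _) (hx _) 2
        have h3 : (1 : ℝ) ≤ ∑ j, if v j = u then (1 : ℝ) else 0 := by
          refine le_trans ?_ (Finset.single_le_sum (fun j _ => ?_) (Finset.mem_univ i))
          · rw [if_pos (Prod.mk.inj hi).2]
          · split_ifs <;> norm_num
        rw [mul_pow, mul_pow]
        refine le_trans ?_ (le_mul_of_one_le_right (by positivity) h3)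
        exact mul_le_mul (mul_le_mul_of_nonneg_left hx2 (sq_nonneg _)) (hf ⟨a, v⟩)
          (sq_nonneg _) (by positivity)
      · have : (0 : ℝ) ≤ ∑ j, if v j = u then (1 : ℝ) else 0 :=
          Finset.sum_nonneg fun j _ => by split_ifs <;> norm_num
        rw [zero_pow two_ne_zero]
        positivity
    have h2 : ∀ i : Fin a.1.val, (∑ v : Fin a.1.val → Fin p.S, if v i = u then (1 : ℝ) else 0)
        = (p.S : ℝ) ^ a.1.val / p.S := by
      intro i
      have : Nonempty (Fin p.S) := ⟨u⟩
      have h := avg_equiv (Equiv.funSplitAt i (Fin p.S))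
        (fun q : Fin p.S × ({j // j ≠ i} → Fin p.S) => if q.1 = u then (1 : ℝ) else 0)
      rw [avg_fst fun y : Fin p.S => if y = u then (1 : ℝ) else 0] at h
      simp only [Equiv.funSplitAt, Equiv.piSplitAt_apply, avg, Finset.sum_ite_eq', Finset.mem_univ,
        if_true, Fintype.card_fin, Fintype.card_fun] at h
      push_cast at h
      field_simp at h ⊢
      linarith
    refine (Finset.sum_le_sum fun v _ => h1 v).trans ?_
    rw [← Finset.mul_sum, Finset.sum_comm, Finset.sum_congr rfl fun i _ => h2 i, Finset.sum_const,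
      Finset.card_univ, Fintype.card_fin, nsmul_eq_mul, inv_pow, mul_assoc]
    refine mul_le_mul_of_nonneg_left ?_ (by positivity)
    have : (a.1.val : ℝ) ≤ p.L := by exact_mod_cast Nat.lt_succ_iff.1 a.1.isLt
    field_simp
    linarith
  calc _ = ∑ a : Mono p.L, ∑ v : Fin a.1.val → Fin p.S, slotCoef p x g u e σ ⟨a, v⟩ ^ 2 :=
        Fintype.sum_sigma _
    _ ≤ ∑ _a : Mono p.L, p.s ^ 2 * X ^ 2 * ((p.L : ℝ) / p.S) := Finset.sum_le_sum fun a _ => hd a
    _ = _ := by
        rw [Finset.sum_const, Finset.card_univ, nsmul_eq_mul, slotVar]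
        ring

omit [NeZero N] in
theorem abs_sum_update_le {G : Fin p.S → ℝ} {G' : Fin p.S → ℝ} (u : Fin p.S) (hG : ∀ i, |G i| ≤ 1)
    (hG' : ∀ i, |G' i| ≤ 1) (h : ∀ i, i ≠ u → G i = G' i) :
    |(∑ i, G i) / (p.S : ℝ) - (∑ i, G' i) / (p.S : ℝ)| ≤ 2 / p.S := by
  rw [← sub_div, abs_div, Nat.abs_cast]
  gcongr
  rw [← Finset.sum_sub_distrib,
    Finset.sum_eq_single u (fun i _ hi => by rw [h i hi, sub_self]) (by simp)]
  exact (abs_sub _ _).trans (by linarith [hG u, hG' u])

theorem abs_slotLin_le (x : Obs p.L → ℝ) {X : ℝ} (hx : ∀ o, |x o| ≤ X) (g : Fin p.L)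
    (u : Fin p.S) (e : Env p N) (σ : Fin N → Bool) :
    |slotLin p x g u e σ| ≤ slotShift p X := by
  set e' := upd p g u e fun _ => 0
  have hpsi : ∀ g' u', (g', u') ≠ (g, u) → psiAt p e' g' u' σ = psiAt p e g' u' σ :=
    fun g' u' h => by simp only [psiAt, e', upd_apply_ne p g u e _ h]
  have hk : ∀ g', |kern p e g' σ σ - kern p e' g' σ σ| ≤ 2 / p.S := fun g' => by
    refine abs_sum_update_le p u (fun i => ?_) (fun i => ?_) fun i hi => ?_
    · rw [abs_mul]
      exact mul_le_one₀ (abs_psiAt_le p e g' i σ) (abs_nonneg _) (abs_psiAt_le p e g' i σ)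
    · rw [abs_mul]
      exact mul_le_one₀ (abs_psiAt_le p e' g' i σ) (abs_nonneg _) (abs_psiAt_le p e' g' i σ)
    · rw [hpsi g' i fun h => hi (congrArg Prod.snd h)]
  have hm : |magSlot p e σ - magSlot p e' σ| ≤ 2 / p.S := by
    have hL : 0 < p.L := g.pos
    have h0 : ∀ e'' : Env p N, magSlot p e'' σ
        = (∑ i, psiAt p e'' ⟨0, hL⟩ i σ) / (p.S : ℝ) := fun e'' => by
      rw [magSlot, Finset.sum_eq_single ⟨0, hL⟩ (fun g _ hg => if_neg fun h => hg (Fin.ext h))
        fun h => absurd (Finset.mem_univ _) h, if_pos rfl]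
    rw [h0, h0]
    exact abs_sum_update_le p u (fun i => abs_psiAt_le p e _ i σ)
      (fun i => abs_psiAt_le p e' _ i σ)
      fun i hi => (hpsi _ i fun h => hi (congrArg Prod.snd h)).symm
  have ho : ∀ o, |x (Sum.inr o) * (linObs p e o σ - linObs p e' o σ)| ≤ X * (2 / p.S) := fun o => by
    rw [abs_mul]
    refine mul_le_mul (hx _) ?_ (abs_nonneg _) ((abs_nonneg _).trans (hx (Sum.inr o)))
    cases o with
    | none => exact hm
    | some g' => exact hk g'
  rw [slotLin, abs_mul, abs_of_nonneg (sq_nonneg p.s), slotShift]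
  refine (mul_le_mul_of_nonneg_left ((Finset.abs_sum_le_sum_abs _ _).trans
    (Finset.sum_le_sum fun o _ => ho o)) (sq_nonneg _)).trans_eq ?_
  rw [Finset.sum_const, Finset.card_univ, nsmul_eq_mul]
  ring

theorem measurable_remH (x : Obs p.L → ℝ) (b : Base K N) (g : Fin p.L) (u : Fin p.S) (e : Env p N)
    (σ : Fin N → Bool) : Measurable fun J => remH p x b g u e J σ := by
  have hm : Measurable (mask p g u) := measurable_pi_lambda _ fun f => by
    unfold mask
    split_ifs <;> fun_prop
  have h : Measurable fun J : Feat p.L p.S → ℝ => (b, upd p g u e (fun _ => 0), mask p g u J) :=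
    measurable_const.prodMk (measurable_const.prodMk hm)
  exact (Measurable.comp (g := fun d : Dis K p N => totalH p x d σ)
    (f := fun J => (b, upd p g u e (fun _ => 0), mask p g u J)) (measurable_totalH p x σ) h).sub_const _

theorem remH_congr (x : Obs p.L → ℝ) (b : Base K N) (g : Fin p.L) (u : Fin p.S) (e : Env p N)
    {J J' : Feat p.L p.S → ℝ} (h : ∀ f, ¬Touch p g u f → J f = J' f) :
    remH p x b g u e J = remH p x b g u e J' := by
  have : mask p g u J = mask p g u J' := funext fun f => by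
    unfold mask
    split_ifs with hf
    · rfl
    · exact h f hf
  funext σ
  rw [remH, remH, this]

theorem remH_upd (x : Obs p.L → ℝ) (b : Base K N) (g : Fin p.L) (u : Fin p.S) (e : Env p N)
    (v : Fin (arity g) → Fin N) (J : Feat p.L p.S → ℝ) :
    remH p x b g u (upd p g u e v) J = remH p x b g u e J := by
  funext σ
  simp only [remH, upd_upd]

/-- Exchange slot `u` with further tilt number `k` and count one more. -/
def shiftEnv (g : Fin p.L) (u : Fin p.S) (e : Env p N) : Env p N :=
  ((upd p g u e (e.2.1 g (e.2.2 g))).1,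
    Function.update e.2.1 g (Function.update (e.2.1 g) (e.2.2 g) (e.1 g u)),
    Function.update e.2.2 g ⟨((e.2.2 g).val + 1) % p.Q, Nat.mod_lt _ p.Q_pos⟩)

omit [NeZero N] in
theorem shiftEnv_bijective (g : Fin p.L) (u : Fin p.S) :
    Function.Bijective (shiftEnv (N := N) p g u) := by
  refine Finite.injective_iff_bijective.1 fun e e' h => ?_
  obtain ⟨h1, h23⟩ := Prod.ext_iff.1 h
  obtain ⟨h2, h3⟩ := Prod.ext_iff.1 h23
  simp only [shiftEnv, upd] at h1 h2 h3
  have hk : e.2.2 = e'.2.2 := by
    funext g'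
    have := congrFun h3 g'
    by_cases hg : g' = g
    · subst hg
      simp only [Function.update_self, Fin.mk.injEq] at this
      have h4 := (e.2.2 g').isLt
      have h5 := (e'.2.2 g').isLt
      refine Fin.ext ?_
      rcases Nat.lt_or_ge ((e.2.2 g').val + 1) p.Q with h6 | h6 <;>
        rcases Nat.lt_or_ge ((e'.2.2 g').val + 1) p.Q with h7 | h7
      · rw [Nat.mod_eq_of_lt h6, Nat.mod_eq_of_lt h7] at this; omega
      · rw [Nat.mod_eq_of_lt h6, show (e'.2.2 g').val + 1 = p.Q by omega, Nat.mod_self] at this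
        omega
      · rw [Nat.mod_eq_of_lt h7, show (e.2.2 g').val + 1 = p.Q by omega, Nat.mod_self] at this
        omega
      · omega
    · simpa [hg] using this
  have hu : e.1 g u = e'.1 g u := by
    have := congrFun (congrFun h2 g) (e.2.2 g)
    simpa [hk] using this
  have hz : e.2.1 g (e.2.2 g) = e'.2.1 g (e'.2.2 g) := by
    simpa using congrFun (congrFun h1 g) u
  refine Prod.ext ?_ (Prod.ext ?_ hk)
  · funext g' u'
    have := congrFun (congrFun h1 g') u'
    by_cases hg : g' = g
    · subst hg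
      by_cases hu' : u' = u
      · subst hu'; exact hu
      · simpa [hu'] using this
    · simpa [hg] using this
  · funext g' j
    have := congrFun (congrFun h2 g') j
    by_cases hg : g' = g
    · subst hg
      by_cases hj : j = e.2.2 g'
      · subst hj; rw [hz, hk]
      · have hj' : j ≠ e'.2.2 g' := hk ▸ hj
        simpa [hj, hj'] using this
    · simpa [hg] using this

theorem remH_shift (x : Obs p.L → ℝ) (b : Base K N) (g : Fin p.L) (u : Fin p.S) (e : Env p N)
    (hk : (e.2.2 g).val + 1 < p.Q) (J : Feat p.L p.S → ℝ) (σ : Fin N → Bool) :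
    remH p x b g u (shiftEnv p g u e) J σ = remH p x b g u e J σ + tv p g (e.1 g u) σ := by
  set e1 := upd p g u e fun _ => 0
  set e2 := upd p g u (shiftEnv p g u e) fun _ => 0
  have hs : e2.1 = e1.1 := by
    simp [e1, e2, shiftEnv, upd]
  have hf : ∀ (f : Feat p.L p.S), featVal p e2 f σ = featVal p e1 f σ := fun f => by
    simp only [featVal, psiAt, hs]
  have hl : ∀ o, linObs p e2 o σ = linObs p e1 o σ := fun o => by
    cases o <;> simp only [linObs, magSlot, kern, psiAt, hs]
  have ht : tiltPart p e2 σ = tiltPart p e1 σ + tv p g (e.1 g u) σ := by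
    simp only [tiltPart]
    rw [← Finset.add_sum_erase _ _ (Finset.mem_univ g),
      ← Finset.add_sum_erase (Finset.univ : Finset (Fin p.L)) _ (Finset.mem_univ g)]
    simp only [hs]
    have he : ∀ g' ∈ Finset.univ.erase g, e2.2.1 g' = e1.2.1 g' ∧ e2.2.2 g' = e1.2.2 g' :=
      fun g' hg' => by simp [e1, e2, shiftEnv, upd, Finset.ne_of_mem_erase hg']
    have h3 : ∀ g' ∈ Finset.univ.erase g,
        ((∑ u', slotTilt g' fun i => σ (e1.1 g' u' i)) + ∑ j : Fin p.Q,
          if j.val < (e2.2.2 g').val then slotTilt g' (fun i => σ (e2.2.1 g' j i)) else 0)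
        = (∑ u', slotTilt g' fun i => σ (e1.1 g' u' i)) + ∑ j : Fin p.Q,
          if j.val < (e1.2.2 g').val then slotTilt g' (fun i => σ (e1.2.1 g' j i)) else 0 :=
      fun g' hg' => by rw [(he g' hg').1, (he g' hg').2]
    rw [Finset.sum_congr rfl h3]
    have h1 : (∑ j : Fin p.Q, if j.val < (e2.2.2 g).val then
          slotTilt g (fun i => σ (e2.2.1 g j i)) else 0)
        = (∑ j : Fin p.Q, if j.val < (e1.2.2 g).val then
          slotTilt g (fun i => σ (e1.2.1 g j i)) else 0) + tv p g (e.1 g u) σ := by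
      have hv : (e2.2.2 g).val = (e.2.2 g).val + 1 := by
        simp [e2, shiftEnv, upd, Nat.mod_eq_of_lt hk]
      have hq : ∀ j, j ≠ e.2.2 g → e2.2.1 g j = e.2.1 g j := fun j hj => by
        simp [e2, shiftEnv, upd, hj]
      have hself : e2.2.1 g (e.2.2 g) = e.1 g u := by simp [e2, shiftEnv, upd]
      rw [← Finset.add_sum_erase _ _ (Finset.mem_univ (e.2.2 g)),
        ← Finset.add_sum_erase (Finset.univ : Finset (Fin p.Q)) _ (Finset.mem_univ (e.2.2 g))]
      rw [hv, hself, if_pos (Nat.lt_succ_self _), show e1.2.2 = e.2.2 from rfl,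
        show e1.2.1 = e.2.1 from rfl, if_neg (lt_irrefl _)]
      rw [Finset.sum_congr rfl (g := fun j => if j.val < (e.2.2 g).val then
        slotTilt g (fun i => σ (e.2.1 g j i)) else 0) fun j hj => ?_]
      · simp only [tv]
        ring
      · have hne := Finset.ne_of_mem_erase hj
        have hne' : j.val ≠ (e.2.2 g).val := fun h => hne (Fin.ext h)
        rw [hq j hne]
        by_cases h : j.val < (e.2.2 g).val
        · rw [if_pos h, if_pos (by omega)]
        · rw [if_neg h, if_neg (by omega)]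
    rw [h1]
    ring
  simp only [e1, e2] at hf hl ht
  simp only [remH, totalH, pertH, gaussObs, hf, hl, ht]
  ring

omit [NeZero N] in
theorem abs_nav_sub_le {n : ℕ} (H : (Fin N → Bool) → ℝ) {A B : (ℕ → Fin N → Bool) → ℝ} {η : ℝ}
    (h : ∀ σ, |A σ - B σ| ≤ η) : |nav n H A - nav n H B| ≤ η := by
  have e : nav n H A - nav n H B = nav n H fun σ => A σ - B σ := by
    rw [sub_eq_iff_eq_add, ← nav_add]
    exact nav_congr _ fun σ => by ring
  rw [e]
  exact abs_nav_le n H h

/-- Changing the weights and the function of a replica average. -/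
theorem abs_nav_change_le {n : ℕ} (H δ : (Fin N → Bool) → ℝ) {A B : (ℕ → Fin N → Bool) → ℝ}
    {η : ℝ} (hA : ∀ σ, |A σ| ≤ 1) (h : ∀ σ, |A σ - B σ| ≤ η) :
    |nav n (fun σ => H σ + δ σ) A - nav n H B|
      ≤ 2 * n * gav H (fun σ => |Real.exp (δ σ) - 1|) + η := by
  refine (abs_sub_le _ (nav n H A) _).trans (add_le_add ?_ (abs_nav_sub_le H h))
  exact abs_rav_tilt_le n H δ _ fun σ => hA _

omit [NeZero N] in
theorem measurable_nav_of {Ω : Type*} [MeasurableSpace Ω] (n : ℕ)
    {H : Ω → (Fin N → Bool) → ℝ} (hH : ∀ σ, Measurable fun o => H o σ)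
    (A : (ℕ → Fin N → Bool) → ℝ) : Measurable fun o => nav n (H o) A := by
  unfold nav rav gw
  exact Finset.measurable_sum _ fun σ _ => (Finset.measurable_prod _ fun l _ =>
    (Real.measurable_exp.comp (hH _)).div
      (Finset.measurable_sum _ fun τ _ => Real.measurable_exp.comp (hH τ))).mul_const _

theorem measurable_totalH_J (x : Obs p.L → ℝ) (b : Base K N) (e : Env p N) (σ : Fin N → Bool) :
    Measurable fun J : Feat p.L p.S → ℝ => totalH p x (b, e, J) σ :=
  Measurable.comp (g := fun d : Dis K p N => totalH p x d σ) (f := fun J => (b, e, J))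
    (measurable_totalH p x σ) (measurable_const.prodMk (measurable_const.prodMk measurable_id))

/-- The average of an indicator of the count of further tilts. -/
theorem avg_count (g : Fin p.L) (c : ℝ) :
    avg (fun e : Env p N => if (e.2.2 g).val + 1 = p.Q then c else 0) = c / p.Q := by
  have hQ : 0 < p.Q := p.Q_pos
  have : Nonempty (Fin p.Q) := ⟨⟨0, hQ⟩⟩
  rw [avg_snd (α := (g : Fin p.L) → Fin p.S → Fin (arity g) → Fin N)
      fun q : ((g : Fin p.L) → Fin p.Q → Fin (arity g) → Fin N) × (Fin p.L → Fin p.Q) =>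
        if (q.2 g).val + 1 = p.Q then c else 0,
    avg_snd fun k : Fin p.L → Fin p.Q => if (k g).val + 1 = p.Q then c else 0,
    ← avg_equiv (Equiv.funSplitAt g (Fin p.Q)).symm, avg_prod]
  have e : ∀ q : Fin p.Q × ({j // j ≠ g} → Fin p.Q),
      (Equiv.funSplitAt g (Fin p.Q)).symm q g = q.1 := fun q => by simp [Equiv.funSplitAt]
  simp only [e, avg_const]
  simp only [avg, Fintype.card_fin]
  rw [Finset.sum_eq_single (⟨p.Q - 1, by omega⟩ : Fin p.Q) (fun j _ hj => if_neg fun h =>
    hj (Fin.ext (by simp only; omega))) (fun h => absurd (Finset.mem_univ _) h),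
    if_pos (show p.Q - 1 + 1 = p.Q by omega)]

/-- The error in the slot identity. -/
def slotErr (n : ℕ) (X η : ℝ) : ℝ :=
  2 / p.Q + 2 * (2 * n * tiltErr (slotVar p X) (slotShift p X) + η)

/-- The slot identity at fixed clauses and fields. -/
theorem slot_identity_base (x : Obs p.L → ℝ) {X : ℝ} (hx : ∀ o, |x o| ≤ X) (b : Base K N)
    (g : Fin p.L) (u : Fin p.S) (n : ℕ)
    (F : ((g : Fin p.L) → Fin p.S → Fin (arity g) → Fin N) → (ℕ → Fin N → Bool) → ℝ)
    (Φ : (Fin (arity g) → Fin N) → (ℕ → Fin N → Bool) → ℝ) {η : ℝ}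
    (hF1 : ∀ s σ, |F s σ| ≤ 1) (hΦ1 : ∀ v σ, |Φ v σ| ≤ 1)
    (hFη : ∀ (e : Env p N) v σ, |F e.1 σ - F (upd p g u e v).1 σ| ≤ η) :
    |avg (fun e : Env p N => ∫ J, nav n (totalH p x (b, e, J))
          (fun σ => F e.1 σ * Φ (e.1 g u) σ) ∂Toolkit.gaussPi (Feat p.L p.S)) -
      avg (fun e : Env p N => avg fun v : Fin (arity g) → Fin N =>
        ∫ J, nav n (fun σ => totalH p x (b, e, J) σ + tv p g v σ)
          (fun σ => F e.1 σ * Φ v σ) ∂Toolkit.gaussPi (Feat p.L p.S))| ≤ slotErr p n X η := by
  have hV := sum_slotCoef_sq p x hx g u (N := N)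
  have hC := abs_slotLin_le p x hx g u (N := N)
  set γ := Toolkit.gaussPi (Feat p.L p.S)
  set D := tiltErr (slotVar p X) (slotShift p X)
  set F' : Env p N → (ℕ → Fin N → Bool) → ℝ := fun e => F (upd p g u e fun _ => 0).1 with hF'
  have hF'1 : ∀ e v σ, |F' e σ * Φ v σ| ≤ 1 := fun e v σ => by
    rw [abs_mul]; exact mul_le_one₀ (hF1 _ _) (abs_nonneg _) (hΦ1 v σ)
  -- the comparison with the Hamiltonian without the slot
  have hrem : ∀ (e : Env p N) (v : Fin (arity g) → Fin N) (τ : (Fin N → Bool) → ℝ),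
      |∫ J, nav n (fun σ => totalH p x (b, e, J) σ + τ σ) (fun σ => F e.1 σ * Φ v σ) ∂γ -
        ∫ J, nav n (fun σ => remH p x b g u e J σ + tv p g (e.1 g u) σ + τ σ)
          (fun σ => F' e σ * Φ v σ) ∂γ| ≤ 2 * n * D + η := by
    intro e v τ
    set R : (Feat p.L p.S → ℝ) → (Fin N → Bool) → ℝ :=
      fun J σ => remH p x b g u e J σ + tv p g (e.1 g u) σ + τ σ
    set δ : (Feat p.L p.S → ℝ) → (Fin N → Bool) → ℝ :=
      fun J σ => (∑ f, slotCoef p x g u e σ f * J f) + slotLin p x g u e σ
    have hRm : ∀ σ, Measurable fun J => R J σ := fun σ =>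
      ((measurable_remH p x b g u e σ).add_const _).add_const _
    have hsplit : ∀ J, (fun σ => totalH p x (b, e, J) σ + τ σ) = fun σ => R J σ + δ J σ :=
      fun J => funext fun σ => by simp only [R, δ, totalH_split p x b g u e J σ]; ring
    have h1 : ∀ σ, |F e.1 σ * Φ v σ| ≤ 1 := fun σ => by
      rw [abs_mul]; exact mul_le_one₀ (hF1 _ _) (abs_nonneg _) (hΦ1 v σ)
    have i1 : Integrable (fun J => nav n (fun σ => totalH p x (b, e, J) σ + τ σ)
        (fun σ => F e.1 σ * Φ v σ)) γ :=
      Integrable.of_bound (measurable_nav_of n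
        (fun σ => (measurable_totalH_J p x b e σ).add_const (τ σ)) _).aestronglyMeasurable 1
        (ae_of_all _ fun J => by rw [Real.norm_eq_abs]; exact abs_nav_le _ _ h1)
    have i2 : Integrable (fun J => nav n (R J) (fun σ => F' e σ * Φ v σ)) γ :=
      Integrable.of_bound (measurable_nav_of n hRm _).aestronglyMeasurable 1
        (ae_of_all _ fun J => by rw [Real.norm_eq_abs]; exact abs_nav_le _ _ (hF'1 e v))
    have hg : ∫ J, gav (R J) (fun σ => |Real.exp (δ J σ) - 1|) ∂γ ≤ D := by
      refine integral_gav_tilt_le (Touch p g u) R hRm (fun J J' h => ?_)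
        (fun σ => slotCoef p x g u e σ) (fun σ f hf => by simp [slotCoef, hf])
        (slotLin p x g u e) (hV e) (hC e)
      simp only [R, remH_congr p x b g u e h]
    have i3 : Integrable (fun J => gav (R J) (fun σ => |Real.exp (δ J σ) - 1|)) γ := by
      have i4 : ∀ σ : Fin N → Bool, Integrable (fun J : Feat p.L p.S → ℝ =>
          Real.exp (slotLin p x g u e σ) * Real.exp (∑ f, slotCoef p x g u e σ f * J f) + 1) γ :=
        fun σ => ((Toolkit.integrable_exp_linear _).const_mul _).add (integrable_const 1)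
      refine (integrable_finsetSum Finset.univ fun σ _ => i4 σ).mono' ?_ (ae_of_all _ fun J => ?_)
      · unfold gav gw
        exact (Finset.measurable_sum _ fun σ _ => ((Real.measurable_exp.comp (hRm σ)).div
          (Finset.measurable_sum _ fun τ _ => Real.measurable_exp.comp (hRm τ))).mul
            (by simp only [δ]; fun_prop)).aestronglyMeasurable
      · rw [Real.norm_eq_abs]
        refine (abs_gav_le _ _).trans (Finset.sum_le_sum fun σ _ => ?_)
        dsimp only
        rw [abs_abs]
        refine (mul_le_of_le_one_left (abs_nonneg _) (gw_le_one _ _)).trans ?_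
        simp only [δ]
        rw [Real.exp_add, mul_comm (Real.exp (slotLin p x g u e σ))]
        refine (abs_sub _ _).trans ?_
        rw [abs_of_pos (by positivity), abs_one]
    rw [← integral_sub i1 i2]
    refine (abs_integral_le_integral_abs).trans ?_
    refine (integral_mono (i1.sub i2).abs ((i3.const_mul (2 * (n : ℝ))).add (integrable_const η))
      fun J => ?_).trans ?_
    · simp only [Pi.add_apply, Pi.sub_apply]
      rw [hsplit J]
      refine abs_nav_change_le (R J) (δ J) h1 fun σ => ?_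
      rw [← sub_mul, abs_mul]
      exact (mul_le_of_le_one_right (abs_nonneg _) (hΦ1 v σ)).trans (hFη e _ σ)
    · simp only [Pi.add_apply]
      rw [integral_add (i3.const_mul _) (integrable_const η), integral_const_mul, integral_const,
        probReal_univ, one_smul]
      exact add_le_add_left (mul_le_mul_of_nonneg_left hg (by positivity)) η |>.trans_eq rfl
  set Ψ : Env p N → (Fin (arity g) → Fin N) → ℝ := fun e v =>
    ∫ J, nav n (fun σ => remH p x b g u e J σ + tv p g v σ) (fun σ => F' e σ * Φ v σ) ∂γ with hΨ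
  set Ψ' : Env p N → (Fin (arity g) → Fin N) → ℝ := fun e v =>
    ∫ J, nav n (fun σ => remH p x b g u e J σ + tv p g (e.1 g u) σ + tv p g v σ)
      (fun σ => F' e σ * Φ v σ) ∂γ with hΨ'
  have hA : |avg (fun e : Env p N => ∫ J, nav n (totalH p x (b, e, J))
        (fun σ => F e.1 σ * Φ (e.1 g u) σ) ∂γ) - avg (fun e => Ψ e (e.1 g u))| ≤ 2 * n * D + η := by
    rw [← avg_sub]
    refine abs_avg_le fun e => ?_
    have := hrem e (e.1 g u) fun _ => 0
    simpa only [add_zero, hΨ] using this
  have hB : |avg (fun e : Env p N => avg fun v : Fin (arity g) → Fin N =>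
      ∫ J, nav n (fun σ => totalH p x (b, e, J) σ + tv p g v σ) (fun σ => F e.1 σ * Φ v σ) ∂γ) -
      avg (fun e => avg (Ψ' e))| ≤ 2 * n * D + η := by
    rw [← avg_sub]
    refine abs_avg_le fun e => ?_
    rw [← avg_sub]
    exact abs_avg_le fun v => hrem e v (tv p g v)
  have hswap : avg (fun e => Ψ e (e.1 g u)) = avg (fun e => avg (Ψ e)) := by
    have hinv : Function.Involutive fun q : Env p N × (Fin (arity g) → Fin N) =>
        (upd p g u q.1 q.2, q.1.1 g u) := fun q => by
      simp [upd_apply_self, upd_upd, upd_self]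
    have hinvar : ∀ e v w, Ψ (upd p g u e v) w = Ψ e w := fun e v w => by
      simp only [hΨ, hF', remH_upd, upd_upd]
    calc avg (fun e => Ψ e (e.1 g u))
        = avg (fun q : Env p N × (Fin (arity g) → Fin N) => Ψ q.1 (q.1.1 g u)) := by
          exact (avg_fst fun e : Env p N => Ψ e (e.1 g u)).symm
      _ = avg (fun q : Env p N × (Fin (arity g) → Fin N) => Ψ q.1 q.2) := by
          rw [← avg_equiv hinv.toPerm fun q => Ψ q.1 (q.1.1 g u)]
          exact avg_congr fun q => by
            simp only [Function.Involutive.coe_toPerm, upd_apply_self, hinvar]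
      _ = avg (fun e => avg (Ψ e)) := avg_prod _
  have hshift : |avg (fun e => avg (Ψ e)) - avg (fun e => avg (Ψ' e))| ≤ 2 / p.Q := by
    rw [← avg_equiv (Equiv.ofBijective _ (shiftEnv_bijective p g u)) fun e => avg (Ψ e),
      ← avg_sub]
    refine (abs_avg_le_avg _).trans ((avg_mono fun e => ?_).trans_eq (avg_count p g 2))
    rw [← avg_sub]
    by_cases hk : (e.2.2 g).val + 1 = p.Q
    · rw [if_pos hk]
      have hb : ∀ (R : (Feat p.L p.S → ℝ) → (Fin N → Bool) → ℝ) e' v,
          |∫ J, nav n (R J) (fun σ => F' e' σ * Φ v σ) ∂γ| ≤ 1 := fun R e' v => by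
        refine (Real.norm_eq_abs _).ge.trans ((norm_integral_le_of_norm_le_const
          (ae_of_all _ fun J => (Real.norm_eq_abs _).trans_le (abs_nav_le _ _ (hF'1 e' v)))).trans
            (by simp))
      refine abs_avg_le fun v => (abs_sub _ _).trans ?_
      linarith [hb (fun J σ => remH p x b g u (Equiv.ofBijective _ (shiftEnv_bijective p g u) e) J σ
        + tv p g v σ) (Equiv.ofBijective _ (shiftEnv_bijective p g u) e) v,
        hb (fun J σ => remH p x b g u e J σ + tv p g (e.1 g u) σ + tv p g v σ) e v]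
    · rw [if_neg hk, abs_nonpos_iff]
      refine (avg_congr fun v => ?_).trans (avg_const 0)
      have hk' : (e.2.2 g).val + 1 < p.Q := by
        have := (e.2.2 g).isLt
        omega
      have hFs : F' (shiftEnv p g u e) = F' e := by simp [hF', shiftEnv, upd]
      simp only [Equiv.ofBijective_apply, hΨ, hΨ', sub_eq_zero,
        remH_shift p x b g u e hk', hFs]
  rw [hswap] at hA
  unfold slotErr
  rw [abs_le] at hA hB hshift ⊢
  constructor <;> linarith [hA.1, hA.2, hB.1, hB.2, hshift.1, hshift.2]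

end Vale.Agent.P168.Limit
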