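import Vale.Agent.P168.Limit.EnvAvg

/-! The overlap, magnetisation and gadget identities of the system array, up to small errors. -/

open MeasureTheory ProbabilityTheory Filter
open scoped BigOperators NNReal ENNReal

noncomputable section

namespace Vale.Agent.P168.Limit

variable {K N : ℕ} (p : Params)

/-- A monomial as a function of the slot sites and the replicas. -/
def repVal [NeZero N] {n q : ℕ} (F : List (Coord n)) (a : Fin q → Fin N)
    (s : (g : Fin p.L) → Fin p.S → Fin (arity g) → Fin N) (σ : ℕ → Fin N → Bool) : ℝ :=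
  repMono F (arrOf p (s, fun _ _ _ => 0, fun _ => ⟨0, p.Q_pos⟩) (extSites a) σ)

variable [NeZero N]

theorem repVal_eq {n q : ℕ} (F : List (Coord n)) (a : Fin q → Fin N) (e : Env p N)
    (σ : ℕ → Fin N → Bool) :
    repVal p F a e.1 σ = repMono F (arrOf p e (extSites a) σ) := rfl

theorem abs_kval_upd_le (g : Fin p.L) (u : Fin p.S) (e : Env p N) (v : Fin (arity g) → Fin N)
    (g' : ℕ) (σ τ : Fin N → Bool) :
    |kval p e g' σ τ - kval p (upd p g u e v) g' σ τ| ≤ 2 / p.S := by
  unfold kval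
  split_ifs with hg
  · refine abs_sum_update_le p u (fun i => ?_) (fun i => ?_) fun i hi => ?_
    · rw [abs_mul]
      exact mul_le_one₀ (abs_psiAt_le p e _ i σ) (abs_nonneg _) (abs_psiAt_le p e _ i τ)
    · rw [abs_mul]
      exact mul_le_one₀ (abs_psiAt_le p _ _ i σ) (abs_nonneg _) (abs_psiAt_le p _ _ i τ)
    · simp only [psiAt, upd_apply_ne p g u e v (g' := ⟨g', hg⟩) (u' := i)
        fun h => hi (congrArg Prod.snd h)]
  · simp only [sub_self, abs_zero]
    positivity

theorem abs_repVal_upd_le {n q : ℕ} (F : List (Coord n)) (a : Fin q → Fin N) (g : Fin p.L)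
    (u : Fin p.S) (e : Env p N) (v : Fin (arity g) → Fin N) (σ : ℕ → Fin N → Bool) :
    |repVal p F a e.1 σ - repVal p F a (upd p g u e v).1 σ| ≤ F.length * (2 / p.S) := by
  rw [repVal_eq, repVal_eq]
  induction F with
  | nil => simp [repMono]
  | cons c F ih =>
    simp only [repMono, List.map_cons, List.prod_cons, List.length_cons] at ih ⊢
    set a1 := coordVal c (repData n (arrOf p e (extSites a) σ))
    set a2 := coordVal c (repData n (arrOf p (upd p g u e v) (extSites a) σ))
    set b1 := (F.map fun c => coordVal c (repData n (arrOf p e (extSites a) σ))).prod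
    set b2 := (F.map fun c => coordVal c (repData n (arrOf p (upd p g u e v) (extSites a) σ))).prod
    have hb1 : |b1| ≤ 1 := abs_repMono_arrOf_le p F e (extSites a) σ
    have ha : |a1 - a2| ≤ 2 / p.S ∧ |a2| ≤ 1 := by
      rcases c with ⟨l, i⟩ | ⟨g', l, l'⟩
      · refine ⟨?_, (States.abs_spin _).le⟩
        simp only [a1, a2, coordVal, repData, arrOf, sub_self, abs_zero]
        positivity
      · exact ⟨abs_kval_upd_le p g u e v g' _ _, abs_kval_le p _ g' _ _⟩
    have e1 : a1 * b1 - a2 * b2 = (a1 - a2) * b1 + a2 * (b1 - b2) := by ring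
    rw [e1]
    refine (abs_add_le _ _).trans ?_
    rw [abs_mul, abs_mul]
    push_cast
    have h1 := mul_le_mul ha.1 hb1 (abs_nonneg _) (by positivity)
    have h2 := mul_le_of_le_one_left (abs_nonneg (b1 - b2)) ha.2
    linarith

variable (P : Measure (Factor K)) (Q : Measure ℝ) (μ : ℝ≥0)
variable [IsProbabilityMeasure P] [IsProbabilityMeasure Q] (x : Obs p.L → ℝ)

/-- A bounded function of finitely many replicas and sites, as a disorder average. -/
theorem integral_sysArr_eav {G : Arr → ℝ} (hG : Measurable G) {B : ℝ}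
    (hB : ∀ (e : Env p N) s σ, |G (arrOf p e s σ)| ≤ B) (n q : ℕ)
    (hn : ∀ (e : Env p N) (s : ℕ → Fin N) (σ τ : ℕ → Fin N → Bool), (∀ l < n, σ l = τ l) →
      G (arrOf p e s σ) = G (arrOf p e s τ))
    (hq : ∀ (e : Env p N) (s t : ℕ → Fin N) σ, (∀ i < q, s i = t i) →
      G (arrOf p e s σ) = G (arrOf p e t σ)) :
    ∫ ω, G ω ∂sysArr p N P Q μ x = avg fun a : Fin q → Fin N =>
      eav p P Q μ x n (fun _ => 0) fun e σ => G (arrOf p e (extSites a) σ) := by
  rw [integral_sysArr_fin p P Q μ x hG hB n q hn hq, ← eav_avg, eav]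
  refine integral_congr_ae (ae_of_all _ fun d => ?_)
  simp only [add_zero, avg, div_eq_inv_mul, nav_const_mul, nav_sum]

theorem integral_repMono {n q : ℕ} {F : List (Coord n)} (hF : SitesBelow F q) :
    ∫ ω, repMono F ω ∂sysArr p N P Q μ x = avg fun a : Fin q → Fin N =>
      eav p P Q μ x n (fun _ => 0) fun e σ => repVal p F a e.1 σ :=
  integral_sysArr_eav p P Q μ x (measurable_repMono F) (fun e s σ => abs_repMono_arrOf_le p F e s σ)
    n q (fun e s _ _ h => repMono_congr_rep p F e s h)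
    fun e _ _ σ h => repMono_congr_site p hF e σ h

/-- Reading fresh sites is averaging over them. -/
theorem integral_fresh {n m q E : ℕ} (hnm : n ≤ m) {F : List (Coord n)} (hF : SitesBelow F q)
    {G : Arr → ℝ} (hG : Measurable G) {B : ℝ} (Ψ : (ℕ → Fin N → Bool) → (Fin E → Fin N) → ℝ)
    (hΨ : ∀ (e : Env p N) s σ, G (arrOf p e s σ) = Ψ σ fun i => s (q + i))
    (hB : ∀ σ v, |Ψ σ v| ≤ B) (hm : ∀ σ τ v, (∀ l < m, σ l = τ l) → Ψ σ v = Ψ τ v) :
    ∫ ω, repMono F ω * G ω ∂sysArr p N P Q μ x = avg fun a : Fin q → Fin N =>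
      avg fun v : Fin E → Fin N =>
        eav p P Q μ x m (fun _ => 0) fun e σ => repVal p F a e.1 σ * Ψ σ v := by
  have hB0 : ∀ (e : Env p N) s σ, |repMono F (arrOf p e s σ) * G (arrOf p e s σ)| ≤ B := by
    intro e s σ
    rw [abs_mul, hΨ]
    exact (mul_le_of_le_one_left (abs_nonneg _) (abs_repMono_arrOf_le p F e s σ)).trans (hB _ _)
  rw [integral_sysArr_eav p P Q μ x (G := fun ω => repMono F ω * G ω) ((measurable_repMono F).mul hG)
    hB0 m (q + E) ?_ ?_, ← avg_append q E fun a v =>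
      eav p P Q μ x m (fun _ => 0) fun e σ => repVal p F a e.1 σ * Ψ σ v]
  · refine avg_congr fun b => eav_congr p P Q μ x m _ fun e σ => ?_
    rw [repVal_eq, hΨ]
    congr 1
    · exact repMono_congr_site p hF e σ fun i hi => by
        simp [extSites, hi, show i < q + E by omega, Fin.castAdd, Fin.castLE]
    · congr 1
      funext i
      simp [extSites, Fin.natAdd]
  · intro e s σ τ h
    simp only [hΨ]
    rw [repMono_congr_rep p F e s fun l hl => h l (by omega), hm σ τ _ h]
  · intro e s t σ h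
    simp only [hΨ]
    rw [repMono_congr_site p hF e σ fun i hi => h i (by omega)]
    congr 2
    funext i
    exact h _ (by have := i.isLt; omega)

/-- The slot identity for monomials, averaged over slots and sites. -/
theorem slot_monomial {X : ℝ} (hx : ∀ o, |x o| ≤ X) {n q : ℕ} (F : List (Coord n)) (g : Fin p.L)
    (Φ : (Fin (arity g) → Fin N) → (ℕ → Fin N → Bool) → ℝ) (hΦ1 : ∀ v σ, |Φ v σ| ≤ 1) :
    |(avg fun a : Fin q → Fin N => eav p P Q μ x n (fun _ => 0)
        fun e σ => repVal p F a e.1 σ * avg fun u : Fin p.S => Φ (e.1 g u) σ) -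
      (avg fun a : Fin q → Fin N => avg fun v : Fin (arity g) → Fin N =>
        eav p P Q μ x n (tv p g v) fun e σ => repVal p F a e.1 σ * Φ v σ)|
      ≤ slotErr p n X (F.length * (2 / p.S)) := by
  have : Nonempty (Fin p.S) := ⟨⟨0, p.S_pos⟩⟩
  rw [← avg_sub]
  refine abs_avg_le fun a => ?_
  have e1 : eav p P Q μ x n (fun _ => 0)
        (fun e σ => repVal p F a e.1 σ * avg fun u : Fin p.S => Φ (e.1 g u) σ)
      = avg fun u : Fin p.S =>
          eav p P Q μ x n (fun _ => 0) fun e σ => repVal p F a e.1 σ * Φ (e.1 g u) σ := by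
    rw [← eav_avg]
    exact eav_congr p P Q μ x n _ fun e σ => (avg_const_mul _ _).symm
  rw [e1, ← avg_const (α := Fin p.S) (avg fun v : Fin (arity g) → Fin N =>
    eav p P Q μ x n (tv p g v) fun e σ => repVal p F a e.1 σ * Φ v σ), ← avg_sub]
  refine abs_avg_le fun u => slot_identity p P Q μ x n hx g u (repVal p F a) Φ
    (fun s σ => abs_repMono_arrOf_le p F _ _ σ) hΦ1 fun e v σ => abs_repVal_upd_le p F a g u e v σ

omit [NeZero N] in
theorem arity_zero : arity 0 = 1 := rfl

theorem tv_zero {g : Fin p.L} (hg : g.val = 0) (v : Fin (arity g) → Fin N) :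
    tv p g v = fun _ => 0 := by
  funext σ
  simp [tv, slotTilt, hg]

/-- Kernel zero is the overlap at a fresh site. -/
theorem sys_overlap (hL : 0 < p.L) {X : ℝ} (hx : ∀ o, |x o| ≤ X) {n q a b : ℕ}
    {F : List (Coord n)} (hF : SitesBelow F q) (ha : a < n) (hb : b < n) :
    |(∫ ω, repMono F ω * ω.2 0 a b ∂sysArr p N P Q μ x) -
      ∫ ω, repMono F ω * spinProd [a, b] q ω ∂sysArr p N P Q μ x|
      ≤ slotErr p n X (F.length * (2 / p.S)) := by
  set g : Fin p.L := ⟨0, hL⟩ with hgdef
  set Φ : (Fin (arity g) → Fin N) → (ℕ → Fin N → Bool) → ℝ :=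
    fun v σ => (∏ i, spin (σ a (v i))) * ∏ i, spin (σ b (v i)) with hΦ
  have hΦ1 : ∀ v σ, |Φ v σ| ≤ 1 := fun v σ => by
    simp only [hΦ, abs_mul, Finset.abs_prod, States.abs_spin, Finset.prod_const_one, one_mul, le_refl]
  have e1 : ∫ ω, repMono F ω * ω.2 0 a b ∂sysArr p N P Q μ x
      = avg fun c : Fin q → Fin N => eav p P Q μ x n (fun _ => 0)
          fun e σ => repVal p F c e.1 σ * avg fun u : Fin p.S => Φ (e.1 g u) σ := by
    rw [integral_sysArr_eav p P Q μ x (G := fun ω => repMono F ω * ω.2 0 a b) (B := 1)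
      ((measurable_repMono F).mul (by fun_prop)) (fun e s σ => ?_) n q (fun e s σ τ h => ?_)
      fun e s t σ h => ?_]
    · refine avg_congr fun c => eav_congr p P Q μ x n _ fun e σ => ?_
      rw [repVal_eq]
      congr 1
      simp only [arrOf, kval, dif_pos hL, kern, avg, Fintype.card_fin, hΦ]
      refine congrArg (· / (p.S : ℝ)) (Finset.sum_congr rfl fun u _ => ?_)
      simp only [psiAt, slotPsi, hgdef, if_true]
      rfl
    · rw [abs_mul]
      exact mul_le_one₀ (abs_repMono_arrOf_le p F e s σ) (abs_nonneg _) (abs_kval_le p e 0 _ _)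
    · simp only [arrOf, h a ha, h b hb]
      rw [← arrOf, ← arrOf, repMono_congr_rep p F e s h]
    · simp only [arrOf]
      rw [← arrOf, ← arrOf, repMono_congr_site p hF e σ h]
  have e2 : ∫ ω, repMono F ω * spinProd [a, b] q ω ∂sysArr p N P Q μ x
      = avg fun c : Fin q → Fin N => avg fun v : Fin (arity g) → Fin N =>
          eav p P Q μ x n (tv p g v) fun e σ => repVal p F c e.1 σ * Φ v σ := by
    have ha1 : arity g = 1 := rfl
    rw [integral_fresh p P Q μ x le_rfl hF (E := arity g) (measurable_spinProd [a, b] q) (B := 1)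
      (fun σ v => Φ v σ) (fun e s σ => ?_) (fun σ v => hΦ1 v σ) fun σ τ v h => ?_]
    · simp only [tv_zero p (g := g) rfl]
    · have hp : ∀ f : ℕ → ℝ, ∏ i : Fin (arity g), f (q + i) = f q := fun f => by
        rw [Fin.prod_univ_eq_prod_range (fun i => f (q + i)), ha1]
        simp
      simp only [hΦ]
      rw [hp fun i => spin (σ a (s i)), hp fun i => spin (σ b (s i))]
      simp [spinProd, arrOf]
    · simp only [hΦ, h a ha, h b hb]
  rw [e1, e2]
  exact slot_monomial p P Q μ x hx F g Φ hΦ1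

omit [IsProbabilityMeasure P] [IsProbabilityMeasure Q] in
theorem nav_single {X : Type*} [Fintype X] [Inhabited X] {n a : ℕ} (ha : a < n) (H f : X → ℝ) :
    nav n H (fun σ => f (σ a)) = gav H f := by
  classical
  have : Nonempty X := ⟨default⟩
  have e : (fun σ : Fin n → X => f (if h : a < n then σ ⟨a, h⟩ else default))
      = fun σ => ∏ l, (if l = ⟨a, ha⟩ then f else fun _ => 1) (σ l) := by
    funext σ
    rw [Finset.prod_eq_single (⟨a, ha⟩ : Fin n) (fun l _ hl => by simp [hl]) (by simp), dif_pos ha,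
      if_pos rfl]
  rw [nav, e, rav_eq_prod, Finset.prod_eq_single (⟨a, ha⟩ : Fin n)
    (fun l _ hl => by simp [hl, gav_const]) (by simp), if_pos rfl]

/-- Reading one replica at a fresh site gives the magnetisation. -/
theorem sys_mag (hL : 0 < p.L) {X : ℝ} (hx : ∀ o, |x o| ≤ X) {n q a : ℕ}
    {F : List (Coord n)} (hF : SitesBelow F q) (ha : a < n) (o : ℝ) :
    |(∫ ω, repMono F ω * spinProd [a] q ω ∂sysArr p N P Q μ x) -
      o * ∫ ω, repMono F ω ∂sysArr p N P Q μ x|
      ≤ slotErr p n X (F.length * (2 / p.S)) +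
        ∫ d, gav (totalH p x d) (fun σ => |magSlot p d.2.1 σ - o|) ∂disLaw p N P Q μ := by
  set g : Fin p.L := ⟨0, hL⟩ with hgdef
  set Φ : (Fin (arity g) → Fin N) → (ℕ → Fin N → Bool) → ℝ :=
    fun v σ => ∏ i, spin (σ a (v i)) with hΦ
  have hΦ1 : ∀ v σ, |Φ v σ| ≤ 1 := fun v σ => by
    simp only [hΦ, Finset.abs_prod, States.abs_spin, Finset.prod_const_one, le_refl]
  have hmag : ∀ (e : Env p N) (σ : ℕ → Fin N → Bool),
      avg (fun u : Fin p.S => Φ (e.1 g u) σ) = magSlot p e (σ a) := fun e σ => by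
    rw [magSlot, Finset.sum_eq_single g (fun g' _ hg => if_neg fun h => hg (Fin.ext h))
      fun h => absurd (Finset.mem_univ _) h, if_pos rfl]
    simp only [avg, Fintype.card_fin, hΦ, psiAt, slotPsi, hgdef, if_true]
  have e2 : ∫ ω, repMono F ω * spinProd [a] q ω ∂sysArr p N P Q μ x
      = avg fun c : Fin q → Fin N => avg fun v : Fin (arity g) → Fin N =>
          eav p P Q μ x n (tv p g v) fun e σ => repVal p F c e.1 σ * Φ v σ := by
    have ha1 : arity g = 1 := rfl
    rw [integral_fresh p P Q μ x le_rfl hF (E := arity g) (measurable_spinProd [a] q) (B := 1)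
      (fun σ v => Φ v σ) (fun e s σ => ?_) (fun σ v => hΦ1 v σ) fun σ τ v h => ?_]
    · simp only [tv_zero p (g := g) rfl]
    · have hp : ∀ f : ℕ → ℝ, ∏ i : Fin (arity g), f (q + i) = f q := fun f => by
        rw [Fin.prod_univ_eq_prod_range (fun i => f (q + i)), ha1]
        simp
      simp only [hΦ]
      rw [hp fun i => spin (σ a (s i))]
      simp [spinProd, arrOf]
    · simp only [hΦ, h a ha]
  set A : ℝ := avg fun c : Fin q → Fin N => eav p P Q μ x n (fun _ => 0)
    fun e σ => repVal p F c e.1 σ * magSlot p e (σ a) with hA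
  have h1 := slot_monomial p P Q μ x hx F g Φ hΦ1 (q := q) (n := n)
  simp only [hmag] at h1
  rw [← hA, ← e2] at h1
  have h2 : |A - o * ∫ ω, repMono F ω ∂sysArr p N P Q μ x|
      ≤ ∫ d, gav (totalH p x d) (fun σ => |magSlot p d.2.1 σ - o|) ∂disLaw p N P Q μ := by
    rw [integral_repMono p P Q μ x hF, ← avg_const_mul, hA, ← avg_sub]
    refine abs_avg_le fun c => ?_
    rw [← eav_const_mul, ← eav_sub]
    have e3 : ∫ d, gav (totalH p x d) (fun σ => |magSlot p d.2.1 σ - o|) ∂disLaw p N P Q μ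
        = eav p P Q μ x n (fun _ : Fin N → Bool => 0) fun e σ => |magSlot p e (σ a) - o| := by
      rw [eav]
      refine integral_congr_ae (ae_of_all _ fun d => ?_)
      simp only [add_zero]
      exact (nav_single ha (totalH p x d) fun τ => |magSlot p d.2.1 τ - o|).symm
    rw [e3, eav, eav]
    refine (abs_integral_le_integral_abs).trans (integral_mono_of_nonneg
      (ae_of_all _ fun d => abs_nonneg _) (integrable_navDis p P Q μ x n _
        fun e σ => |magSlot p e (σ a) - o|) (ae_of_all _ fun d => ?_))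
    unfold nav
    refine (Finset.abs_sum_le_sum_abs _ _).trans (Finset.sum_le_sum fun σ _ => ?_)
    rw [abs_mul, abs_of_nonneg (Finset.prod_nonneg fun l _ => gw_nonneg _ _)]
    refine mul_le_mul_of_nonneg_left ?_ (Finset.prod_nonneg fun l _ => gw_nonneg _ _)
    dsimp only
    rw [show ∀ r m : ℝ, r * m - o * r = r * (m - o) from fun r m => by ring, abs_mul]
    exact mul_le_of_le_one_left (abs_nonneg _) (abs_repMono_arrOf_le p F _ _ _)
  calc _ ≤ |(∫ ω, repMono F ω * spinProd [a] q ω ∂sysArr p N P Q μ x) - A| +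
        |A - o * ∫ ω, repMono F ω ∂sysArr p N P Q μ x| := abs_sub_le _ _ _
    _ ≤ _ := add_le_add (by rw [abs_sub_comm]; exact h1) h2

/-! Gadgets. -/

omit [NeZero N] in
theorem decodeKer_kidx (Γ : Gadget) (s : Bool) : decodeKer (kidx Γ s) = some (Γ, s) :=
  Encodable.decode₂_eq_some.2 rfl

omit [NeZero N] in
theorem list_prod_filter {β : Type*} (l : List β) (c : β → Bool) (f : β → ℝ) :
    ((l.filter c).map f).prod = (l.map fun i => if c i then f i else 1).prod := by
  induction l with
  | nil => rfl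
  | cons b l ih => cases h : c b <;> simp [h, ih]

omit [NeZero N] in
theorem spinProd_edgeReps {d J : ℕ} (e : Finset (Fin d) × Bool × Bool) (a : Fin J → Fin d)
    (l l' : ℕ) (u v : Bool) (h : Fin J → ℕ) (i : ℕ) (ω : Arr) :
    spinProd (edgeReps e a l l' u v h) i ω =
      (if (if u then e.2.2 else e.2.1) then spin (ω.1 l i) else 1) *
      (if (if v then e.2.2 else e.2.1) then spin (ω.1 l' i) else 1) *
      ∏ k, if a k ∈ e.1 then spin (ω.1 (h k) i) else 1 := by
  unfold spinProd edgeReps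
  rw [List.map_append, List.map_append, List.prod_append, List.prod_append, List.map_map,
    list_prod_filter, Fin.prod_univ_def]
  congr 1
  · congr 1
    · split_ifs <;> simp
    · split_ifs <;> simp
  · simp

/-- A gadget read at given sites by given replicas. -/
def freshAt (Γ : Gadget) (s : Bool) {E J : ℕ} (a : Fin J → Fin Γ.1) (l l' : ℕ) (h : Fin J → ℕ)
    (σ : ℕ → Fin N → Bool) (v : Fin E → Fin N) : ℝ :=
  (1 / 4) * ∑ u : Bool, ∑ u' : Bool, (if u then spin s else 1) * (if u' then spin s else 1) *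
    ∏ i : Fin E,
      ((if (if u then (edgeAt Γ i).2.2 else (edgeAt Γ i).2.1) then spin (σ l (v i)) else 1) *
      (if (if u' then (edgeAt Γ i).2.2 else (edgeAt Γ i).2.1) then spin (σ l' (v i)) else 1) *
      ∏ k, if a k ∈ (edgeAt Γ i).1 then spin (σ (h k) (v i)) else 1)

omit [NeZero N] in
theorem abs_freshAt_le (Γ : Gadget) (s : Bool) {E J : ℕ} (a : Fin J → Fin Γ.1) (l l' : ℕ)
    (h : Fin J → ℕ) (σ : ℕ → Fin N → Bool) (v : Fin E → Fin N) :
    |freshAt Γ s a l l' h σ v| ≤ 1 := by
  have hite : ∀ (b : Prop) [Decidable b] (y : Bool), |if b then spin y else 1| = 1 :=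
    fun b _ y => by split_ifs <;> simp [States.abs_spin]
  unfold freshAt
  rw [abs_mul]
  refine (mul_le_mul_of_nonneg_left ((Finset.abs_sum_le_sum_abs _ _).trans
    (Finset.sum_le_sum fun u _ => (Finset.abs_sum_le_sum_abs _ _).trans
      (Finset.sum_le_sum (g := fun _ => (1 : ℝ)) fun u' _ => ?_))) (abs_nonneg _)).trans ?_
  · simp only [abs_mul, Finset.abs_prod, hite, States.abs_spin, Finset.prod_const_one, mul_one]
    exact le_rfl
  · norm_num

theorem freshValue_arrOf (Γ : Gadget) (s : Bool) {E J : ℕ} (hE : E = Γ.2.1.length)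
    (a : Fin J → Fin Γ.1) (l l' q : ℕ) (h : Fin J → ℕ) (e : Env p N) (si : ℕ → Fin N)
    (σ : ℕ → Fin N → Bool) :
    freshValue Γ s a l l' q h (arrOf p e si σ) = freshAt Γ s a l l' h σ fun i : Fin E => si (q + i) := by
  subst hE
  simp only [freshValue, freshAt, spinProd_edgeReps, arrOf]

/-- Two slot functions and the tilts of the labels give the gadget. -/
theorem psi_mul_prod_tilt (Γ : Gadget) (s : Bool) {E J : ℕ} (l l' : ℕ) (h : Fin J → ℕ)
    (σ : ℕ → Fin N → Bool) (v : Fin E → Fin N) :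
    gadgetPsi Γ s (fun i => σ l (v i)) * gadgetPsi Γ s (fun i => σ l' (v i)) *
        ∏ k, gadgetTilt Γ (fun i => σ (h k) (v i))
      = ∑ a : Fin J → Fin Γ.1, (∏ k, Γ.tilt (a k)) * freshAt Γ s a l l' h σ v := by
  have hpsi : ∀ z : Fin E → Bool, gadgetPsi Γ s z = (1 / 2) * ∑ u : Bool, (if u then spin s else 1) *
      ∏ i : Fin E, if (if u then (edgeAt Γ i).2.2 else (edgeAt Γ i).2.1) then spin (z i) else 1 :=
    fun z => by simp [gadgetPsi, Fintype.sum_bool]; ring
  simp only [gadgetTilt, Fintype.prod_sum, hpsi, Finset.mul_sum, Finset.sum_mul, freshAt]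
  refine Finset.sum_congr rfl fun a _ => ?_
  rw [Finset.sum_comm]
  refine Finset.sum_congr rfl fun u _ => Finset.sum_congr rfl fun u' _ => ?_
  simp only [Finset.prod_mul_distrib]
  rw [Finset.prod_comm]
  ring

omit [NeZero N] in
theorem sum_abs_tilt_le (Γ : Gadget) : ∑ a, |Γ.tilt a| ≤ 1 / 8 := by
  unfold Gadget.tilt
  split_ifs with h
  · have := (Rat.cast_le (K := ℝ)).2 h
    push_cast at this
    exact this
  · simp

omit [NeZero N] in
theorem abs_gadgetTilt_le (Γ : Gadget) {E : ℕ} (z : Fin E → Bool) : |gadgetTilt Γ z| ≤ 1 / 8 := by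
  refine ((Finset.abs_sum_le_sum_abs _ _).trans (Finset.sum_le_sum fun a _ => ?_)).trans
    (sum_abs_tilt_le Γ)
  rw [abs_mul, Finset.abs_prod]
  exact mul_le_of_le_one_right (abs_nonneg _) (Finset.prod_le_one (fun i _ => abs_nonneg _)
    fun i _ => by split_ifs <;> simp [States.abs_spin])

omit [NeZero N] in
theorem measurable_ins : ∀ (J n : ℕ) (G : (Fin J → ℕ) → Arr → ℝ), (∀ h, Measurable (G h)) →
    Measurable fun ω => ins J n fun h => G h ω
  | 0, _, _, hG => hG _
  | J + 1, n, G, hG => by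
    simp only [ins]
    exact (Finset.measurable_sum _ fun q _ => measurable_ins J n _ fun h => hG _).sub
      ((measurable_ins J (n + 1) _ fun h => hG _).const_mul _)

omit [NeZero N] in
theorem hasSum_avg {ι : Type*} [Fintype ι] {f : ℕ → ι → ℝ} {g : ι → ℝ}
    (h : ∀ i, HasSum (fun J => f J i) (g i)) : HasSum (fun J => avg (f J)) (avg g) :=
  (hasSum_sum fun i _ => h i).div_const _

/-- The tilted disorder average as a series of insertions. -/
theorem hasSum_eav (n : ℕ) (t : (Fin N → Bool) → ℝ) (ht : ∀ y, |t y| ≤ 1 / 8)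
    (A : Env p N → (ℕ → Fin N → Bool) → ℝ) (hA1 : ∀ e σ, |A e σ| ≤ 1)
    (hA : ∀ e σ τ, (∀ l < n, σ l = τ l) → A e σ = A e τ) :
    HasSum (fun J : ℕ => ((J.factorial : ℝ))⁻¹ * eav p P Q μ x (n + J) (fun _ => 0)
        (fun e σ => A e σ * ins J n fun h => ∏ k, t (σ (h k))))
      (eav p P Q μ x n t A) := by
  set c0 : ℕ → ℝ := fun J => ((J.factorial : ℝ))⁻¹ *
    ((2 : ℝ) ^ J * (n.ascFactorial J : ℝ) * (1 / 8) ^ J)
  have hc0 : Summable c0 := (summable_dbound n).congr fun J => by simp only [c0]; ring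
  set fJ : ℕ → Dis K p N → ℝ := fun J d =>
    ((J.factorial : ℝ))⁻¹ * dterm J n (totalH p x d) t (A d.2.1) with hfJ
  have e1 : ∀ J : ℕ, ((J.factorial : ℝ))⁻¹ * eav p P Q μ x (n + J) (fun _ => 0)
      (fun e σ => A e σ * ins J n fun h => ∏ k, t (σ (h k))) = ∫ d, fJ J d ∂disLaw p N P Q μ := by
    intro J
    rw [eav, ← integral_const_mul]
    refine integral_congr_ae (ae_of_all _ fun d => ?_)
    simp only [fJ, dterm, add_zero]
  have hm : ∀ J, Measurable (fJ J) := by
    intro J
    have h0 := measurable_navDis (K := K) p x (n + J) (fun _ => 0)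
      fun e σ => A e σ * ins J n fun h => ∏ k, t (σ (h k))
    simp only [add_zero] at h0
    exact h0.const_mul _
  rw [funext e1, eav]
  refine hasSum_integral_of_dominated_convergence (fun J _ => c0 J)
    (fun J => (hm J).aestronglyMeasurable) (fun J => ae_of_all _ fun d => ?_)
    (ae_of_all _ fun _ => hc0) (integrable_const _) (ae_of_all _ fun d => ?_)
  · simp only [fJ, c0, Real.norm_eq_abs, abs_mul, abs_inv, Nat.abs_cast]
    refine mul_le_mul_of_nonneg_left ?_ (by positivity)
    exact (abs_dterm_le J n (totalH p x d) t _ ht (hA1 d.2.1)).trans_eq (one_mul _)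
  · exact hasSum_dterm n (totalH p x d) t (A d.2.1) (hA d.2.1) (hA1 d.2.1) ht

/-- The gadget identity. -/
theorem sys_gadget_aux (Γ : Gadget) (s : Bool) (g : Fin p.L) (hg0 : (g : ℕ) ≠ 0)
    (hdec : decodeKer g = some (Γ, s)) {X : ℝ} (hx : ∀ o, |x o| ≤ X)
    {n q l l' : ℕ} {F : List (Coord n)} (hF : SitesBelow F q) (hl : l < n) (hl' : l' < n) :
    |(∫ ω, repMono F ω * ω.2 (g : ℕ) l l' ∂sysArr p N P Q μ x) -
      ∑' J : ℕ, ((J.factorial : ℝ))⁻¹ * ∑ a : Fin J → Fin Γ.1, (∏ i, Γ.tilt (a i)) *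
        ∫ ω, repMono F ω * ins J n (fun h => freshValue Γ s a l l' q h ω) ∂sysArr p N P Q μ x|
      ≤ slotErr p n X (F.length * (2 / p.S)) := by
  have hE : arity g = Γ.2.1.length := by simp [arity, hg0, hdec]
  have hpsi : ∀ z, slotPsi g z = gadgetPsi Γ s z := fun z => by simp [slotPsi, hg0, hdec]
  have htilt : ∀ z, slotTilt g z = gadgetTilt Γ z := fun z => by simp [slotTilt, hg0, hdec]
  set Φ : (Fin (arity g) → Fin N) → (ℕ → Fin N → Bool) → ℝ :=
    fun v σ => slotPsi g (fun i => σ l (v i)) * slotPsi g (fun i => σ l' (v i)) with hΦ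
  have hΦ1 : ∀ v σ, |Φ v σ| ≤ 1 := fun v σ => by
    simp only [hΦ, abs_mul]
    exact mul_le_one₀ (abs_slotPsi_le _ _) (abs_nonneg _) (abs_slotPsi_le _ _)
  have e1 : ∫ ω, repMono F ω * ω.2 (g : ℕ) l l' ∂sysArr p N P Q μ x
      = avg fun c : Fin q → Fin N => eav p P Q μ x n (fun _ => 0)
          fun e σ => repVal p F c e.1 σ * avg fun u : Fin p.S => Φ (e.1 g u) σ := by
    rw [integral_sysArr_eav p P Q μ x (G := fun ω => repMono F ω * ω.2 (g : ℕ) l l') (B := 1)
      ((measurable_repMono F).mul (by fun_prop)) (fun e si σ => ?_) n q (fun e si σ τ h => ?_)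
      fun e si t σ h => ?_]
    · refine avg_congr fun c => eav_congr p P Q μ x n _ fun e σ => ?_
      rw [repVal_eq]
      congr 1
      simp only [arrOf, kval, dif_pos g.isLt, kern, avg, Fintype.card_fin, hΦ, Fin.eta, psiAt]
    · rw [abs_mul]
      exact mul_le_one₀ (abs_repMono_arrOf_le p F e si σ) (abs_nonneg _) (abs_kval_le p e _ _ _)
    · simp only [arrOf, h l hl, h l' hl']
      rw [← arrOf, ← arrOf, repMono_congr_rep p F e si h]
    · simp only [arrOf]
      rw [← arrOf, ← arrOf, repMono_congr_site p hF e σ h]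
  -- the series at fixed sites
  have hser : ∀ (c : Fin q → Fin N) (v : Fin (arity g) → Fin N),
      HasSum (fun J : ℕ => ((J.factorial : ℝ))⁻¹ * eav p P Q μ x (n + J) (fun _ => 0) fun e σ =>
          repVal p F c e.1 σ * Φ v σ * ins J n (fun h => ∏ k, tv p g v (σ (h k))))
        (eav p P Q μ x n (tv p g v) fun e σ => repVal p F c e.1 σ * Φ v σ) := fun c v =>
    hasSum_eav p P Q μ x n (tv p g v)
      (fun y => by simp only [tv, htilt]; exact abs_gadgetTilt_le Γ _)
      (fun e σ => repVal p F c e.1 σ * Φ v σ)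
      (fun e σ => by
        rw [abs_mul]
        exact mul_le_one₀ (abs_repMono_arrOf_le p F _ _ σ) (abs_nonneg _) (hΦ1 v σ))
      fun e σ τ h => by
        simp only [hΦ, h l hl, h l' hl', repVal, repMono_congr_rep p F _ _ h]
  have hterm : ∀ J : ℕ, (avg fun c : Fin q → Fin N => avg fun v : Fin (arity g) → Fin N =>
        eav p P Q μ x (n + J) (fun _ => 0) fun e σ =>
          repVal p F c e.1 σ * Φ v σ * ins J n (fun h => ∏ k, tv p g v (σ (h k))))
      = ∑ a : Fin J → Fin Γ.1, (∏ i, Γ.tilt (a i)) *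
          ∫ ω, repMono F ω * ins J n (fun h => freshValue Γ s a l l' q h ω) ∂sysArr p N P Q μ x := by
    intro J
    have hfr : ∀ a : Fin J → Fin Γ.1,
        ∫ ω, repMono F ω * ins J n (fun h => freshValue Γ s a l l' q h ω) ∂sysArr p N P Q μ x
        = avg fun c : Fin q → Fin N => avg fun v : Fin (arity g) → Fin N =>
            eav p P Q μ x (n + J) (fun _ => 0) fun e σ =>
              repVal p F c e.1 σ * ins J n (fun h => freshAt Γ s a l l' h σ v) := fun a =>
      integral_fresh p P Q μ x (Nat.le_add_right n J) hF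
        (measurable_ins J n _ fun h => by
          unfold freshValue
          exact (Finset.measurable_sum _ fun u _ => Finset.measurable_sum _ fun u' _ =>
            (Finset.measurable_prod _ fun i _ => measurable_spinProd _ _).const_mul _).const_mul _)
        (fun σ v => ins J n fun h => freshAt Γ s a l l' h σ v)
        (fun e si σ => congrArg _ (funext fun h => freshValue_arrOf p Γ s hE a l l' q h e si σ))
        (fun σ v => abs_ins_le J n _ 1 fun h => abs_freshAt_le Γ s a l l' h σ v)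
        fun σ τ v h => ins_congr J n fun gg hgg => by
          simp only [freshAt, h l (by omega), h l' (by omega), fun k => h _ (hgg k)]
    simp only [hfr, ← avg_const_mul, ← eav_const_mul, ← avg_sum, ← eav_sum]
    refine avg_congr fun c => avg_congr fun v => eav_congr p P Q μ x (n + J) _ fun e σ => ?_
    have e3 : ins J n (fun h => Φ v σ * ∏ k, tv p g v (σ (h k)))
        = ins J n (fun h => ∑ a : Fin J → Fin Γ.1, (∏ k, Γ.tilt (a k)) *
            freshAt Γ s a l l' h σ v) :=
      congrArg _ (funext fun h => by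
        simp only [hΦ, tv, hpsi, htilt]
        exact psi_mul_prod_tilt Γ s l l' h σ v)
    rw [ins_sum, ins_const_mul] at e3
    rw [mul_assoc, e3, Finset.mul_sum]
    refine Finset.sum_congr rfl fun a _ => ?_
    rw [ins_const_mul]
    ring
  have hsum : HasSum (fun J : ℕ => ((J.factorial : ℝ))⁻¹ * ∑ a : Fin J → Fin Γ.1,
      (∏ i, Γ.tilt (a i)) *
        ∫ ω, repMono F ω * ins J n (fun h => freshValue Γ s a l l' q h ω) ∂sysArr p N P Q μ x)
      (avg fun c : Fin q → Fin N => avg fun v : Fin (arity g) → Fin N =>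
        eav p P Q μ x n (tv p g v) fun e σ => repVal p F c e.1 σ * Φ v σ) := by
    simp only [← hterm, ← avg_const_mul]
    exact hasSum_avg fun c => hasSum_avg fun v => hser c v
  rw [e1, hsum.tsum_eq]
  exact slot_monomial p P Q μ x hx F g Φ hΦ1

/-- The gadget identity for the kernel of a gadget. -/
theorem sys_gadget (Γ : Gadget) (s : Bool) (hL : kidx Γ s < p.L) {X : ℝ} (hx : ∀ o, |x o| ≤ X)
    {n q l l' : ℕ} {F : List (Coord n)} (hF : SitesBelow F q) (hl : l < n) (hl' : l' < n) :
    |(∫ ω, repMono F ω * ω.2 (kidx Γ s) l l' ∂sysArr p N P Q μ x) -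
      ∑' J : ℕ, ((J.factorial : ℝ))⁻¹ * ∑ a : Fin J → Fin Γ.1, (∏ i, Γ.tilt (a i)) *
        ∫ ω, repMono F ω * ins J n (fun h => freshValue Γ s a l l' q h ω) ∂sysArr p N P Q μ x|
      ≤ slotErr p n X (F.length * (2 / p.S)) :=
  sys_gadget_aux p P Q μ x Γ s ⟨kidx Γ s, hL⟩ (Nat.succ_ne_zero _) (decodeKer_kidx Γ s) hx hF hl hl'

end Vale.Agent.P168.Limit
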